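import Vale.Agent.P095.Gamma.Main
import Vale.Agent.P095.Gamma.McDuff
import Vale.Agent.P101.Fomega.Norm

/-!
P095: families of almost tracial functionals, their limits on central sequences, and commuting
translated slots.
-/

open Filter Topology BoundedContinuousFunction
open scoped ComplexOrder

namespace Vale.Agent.P095.Mix

open Gamma Vale.Agent.P101

variable {B : Type*} [CStarAlgebra B] {G : Type*} {I : Type*}

/-- Sets of positive functionals of norm at most one, tracial on central sequences and permuted by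
the action. -/
structure IsFamily (α : G → B ≃⋆ₐ[ℂ] B) (Φ : I → Set (B →ₗ[ℂ] ℂ)) : Prop where
  nonneg : ∀ i, ∀ φ ∈ Φ i, ∀ x, 0 ≤ φ (star x * x)
  one_le : ∀ i, ∀ φ ∈ Φ i, ‖φ 1‖ ≤ 1
  almostTrace : ∀ i, ∀ (c ε : ℝ), 0 < ε → ∃ (S : Finset B) (δ : ℝ), 0 < δ ∧ ∀ x y : B,
    ‖x‖ ≤ c → ‖y‖ ≤ c → (∀ b ∈ S, ‖x * b - b * x‖ ≤ δ) → (∀ b ∈ S, ‖y * b - b * y‖ ≤ δ) →
      ∀ φ ∈ Φ i, ‖φ (x * y - y * x)‖ ≤ ε
  act : ∀ i g, ∃ j, ∀ φ ∈ Φ i, φ.comp (α g : B →⋆ₐ[ℂ] B).toAlgHom.toLinearMap ∈ Φ j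

/-- Small in the 2-seminorms of every member of the family. -/
def SmallF (Φ : I → Set (B →ₗ[ℂ] ℂ)) (x : ℕ → B) : Prop :=
  ∀ i, ∀ ε > 0, ∀ᶠ n in atTop, ∀ φ ∈ Φ i, (φ (star (x n) * x n)).re < ε

/-- Asymptotically commuting with every element in norm. -/
def NormCentral (x : ℕ → B) : Prop :=
  ∀ b, Tendsto (fun n => ‖x n * b - b * x n‖) atTop (𝓝 0)

/-- A functional nonnegative on the squares commutes with the adjoint. -/
theorem map_star_of_nonneg {φ : B →ₗ[ℂ] ℂ} (hp : ∀ x, 0 ≤ φ (star x * x)) (x : B) :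
    φ (star x) = (starRingEnd ℂ) (φ x) := by
  have hi : ∀ y, (φ (star y * y)).im = 0 := fun y => (Complex.nonneg_iff.1 (hp y)).2.symm
  have h1 := hi (1 + x)
  have h2 := hi (1 + Complex.I • x)
  have h3 := hi x
  have h4 := hi 1
  rw [star_one, one_mul] at h4
  simp only [star_add, star_one, star_smul, add_mul, mul_add, one_mul, mul_one, smul_mul_assoc,
    mul_smul_comm, map_add, map_smul, smul_eq_mul, Complex.add_im, Complex.mul_im,
    Complex.mul_re, Complex.I_re, Complex.I_im, Complex.star_def, Complex.conj_I, Complex.neg_re,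
    Complex.neg_im, h3, h4] at h1 h2
  refine Complex.ext ?_ ?_ <;> simp only [Complex.conj_re, Complex.conj_im] <;> linarith

/-- A functional nonnegative on the squares is bounded by its value at the unit. -/
theorem norm_apply_le_of_nonneg [PartialOrder B] [StarOrderedRing B] {φ : B →ₗ[ℂ] ℂ}
    (hp : ∀ x, 0 ≤ φ (star x * x)) (x : B) : ‖φ x‖ ≤ (φ 1).re * ‖x‖ := by
  have h0 : 0 ≤ (φ 1).re := by simpa using (Complex.nonneg_iff.1 (hp 1)).1
  have him : (φ 1).im = 0 := by simpa using (Complex.nonneg_iff.1 (hp 1)).2.symm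
  have hsq : (φ (star x * x)).re ≤ ‖x‖ ^ 2 * (φ 1).re := by
    have hle : 0 ≤ algebraMap ℝ B ‖star x * x‖ - star x * x :=
      sub_nonneg.2 (IsSelfAdjoint.le_algebraMap_norm_self (IsSelfAdjoint.star_mul_self x))
    obtain ⟨z, hz⟩ := CStarAlgebra.nonneg_iff_eq_star_mul_self.1 hle
    have h := (Complex.nonneg_iff.1 (hp z)).1
    rw [← hz, map_sub, Algebra.algebraMap_eq_smul_one, ← Complex.coe_smul, map_smul, smul_eq_mul,
      Complex.sub_re, Complex.re_ofReal_mul, CStarRing.norm_star_mul_self] at h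
    nlinarith
  set t := φ x with ht
  rcases eq_or_ne x 0 with rfl | hx
  · simp [ht]
  rcases eq_or_ne t 0 with ht0 | ht0
  · rw [ht0, norm_zero]; positivity
  have h := (Complex.nonneg_iff.1
    (hp (((‖x‖ * ‖t‖ : ℝ) : ℂ) • (1 : B) - (starRingEnd ℂ) t • x))).1
  simp only [star_sub, star_smul, star_one, sub_mul, mul_sub, smul_mul_assoc, mul_smul_comm,
    one_mul, mul_one, map_sub, map_smul, smul_eq_mul, map_star_of_nonneg hp, ← ht,
    Complex.star_def, Complex.conj_conj, Complex.sub_re, Complex.mul_re, Complex.mul_im,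
    Complex.conj_re, Complex.conj_im, Complex.ofReal_re, Complex.ofReal_im, him] at h
  have hn : ‖t‖ ^ 2 = t.re * t.re + t.im * t.im := by
    rw [Complex.sq_norm, Complex.normSq_apply]
  have hx0 : 0 < ‖x‖ := norm_pos_iff.2 hx
  have hmul := mul_le_mul_of_nonneg_left hsq (sq_nonneg ‖t‖)
  have he : ‖x‖ ^ 2 * (φ 1).re * ‖t‖ ^ 2 =
      ‖x‖ ^ 2 * (φ 1).re * (t.re * t.re + t.im * t.im) := by rw [hn]
  have h' : 0 ≤ 2 * ‖t‖ ^ 2 * ‖x‖ * ((φ 1).re * ‖x‖ - ‖t‖) := by
    simp only [hn] at hmul ⊢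
    linarith
  nlinarith [mul_pos (mul_pos two_pos (pow_pos (norm_pos_iff.2 ht0) 2)) hx0]

/-- Translates of norm central sequences are norm central, also along filters. -/
theorem tendsto_map_comm (φ : B ≃⋆ₐ[ℂ] B) {l : Filter ℕ} {x : ℕ → B}
    (hx : ∀ b, Tendsto (fun n => x n * b - b * x n) l (𝓝 0)) (b : B) :
    Tendsto (fun n => φ (x n) * b - b * φ (x n)) l (𝓝 0) := by
  refine squeeze_zero_norm (fun n => ?_) (tendsto_zero_iff_norm_tendsto_zero.1 (hx (φ.symm b)))
  have h := NonUnitalStarAlgHom.norm_apply_le (φ : B →⋆ₐ[ℂ] B) (x n * φ.symm b - φ.symm b * x n)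
  change ‖φ (x n * φ.symm b - φ.symm b * x n)‖ ≤ _ at h
  simpa only [map_sub, map_mul, φ.apply_symm_apply] using h

/-- An automorphism applied to a central sequence. -/
noncomputable def centralMap (ω : Ultrafilter ℕ) (φ : B ≃⋆ₐ[ℂ] B) :
    centralSeq B ω →⋆ₐ[ℂ] centralSeq B ω where
  toFun x := ⟨translate φ (x : ℕ →ᵇ B), fun b => tendsto_map_comm φ x.2 b⟩
  map_one' := Subtype.ext (BoundedContinuousFunction.ext fun n => map_one φ)
  map_mul' _ _ := Subtype.ext (BoundedContinuousFunction.ext fun n => map_mul φ _ _)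
  map_zero' := Subtype.ext (BoundedContinuousFunction.ext fun n => map_zero φ)
  map_add' _ _ := Subtype.ext (BoundedContinuousFunction.ext fun n => map_add φ _ _)
  commutes' r := Subtype.ext (BoundedContinuousFunction.ext fun n =>
    AlgHomClass.commutes φ r)
  map_star' _ := Subtype.ext (BoundedContinuousFunction.ext fun n => map_star φ _)

@[simp] theorem centralMap_apply (ω : Ultrafilter ℕ) (φ : B ≃⋆ₐ[ℂ] B) (x : centralSeq B ω)
    (n : ℕ) : (centralMap ω φ x : ℕ →ᵇ B) n = φ ((x : ℕ →ᵇ B) n) := rfl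

variable {α : G → B ≃⋆ₐ[ℂ] B} {Φ : I → Set (B →ₗ[ℂ] ℂ)} {ω : Ultrafilter ℕ}

/-- A sequence of members of finitely many sets either vanishes in the limit on central sequences
or is there a multiple of a tracial state. -/
theorem exists_limit_state [PartialOrder B] [StarOrderedRing B] (h : IsFamily α Φ) (J : Finset I)
    (φs : ℕ → B →ₗ[ℂ] ℂ) (hφ : ∀ n, ∃ i ∈ J, φs n ∈ Φ i) :
    (∀ z : centralSeq B ω, Tendsto (fun n => φs n ((z : ℕ →ᵇ B) n)) ω (𝓝 0)) ∨
      ∃ (c : ℝ) (T : TraceState (centralSeq B ω)), 0 < c ∧ c ≤ 1 ∧ ∀ z : centralSeq B ω,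
        Tendsto (fun n => φs n ((z : ℕ →ᵇ B) n)) ω (𝓝 ((c : ℂ) * T.f z)) := by
  have hp : ∀ n x, 0 ≤ φs n (star x * x) := fun n x =>
    let ⟨i, _, hi⟩ := hφ n; h.nonneg i _ hi x
  have hre : ∀ n, (φs n 1).re ≤ 1 := fun n =>
    let ⟨i, _, hi⟩ := hφ n; (Complex.re_le_norm _).trans (h.one_le i _ hi)
  have hb : ∀ n x, ‖φs n x‖ ≤ (φs n 1).re * ‖x‖ := fun n => norm_apply_le_of_nonneg (hp n)
  have hb1 : ∀ n x, ‖φs n x‖ ≤ ‖x‖ := fun n x =>
    (hb n x).trans (mul_le_of_le_one_left (norm_nonneg x) (hre n))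
  have hex : ∀ z : centralSeq B ω, ∃ L, Tendsto (fun n => φs n ((z : ℕ →ᵇ B) n)) ω (𝓝 L) :=
    fun z => exists_tendsto_of_norm_le fun n =>
      (hb1 n _).trans ((z : ℕ →ᵇ B).norm_coe_le_norm n)
  choose L hL using hex
  set c : ℝ := (L 1).re with hc
  have hone : Tendsto (fun n => (φs n 1).re) ω (𝓝 c) :=
    ((Complex.continuous_re.tendsto _).comp (hL 1)).congr fun n => by simp
  have hL1 : L 1 = (c : ℂ) := tendsto_nhds_unique (hL 1) <|
    ((Complex.continuous_ofReal.tendsto _).comp hone).congr fun n => by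
      have := (Complex.nonneg_iff.1 (hp n 1)).2
      apply Complex.ext <;> simp_all
  have hc0 : 0 ≤ c := ge_of_tendsto hone <| Eventually.of_forall fun n => by
    simpa using (Complex.nonneg_iff.1 (hp n 1)).1
  have hc1 : c ≤ 1 := le_of_tendsto hone (Eventually.of_forall hre)
  have hbound : ∀ z, ‖L z‖ ≤ c * ‖z‖ := fun z =>
    le_of_tendsto_of_tendsto (hL z).norm (hone.mul_const ‖z‖) <| Eventually.of_forall fun n =>
      (hb n _).trans (mul_le_mul_of_nonneg_left ((z : ℕ →ᵇ B).norm_coe_le_norm n)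
        (by simpa using (Complex.nonneg_iff.1 (hp n 1)).1))
  rcases hc0.eq_or_lt with hc0' | hc0'
  · refine Or.inl fun z => ?_
    have := hbound z
    rw [← hc0', zero_mul, norm_le_zero_iff] at this
    exact this ▸ hL z
  have hadd : ∀ x y, L (x + y) = L x + L y := fun x y =>
    tendsto_nhds_unique (hL (x + y)) (((hL x).add (hL y)).congr fun n => by simp)
  have hsmul : ∀ (r : ℂ) x, L (r • x) = r * L x := fun r x =>
    tendsto_nhds_unique (hL (r • x)) (((hL x).const_mul r).congr fun n => by simp)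
  have hcne : (c : ℂ) ≠ 0 := Complex.ofReal_ne_zero.2 hc0'.ne'
  have htr : ∀ x y, L (x * y) = L (y * x) := fun x y => by
    refine sub_eq_zero.1 (norm_le_zero_iff.1 (le_of_forall_pos_le_add fun ε hε => ?_))
    rw [zero_add]
    refine le_of_tendsto ((hL (x * y)).sub (hL (y * x))).norm ?_
    have hev : ∀ i ∈ J, ∀ᶠ n in (ω : Filter ℕ), ∀ φ ∈ Φ i,
        ‖φ ((x : ℕ →ᵇ B) n * (y : ℕ →ᵇ B) n - (y : ℕ →ᵇ B) n * (x : ℕ →ᵇ B) n)‖ ≤ ε := by
      intro i _
      obtain ⟨S, δ, hδ, hS⟩ := h.almostTrace i (max ‖x‖ ‖y‖) ε hε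
      have h1 : ∀ z : centralSeq B ω, ∀ᶠ n in (ω : Filter ℕ), ∀ b ∈ S,
          ‖(z : ℕ →ᵇ B) n * b - b * (z : ℕ →ᵇ B) n‖ ≤ δ := fun z =>
        (eventually_all_finset S).2 fun b _ =>
          ((tendsto_zero_iff_norm_tendsto_zero.1 (z.2 b)).eventually_lt_const hδ).mono fun _ => le_of_lt
      filter_upwards [h1 x, h1 y] with n hx hy φ hφ
      exact hS _ _ (((x : ℕ →ᵇ B).norm_coe_le_norm n).trans (le_max_left _ _))
        (((y : ℕ →ᵇ B).norm_coe_le_norm n).trans (le_max_right _ _)) hx hy φ hφ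
    filter_upwards [(eventually_all_finset J).2 hev] with n hn
    obtain ⟨i, hi, hmem⟩ := hφ n
    simpa using hn i hi _ hmem
  refine Or.inr ⟨c, {
    f :=
      { toFun := fun z => (c : ℂ)⁻¹ * L z
        map_add' := fun x y => by rw [hadd, mul_add]
        map_smul' := fun r x => by
          rw [hsmul, RingHom.id_apply, smul_eq_mul]; ring }
    trace := fun x y => ?_
    nonneg := fun x => ?_
    star_map := fun x => ?_
    one := ?_
    bound := fun x => ?_ }, hc0', hc1, fun z => ?_⟩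
  · show (c : ℂ)⁻¹ * L (x * y) = (c : ℂ)⁻¹ * L (y * x)
    rw [htr]
  · show 0 ≤ ((c : ℂ)⁻¹ * L (star x * x)).re
    rw [← Complex.ofReal_inv, Complex.re_ofReal_mul]
    refine mul_nonneg (inv_nonneg.2 hc0) (ge_of_tendsto
      ((Complex.continuous_re.tendsto _).comp (hL (star x * x)))
      (Eventually.of_forall fun n => ?_))
    simpa using (Complex.nonneg_iff.1 (hp n ((x : ℕ →ᵇ B) n))).1
  · show (c : ℂ)⁻¹ * L (star x) = (starRingEnd ℂ) ((c : ℂ)⁻¹ * L x)
    rw [map_mul, map_inv₀, Complex.conj_ofReal,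
      show L (star x) = (starRingEnd ℂ) (L x) from tendsto_nhds_unique (hL (star x))
        (((Complex.continuous_conj.tendsto _).comp (hL x)).congr fun n => by
          simp [map_star_of_nonneg (hp n)])]
  · show (c : ℂ)⁻¹ * L 1 = 1
    rw [hL1, inv_mul_cancel₀ hcne]
  · show ‖(c : ℂ)⁻¹ * L x‖ ≤ ‖x‖
    rw [norm_mul, norm_inv, Complex.norm_real, Real.norm_eq_abs, abs_of_pos hc0',
      inv_mul_le_iff₀ hc0']
    exact hbound x
  · show Tendsto _ _ (𝓝 ((c : ℂ) * ((c : ℂ)⁻¹ * L z)))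
    rw [mul_inv_cancel_left₀ hcne]
    exact hL z

/-- Indices along which later terms commute in norm, up to a null sequence, with given finitely
many maps applied to the earlier ones. -/
theorem exists_norm_indices {x : ℕ → B} (hx : NormCentral x) (Δ : Finset G)
    (α : G → B ≃⋆ₐ[ℂ] B) :
    ∀ N : ℕ, ∃ m : Fin N → ℕ → ℕ, (∀ i n, n ≤ m i n) ∧ ∀ i j, i < j → ∀ k ∈ Δ,
      Tendsto (fun n => ‖x (m j n) * α k (x (m i n)) - α k (x (m i n)) * x (m j n)‖) atTop (𝓝 0) ∧
      Tendsto (fun n => ‖x (m j n) * α k (star (x (m i n)))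
        - α k (star (x (m i n))) * x (m j n)‖) atTop (𝓝 0) := by
  classical
  intro N
  induction N with
  | zero => exact ⟨fun i => i.elim0, fun i => i.elim0, fun i => i.elim0⟩
  | succ N ih =>
    obtain ⟨m, hm, hrel⟩ := ih
    have hch : ∀ n, ∃ M, n ≤ M ∧ ∀ i : Fin N, ∀ k ∈ Δ,
        ‖x M * α k (x (m i n)) - α k (x (m i n)) * x M‖ < 1 / ((n : ℝ) + 1) ∧
        ‖x M * α k (star (x (m i n))) - α k (star (x (m i n))) * x M‖ < 1 / ((n : ℝ) + 1) := by
      intro n
      have h2 : ∀ᶠ M in atTop, ∀ i : Fin N, ∀ k ∈ Δ,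
          ‖x M * α k (x (m i n)) - α k (x (m i n)) * x M‖ < 1 / ((n : ℝ) + 1) ∧
          ‖x M * α k (star (x (m i n))) - α k (star (x (m i n))) * x M‖ < 1 / ((n : ℝ) + 1) :=
        eventually_all.2 fun i => (eventually_all_finset Δ).2 fun k _ =>
          ((hx _).eventually_lt_const (by positivity)).and
            ((hx _).eventually_lt_const (by positivity))
      obtain ⟨M, h, h'⟩ := ((eventually_ge_atTop n).and h2).exists
      exact ⟨M, h, h'⟩
    choose M hMn hM using hch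
    refine ⟨Fin.snoc m M, fun i n => ?_, fun i j hij k hk => ?_⟩
    · induction i using Fin.lastCases with
      | last => simpa using hMn n
      | cast i => simpa using hm i n
    · induction j using Fin.lastCases with
      | cast j =>
        induction i using Fin.lastCases with
        | last => exact absurd hij (not_lt_of_gt (Fin.castSucc_lt_last j))
        | cast i => simpa using hrel i j (Fin.castSucc_lt_castSucc_iff.1 hij) k hk
      | last =>
        induction i using Fin.lastCases with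
        | last => exact absurd hij (lt_irrefl _)
        | cast i =>
          simp only [Fin.snoc_last, Fin.snoc_castSucc]
          exact ⟨squeeze_zero (fun n => norm_nonneg _) (fun n => (hM n i k hk).1.le)
              tendsto_one_div_add_atTop_nhds_zero_nat,
            squeeze_zero (fun n => norm_nonneg _) (fun n => (hM n i k hk).2.le)
              tendsto_one_div_add_atTop_nhds_zero_nat⟩

theorem SmallF.comp {y : ℕ → B} (hy : SmallF Φ y) {m : ℕ → ℕ} (hm : ∀ n, n ≤ m n) :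
    SmallF Φ fun n => y (m n) := fun i ε hε =>
  (tendsto_atTop_mono hm tendsto_id).eventually (hy i ε hε)

theorem SmallF.map (h : IsFamily α Φ) {y : ℕ → B} (hy : SmallF Φ y) (g : G) :
    SmallF Φ fun n => α g (y n) := fun i ε hε => by
  obtain ⟨j, hj⟩ := h.act i g
  filter_upwards [hy j ε hε] with n hn φ hφ
  rw [← map_star, ← map_mul]
  exact hn _ (hj φ hφ)

/-- Slots: reindexings of one sequence whose translates commute asymptotically in norm. -/
theorem exists_family_slots [Group G] (_h1 : ∀ a, α 1 a = a)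
    (hmul : ∀ g h a, α (g * h) a = α g (α h a)) (h : IsFamily α Φ)
    (hω : (ω : Filter ℕ) ≤ atTop) {x : ℕ →ᵇ B} (hx : NormCentral x)
    (hx0 : SmallF Φ fun n => x n * x n)
    (hx1 : SmallF Φ fun n => star (x n) * x n + x n * star (x n) - 1)
    (Γ : Finset G) (ι : Type*) [Fintype ι] :
    ∃ u : ι → centralSeq B ω,
      (∀ g a, SmallF Φ fun n => α g ((u a : ℕ →ᵇ B) n) * α g ((u a : ℕ →ᵇ B) n)) ∧
      (∀ g a, SmallF Φ fun n => star (α g ((u a : ℕ →ᵇ B) n)) * α g ((u a : ℕ →ᵇ B) n) +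
        α g ((u a : ℕ →ᵇ B) n) * star (α g ((u a : ℕ →ᵇ B) n)) - 1) ∧
      ∀ g ∈ Γ, ∀ k ∈ Γ, ∀ a b, a ≠ b →
        Tendsto (fun n => ‖α g ((u a : ℕ →ᵇ B) n) * α k ((u b : ℕ →ᵇ B) n) -
          α k ((u b : ℕ →ᵇ B) n) * α g ((u a : ℕ →ᵇ B) n)‖) ω (𝓝 0) ∧
        Tendsto (fun n => ‖α g ((u a : ℕ →ᵇ B) n) * star (α k ((u b : ℕ →ᵇ B) n)) -
          star (α k ((u b : ℕ →ᵇ B) n)) * α g ((u a : ℕ →ᵇ B) n)‖) ω (𝓝 0) := by
  classical
  let e := Fintype.equivFin ι
  let Δ : Finset G := (Γ ×ˢ Γ).image fun p => p.1⁻¹ * p.2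
  obtain ⟨m, hm, hrel⟩ := exists_norm_indices (x := fun n => x n) hx Δ α (Fintype.card ι)
  let u : ι → centralSeq B ω := fun a =>
    ⟨x.compContinuous ⟨fun n => m (e a) n, continuous_of_discreteTopology⟩, fun b =>
      tendsto_zero_iff_norm_tendsto_zero.2
        (((hx b).comp (tendsto_atTop_mono (hm (e a)) tendsto_id)).mono_left hω)⟩
  have hu : ∀ a n, (u a : ℕ →ᵇ B) n = x (m (e a) n) := fun a n => rfl
  have hiso : ∀ g z, ‖α g z‖ ≤ ‖z‖ := fun g z =>
    NonUnitalStarAlgHom.norm_apply_le (α g : B →⋆ₐ[ℂ] B) z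
  have hcancel : ∀ g k z, α g (α (g⁻¹ * k) z) = α k z := fun g k z => by
    rw [← hmul, mul_inv_cancel_left]
  have hlater : ∀ g ∈ Γ, ∀ k ∈ Γ, ∀ a b, e b < e a →
      Tendsto (fun n => ‖α g ((u a : ℕ →ᵇ B) n) * α k ((u b : ℕ →ᵇ B) n) -
        α k ((u b : ℕ →ᵇ B) n) * α g ((u a : ℕ →ᵇ B) n)‖) ω (𝓝 0) ∧
      Tendsto (fun n => ‖α g ((u a : ℕ →ᵇ B) n) * star (α k ((u b : ℕ →ᵇ B) n)) -
        star (α k ((u b : ℕ →ᵇ B) n)) * α g ((u a : ℕ →ᵇ B) n)‖) ω (𝓝 0) := by
    intro g hg k hk a b hab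
    obtain ⟨r1, r2⟩ := hrel _ _ hab _
      (Finset.mem_image.2 ⟨(g, k), Finset.mem_product.2 ⟨hg, hk⟩, rfl⟩)
    constructor
    · refine squeeze_zero (fun n => norm_nonneg _) (fun n => ?_) (r1.mono_left hω)
      refine le_of_eq_of_le ?_ (hiso g _)
      rw [map_sub, map_mul, map_mul, hcancel, hu, hu]
    · refine squeeze_zero (fun n => norm_nonneg _) (fun n => ?_) (r2.mono_left hω)
      refine le_of_eq_of_le ?_ (hiso g _)
      rw [map_sub, map_mul, map_mul, hcancel, map_star, hu, hu]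
  refine ⟨u, fun g a => ?_, fun g a => ?_, fun g hg k hk a b hab => ?_⟩
  · simpa only [map_mul, hu] using (hx0.comp (hm (e a))).map h g
  · simpa only [map_sub, map_add, map_mul, map_star, map_one, hu] using
      (hx1.comp (hm (e a))).map h g
  · rcases lt_or_gt_of_ne (fun hc => hab (e.injective hc)) with hlt | hlt
    · obtain ⟨r1, r2⟩ := hlater k hk g hg b a hlt
      refine ⟨r1.congr fun n => norm_sub_rev _ _, r2.congr fun n => ?_⟩
      rw [← norm_star]
      simp only [star_sub, star_mul, star_star]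
    · exact hlater g hg k hk a b hlt

end Vale.Agent.P095.Mix
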