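import Vale.Agent.P095.Mix.Limit
import Vale.Agent.P095.Mix.Family
import Vale.Agent.P095.Mix.Stage.Translate
import Vale.Agent.P095.Mix.Stage.Model

/-!
P095: invariant matrix units for families of almost tracial functionals under amenable groups.
-/

open Filter Topology BoundedContinuousFunction
open scoped ComplexOrder

namespace Vale.Agent.P095.Mix

open Gamma Vale.Agent.P101

universe u v

variable {B : Type u} [CStarAlgebra B] [PartialOrder B] [StarOrderedRing B] {G : Type v} [Group G]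
  [DecidableEq G] {I : Type*} {α : G → B ≃⋆ₐ[ℂ] B} {Φ : I → Set (B →ₗ[ℂ] ℂ)}

/-- A positive functional of norm at most one is dominated by the squared norm. -/
theorem re_map_le_norm_sq {φ : B →ₗ[ℂ] ℂ} (h0 : ∀ x, 0 ≤ φ (star x * x)) (h1 : ‖φ 1‖ ≤ 1)
    (z : B) : (φ (star z * z)).re ≤ ‖z‖ ^ 2 := by
  have hnn : (0 : B) ≤ algebraMap ℝ B (‖star z * z‖) - star z * z :=
    sub_nonneg.2 (IsSelfAdjoint.star_mul_self z).le_algebraMap_norm_self
  obtain ⟨y, hy⟩ := CStarAlgebra.nonneg_iff_eq_star_mul_self.mp hnn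
  have h := (Complex.nonneg_iff.mp (h0 y)).1
  rw [← hy, map_sub, Complex.sub_re, Algebra.algebraMap_eq_smul_one,
    ← Complex.coe_smul, map_smul, smul_eq_mul, Complex.re_ofReal_mul,
    CStarRing.norm_star_mul_self, ← sq] at h
  have h2 : (φ 1).re ≤ 1 := (Complex.re_le_norm _).trans h1
  nlinarith [sq_nonneg ‖z‖]

/-- Evaluation of a central sequence. -/
noncomputable def centralEval (ω : Ultrafilter ℕ) (n : ℕ) : centralSeq B ω →⋆ₐ[ℂ] B :=
  (evalHom n).comp (centralSeq B ω).subtype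

omit [PartialOrder B] [StarOrderedRing B] in
@[simp] theorem centralEval_apply (ω : Ultrafilter ℕ) (n : ℕ) (y : centralSeq B ω) :
    centralEval ω n y = (y : ℕ →ᵇ B) n := rfl

/-- Tracial states on the central sequences that see neither relation null in the family nor
sequences null in norm. -/
structure IsLimitState (Φ : I → Set (B →ₗ[ℂ] ℂ)) {ω : Ultrafilter ℕ}
    (T : TraceState (centralSeq B ω)) : Prop where
  small : ∀ y : centralSeq B ω, SmallF Φ (fun n => (y : ℕ →ᵇ B) n) → T.hsq y = 0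
  null : ∀ y : centralSeq B ω, Tendsto (fun n => ‖(y : ℕ →ᵇ B) n‖) ω (𝓝 0) → T.hsq y = 0

omit [Group G] [DecidableEq G] in
/-- Bounds valid in every limit state hold at some stage uniformly over finitely many sets. -/
theorem exists_good_stage (h : IsFamily α Φ) {ω : Ultrafilter ℕ} (hω : (ω : Filter ℕ) ≤ atTop)
    (J : Finset I) (Qs : Finset (centralSeq B ω)) {p : ℕ → Prop}
    (hp : ∀ᶠ n in (ω : Filter ℕ), p n) {ε : ℝ} (hε : 0 < ε)
    (hQ : ∀ T : TraceState (centralSeq B ω), IsLimitState Φ T → ∀ Q ∈ Qs, T.hsq Q < ε) :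
    ∃ n, p n ∧ ∀ i ∈ J, ∀ φ ∈ Φ i, ∀ Q ∈ Qs,
      (φ (star (centralEval ω n Q) * centralEval ω n Q)).re < ε := by
  classical
  by_contra hcon
  have hbad : ∀ n, p n → ∃ φ : B →ₗ[ℂ] ℂ, (∃ i ∈ J, φ ∈ Φ i) ∧
      ∃ Q ∈ Qs, ε ≤ (φ (star (centralEval ω n Q) * centralEval ω n Q)).re := fun n hn => by
    by_contra hc
    push Not at hc
    exact hcon ⟨n, hn, fun i hi φ hφ => hc φ ⟨i, hi, hφ⟩⟩
  obtain ⟨n₀, hn₀⟩ := hp.exists
  obtain ⟨φ₀, hφ₀, -⟩ := hbad n₀ hn₀
  choose φb hφb hφbad using hbad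
  let φs : ℕ → B →ₗ[ℂ] ℂ := fun n => if hn : p n then φb n hn else φ₀
  have hφs : ∀ n, ∃ i ∈ J, φs n ∈ Φ i := fun n => by
    simp only [φs]
    split_ifs with hn
    · exact hφb n hn
    · exact hφ₀
  have hlim : ∀ Q ∈ Qs, ∀ᶠ n in (ω : Filter ℕ),
      (φs n (star (centralEval ω n Q) * centralEval ω n Q)).re < ε := by
    intro Q hQmem
    rcases exists_limit_state h J φs hφs with h0 | ⟨c, T, hc0, hc1, hT⟩
    · exact ((Complex.continuous_re.tendsto _).comp (h0 (star Q * Q))).eventually_lt_const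
        (Complex.zero_re.trans_lt hε)
    · have hzero : ∀ y : centralSeq B ω, (∀ η > 0, ∀ᶠ n in (ω : Filter ℕ),
          (φs n (star ((y : ℕ →ᵇ B) n) * (y : ℕ →ᵇ B) n)).re < η) → T.hsq y = 0 := by
        intro y hy
        refine le_antisymm ?_ (T.nonneg y)
        have hl := (Complex.continuous_re.tendsto _).comp (hT (star y * y))
        have := le_of_forall_pos_le_add fun η hη =>
          (le_of_tendsto hl ((hy η hη).mono fun n hn => hn.le)).trans (zero_add η).symm.le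
        rw [Complex.re_ofReal_mul] at this
        simp only [TraceState.hsq]
        nlinarith
      have hT' : IsLimitState Φ T :=
        ⟨fun y hy => hzero y fun η hη =>
          (Eventually.filter_mono hω (J.eventually_all.2 fun i _ => hy i η hη)).mono fun n hn => by
            obtain ⟨i, hi, hφ⟩ := hφs n
            exact hn i hi _ hφ,
        fun y hy => hzero y fun η hη =>
          ((hy.pow 2).eventually_lt_const (by simpa using hη)).mono fun n hn => by
            obtain ⟨i, _, hφ⟩ := hφs n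
            exact (re_map_le_norm_sq (h.nonneg i _ hφ) (h.one_le i _ hφ) _).trans_lt hn⟩
      refine ((Complex.continuous_re.tendsto _).comp (hT (star Q * Q))).eventually_lt_const ?_
      rw [Complex.re_ofReal_mul]
      have := hQ T hT' Q hQmem
      have := T.nonneg Q
      simp only [TraceState.hsq] at *
      nlinarith
  obtain ⟨n, hn, hall⟩ := (hp.and (Qs.eventually_all.2 hlim)).exists
  obtain ⟨Q, hQm, hle⟩ := hφbad n hn
  exact (hle.trans_lt (by simpa [φs, hn] using hall Q hQm)).false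

omit [PartialOrder B] [StarOrderedRing B] in
/-- A central sequence of contractions which is an almost invariant matrix unit in every limit
state. -/
theorem exists_candidate (h1 : ∀ a, α 1 a = a) (hmul : ∀ g h a, α (g * h) a = α g (α h a))
    (hG : ∀ (K : Finset G) (ε : ℝ), 0 < ε → ∃ F : Finset G, F.Nonempty ∧ ∀ g ∈ K,
      (((F.image (g * ·)) \ F).card : ℝ) ≤ ε * F.card)
    (h : IsFamily α Φ) {ω : Ultrafilter ℕ} (hω : (ω : Filter ℕ) ≤ atTop)
    {x : ℕ →ᵇ B} (hx : NormCentral x) (hx0 : SmallF Φ fun n => x n * x n)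
    (hx1 : SmallF Φ fun n => star (x n) * x n + x n * star (x n) - 1)
    (K : Finset G) {ε : ℝ} (hε : 0 < ε) :
    ∃ V : centralSeq B ω, (∀ n, ‖centralEval ω n V‖ ≤ 1) ∧
      ∀ T : TraceState (centralSeq B ω), IsLimitState Φ T → ∀ k ∈ insert 1 K,
        T.hsq (V * V) < ε ∧ T.hsq (star V * V + V * star V - 1) < ε ∧
          T.hsq (centralMap ω (α k) V - V) < ε := by
  classical
  set K' : Finset G := insert 1 K with hK'
  -- the Følner set and the parameters
  obtain ⟨F, hFne, hFK⟩ := hG K' (ε / 128) (by positivity)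
  obtain ⟨P, hR, hS, hfc, hP⟩ := exists_param.{u} hFne.card_pos hε
  set Γ₁ : Finset G := F ∪ K'.biUnion fun g => F.image (g * ·)
  let eΓ : Γ₁ ≃ Fin (Fintype.card Γ₁) := Fintype.equivFin Γ₁
  let eF : Fin F.card ≃ F := F.equivFin.symm
  let gi : Fin F.card → Fin (Fintype.card Γ₁) := fun i =>
    eΓ ⟨eF i, Finset.mem_union_left _ (eF i).2⟩
  let gk : K' → Fin F.card → Fin (Fintype.card Γ₁) := fun k i =>
    eΓ ⟨k * eF i, Finset.mem_union_right _
      (Finset.mem_biUnion.2 ⟨k, k.2, Finset.mem_image.2 ⟨eF i, (eF i).2, rfl⟩⟩)⟩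
  have hgi : ∀ i, (eΓ.symm (gi i) : G) = eF i := fun i => by simp [gi]
  have hgk : ∀ k i, (eΓ.symm (gk k i) : G) = k * eF i := fun k i => by simp [gk]
  obtain ⟨M, hMk, hM0⟩ := ((eventually_all (ι := K')).2 fun k => by
    obtain ⟨a1, a2, a3⟩ := card_unmatched_le eΓ eF hgi (hgk k)
    refine hP _ gi (gk k) a1 a2 ?_
    rw [div_le_iff₀ (Nat.cast_pos.2 hFne.card_pos)]
    have := hFK k k.2
    exact (((Nat.cast_add _ _).symm.trans_le (Nat.cast_le.2 a3)).trans_eq (Nat.cast_mul _ _)).trans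
      (by push_cast; linarith)).and (eventually_gt_atTop 0) |>.exists
  -- the windows
  have he : 0 < tol P.R P.S M := by
    rw [tol]
    positivity
  obtain ⟨f, t, δ, hδ, hfwc, hf0, hfs, hE⟩ :=
    engine.{u, v} (k := P.R * P.S * M) (Nat.mul_pos (Nat.mul_pos hR hS) hM0) he
  obtain ⟨F₂, hF₂ne, hF₂K⟩ := hG K' (δ / 2) (by positivity)
  set Γ₂ : Finset G := F₂ ∪ K'.biUnion fun g => F₂.image (g * ·)
  have hF₂Γ : F₂ ⊆ Γ₂ := Finset.subset_union_left
  have hgF : ∀ g ∈ K', ∀ h ∈ F₂, g * h ∈ Γ₂ := fun g hg h hh =>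
    Finset.mem_union_right _ (Finset.mem_biUnion.2 ⟨g, hg, Finset.mem_image.2 ⟨h, hh, rfl⟩⟩)
  have himg : ∀ g ∈ K', F₂.image (g * ·) ⊆ Γ₂ := fun g hg x hx => by
    obtain ⟨h, hh, rfl⟩ := Finset.mem_image.1 hx
    exact hgF g hg h hh
  obtain ⟨q, m, L, c, hC⟩ := hE (Fintype.card Γ₂)
  obtain ⟨u, hu1, hu2, hu3⟩ := exists_family_slots h1 hmul h hω hx hx0 hx1 (Γ₁ ∪ Γ₂)
    (Fin M ⊕ (Fin L × Cube m))
  let ex : Fin P.R × Fin P.S × Fin M ≃ Fin (P.R * P.S * M) :=
    Fintype.equivFinOfCardEq (by simp [mul_assoc])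
  let w : G → Fin M ⊕ (Fin L × Cube m) → centralSeq B ω := fun g i => centralMap ω (α g) (u i)
  have hw : ∀ g k i, centralMap ω (α g) (w k i) = w (g * k) i := fun g k i =>
    Subtype.ext (BoundedContinuousFunction.ext fun n => by
      simp only [w, centralMap_apply, hmul])
  let Bh : G → Fin L × Cube m → centralSeq B ω := fun g i => symUnit (w g (.inr i))
  have hBsa : ∀ g i, star (Bh g i) = Bh g i := fun g i => by
    simp only [Bh, symUnit, star_sub, star_mul, star_star]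
  have hBh : ∀ (k g : G) i, centralMap ω (α k) (Bh g i) = Bh (k * g) i := fun k g i => by
    simp only [Bh, symUnit, map_sub, map_mul, map_star, hw]
  let Pw : (Γ₂ → ℝ) → Fin P.R × Fin P.S × Fin M → centralSeq B ω := fun σ x =>
    window (f (ex x)) t (bigZ c (fun g : Γ₂ => Bh g) σ)
  let w₁ : Fin (Fintype.card Γ₁) → Fin M → centralSeq B ω := fun j a => w (eΓ.symm j) (.inl a)
  let V : centralSeq B ω := P.elt (fun i => w₁ (gi i)) (Pw (unifW F₂ F₂))
  refine ⟨V, fun n => by
    simp only [V, Param.map_elt _ P hfc]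
    exact norm_clip_le _, fun T hT k hk => ?_⟩
  -- translation
  have hmove : centralMap ω (α k) V =
      P.elt (fun i => w₁ (gk ⟨k, hk⟩ i)) (Pw (unifW F₂ (F₂.image (k * ·)))) := by
    simp only [V]
    rw [Param.map_elt _ P hfc]
    refine congrArg₂ (fun a b => P.elt a b) ?_ ?_
    · funext i a
      simp only [w₁, hw, hgi, hgk]
    · funext x
      exact map_window_translate _ c Bh hBsa (hBh k) hF₂Γ (hgF k hk) (hfwc _) t
  -- the model
  obtain ⟨C, _, τ, π, hπ, hπ0⟩ := exists_faithful_model T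
  let _ : PartialOrder C := CStarAlgebra.spectralOrder C
  have _ : StarOrderedRing C := CStarAlgebra.spectralOrderedRing C
  have hw0 : ∀ g i, π (w g i) * π (w g i) = 0 := fun g i => by
    rw [← map_mul]
    exact hπ0 _ (hT.small _ (hu1 g i))
  have hw1 : ∀ g i, star (π (w g i)) * π (w g i) + π (w g i) * star (π (w g i)) = 1 :=
    fun g i => by
      have := hπ0 (star (w g i) * w g i + w g i * star (w g i) - 1) (hT.small _ (hu2 g i))
      rw [map_sub, map_add, map_mul, map_mul, map_star, map_one] at this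
      exact sub_eq_zero.1 this
  have hw2 : ∀ g ∈ Γ₁ ∪ Γ₂, ∀ l ∈ Γ₁ ∪ Γ₂, ∀ i j, i ≠ j →
      Commute (π (w g i)) (π (w l j)) ∧ Commute (π (w g i)) (star (π (w l j))) := by
    intro g hg l hl i j hij
    obtain ⟨r1, r2⟩ := hu3 g hg l hl i j hij
    constructor
    · have := hπ0 (w g i * w l j - w l j * w g i) (hT.null _ r1)
      rw [map_sub, map_mul, map_mul] at this
      exact sub_eq_zero.1 this
    · have := hπ0 (w g i * star (w l j) - star (w l j) * w g i) (hT.null _ r2)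
      rw [map_sub, map_mul, map_mul, map_star] at this
      exact sub_eq_zero.1 this
  have hm₁ : ∀ j : Fin (Fintype.card Γ₁), (eΓ.symm j : G) ∈ Γ₁ ∪ Γ₂ := fun j =>
    Finset.mem_union_left _ (eΓ.symm j).2
  have hm₂ : ∀ g : Γ₂, (g : G) ∈ Γ₁ ∪ Γ₂ := fun g => Finset.mem_union_right _ g.2
  let Sys : SlotSystem τ Γ₂ (Fin L × Cube m) :=
    slotsOfUnits τ (fun g i => π (w g (.inr i))) (fun g i => hw0 _ _) (fun g i => hw1 _ _)
      fun g l i j hij => hw2 _ (hm₂ g) _ (hm₂ l) _ _ fun hc => hij (Sum.inr_injective hc)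
  let u₁ : Fin (Fintype.card Γ₁) → Fin M → C := fun j a => π (w₁ j a)
  have hU : ∀ j a i, ∀ y ∈ Sys.U i, Commute (u₁ j a) y ∧ Commute (star (u₁ j a)) y := by
    intro j a i y hy
    have hc := fun g : Γ₂ => hw2 _ (hm₁ j) _ (hm₂ g) (.inl a) (.inr i) Sum.inl_ne_inr
    exact ⟨hy _ hc, hy _ fun g => ⟨by simpa using (hc g).2.star_star, (hc g).1.star_star⟩⟩
  have hPw : ∀ σ x, π (Pw σ x) = window (f (ex x)) t (bigZ c Sys.B σ) := fun σ x => by
    simp only [Pw]
    rw [map_window π (hfwc _) t (isSelfAdjoint_bigZ c (fun g : Γ₂ => Bh g) (fun g i => hBsa g i) σ), map_bigZ]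
    refine congrArg (fun b => window (f (ex x)) t (bigZ c b σ)) (funext fun g => funext fun i => ?_)
    simp only [Bh, symUnit, map_sub, map_mul, map_star, Sys, slotsOfUnits]
  have hρ := isWeight_unifW hF₂ne hF₂Γ rfl
  have hσ := isWeight_unifW hF₂ne (himg k hk)
    (Finset.card_image_of_injective _ (mul_right_injective k))
  have hmk : ∀ σ, IsWeight σ → ∃ D : MixData τ (Fin (Fintype.card Γ₁)) P.R P.S M (tol P.R P.S M),
      D.u = u₁ ∧ ∀ x, D.p x = window (f (ex x)) t (bigZ c Sys.B σ) := by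
    intro σ hσ
    obtain ⟨hdis, hdiv, -, hcomm⟩ := hC C τ Γ₂ le_rfl Sys σ hσ
    exact exists_mixData τ ex hfwc hf0 hfs c Sys u₁ (fun j a => hw0 _ _) (fun j a => hw1 _ _)
      (fun j l a b hab => hw2 _ (hm₁ j) _ (hm₁ l) _ _ fun hc => hab (Sum.inl_injective hc))
      hU hdis hdiv hcomm
  obtain ⟨D, hDu, hDp⟩ := hmk _ hρ
  obtain ⟨D', hD'u, hD'p⟩ := hmk _ hσ
  have hpp : ∀ x, τ.hsq (D.p x - D'.p x) ≤ tol P.R P.S M := fun x => by
    rw [hDp, hD'p]
    exact (hC C τ Γ₂ le_rfl Sys _ hρ).2.2.1 _ hσ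
      (sum_abs_unifW_le hF₂ne hF₂Γ (himg k hk) (hF₂K k hk)) (ex x)
  have hv : P.elt (fun i => D.u (gi i)) D.p = π V := by
    simp only [V]
    rw [Param.map_elt π P hfc, hDu, funext fun x => (hDp x).trans (hPw _ x).symm]
  have hv' : P.elt (fun i => D.u (gk ⟨k, hk⟩ i)) D'.p = π (centralMap ω (α k) V) := by
    rw [hmove, Param.map_elt π P hfc, hDu, funext fun x => (hD'p x).trans (hPw _ x).symm]
  have := hMk ⟨k, hk⟩ C τ D D' (hD'u.trans hDu.symm) hpp
  simp only [hv, hv'] at this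
  simpa only [← hπ, map_sub, map_add, map_mul, map_star, map_one] using this

theorem exists_unit_stage (h1 : ∀ a, α 1 a = a) (hmul : ∀ g h a, α (g * h) a = α g (α h a))
    (hG : ∀ (K : Finset G) (ε : ℝ), 0 < ε → ∃ F : Finset G, F.Nonempty ∧ ∀ g ∈ K,
      (((F.image (g * ·)) \ F).card : ℝ) ≤ ε * F.card)
    (h : IsFamily α Φ) {x : ℕ →ᵇ B} (hx : NormCentral x)
    (hx0 : SmallF Φ fun n => x n * x n)
    (hx1 : SmallF Φ fun n => star (x n) * x n + x n * star (x n) - 1)
    (J : Finset I) (K : Finset G) (S : Finset B) {ε : ℝ} (hε : 0 < ε) :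
    ∃ v : B, ‖v‖ ≤ 1 ∧ (∀ b ∈ S, ‖v * b - b * v‖ < ε) ∧ ∀ i ∈ J, ∀ φ ∈ Φ i,
      (φ (star (v * v) * (v * v))).re < ε ∧
      (φ (star (star v * v + v * star v - 1) * (star v * v + v * star v - 1))).re < ε ∧
      ∀ g ∈ K, (φ (star (α g v - v) * (α g v - v))).re < ε := by
  classical
  set ω : Ultrafilter ℕ := hyperfilter ℕ
  have hω : (ω : Filter ℕ) ≤ atTop := Nat.hyperfilter_le_atTop
  obtain ⟨V, hV1, hV⟩ := exists_candidate h1 hmul hG h hω hx hx0 hx1 K hε
  have hcen : ∀ᶠ n in (ω : Filter ℕ), ∀ b ∈ S,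
      ‖centralEval ω n V * b - b * centralEval ω n V‖ < ε :=
    S.eventually_all.2 fun b _ => (V.2 b).norm.eventually_lt_const (norm_zero.trans_lt hε)
  obtain ⟨n, hn, hgood⟩ := exists_good_stage h hω J
    ({V * V, star V * V + V * star V - 1} ∪ K.image fun g => centralMap ω (α g) V - V) hcen hε
    fun T hT Q hQ => by
      rcases Finset.mem_union.1 hQ with hQ | hQ
      · obtain rfl | rfl : Q = V * V ∨ Q = star V * V + V * star V - 1 := by simpa using hQ
        · exact (hV T hT 1 (Finset.mem_insert_self _ _)).1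
        · exact (hV T hT 1 (Finset.mem_insert_self _ _)).2.1
      · obtain ⟨g, hg, rfl⟩ := Finset.mem_image.1 hQ
        exact (hV T hT g (Finset.mem_insert_of_mem hg)).2.2
  refine ⟨centralEval ω n V, hV1 n, hn, fun i hi φ hφ => ⟨?_, ?_, fun g hg => ?_⟩⟩
  · simpa only [map_mul] using hgood i hi φ hφ (V * V) (by simp)
  · simpa only [map_mul, map_sub, map_add, map_star, map_one] using
      hgood i hi φ hφ (star V * V + V * star V - 1) (by simp)
  · exact hgood i hi φ hφ (centralMap ω (α g) V - V)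
      (Finset.mem_union_right _ (Finset.mem_image_of_mem _ hg))

/-- The invariant matrix unit as a sequence. -/
theorem exists_invariant_unit [TopologicalSpace.SeparableSpace B] [Countable G] [Countable I]
    (h1 : ∀ a, α 1 a = a) (hmul : ∀ g h a, α (g * h) a = α g (α h a))
    (hG : ∀ (K : Finset G) (ε : ℝ), 0 < ε → ∃ F : Finset G, F.Nonempty ∧ ∀ g ∈ K,
      (((F.image (g * ·)) \ F).card : ℝ) ≤ ε * F.card)
    (h : IsFamily α Φ) {x : ℕ →ᵇ B} (hx : NormCentral x)
    (hx0 : SmallF Φ fun n => x n * x n)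
    (hx1 : SmallF Φ fun n => star (x n) * x n + x n * star (x n) - 1) :
    ∃ v : ℕ → B, (∀ n, ‖v n‖ ≤ 1) ∧ NormCentral v ∧ SmallF Φ (fun n => v n * v n) ∧
      SmallF Φ (fun n => star (v n) * v n + v n * star (v n) - 1) ∧
      ∀ g, SmallF Φ fun n => α g (v n) - v n := by
  classical
  obtain ⟨a, ha⟩ := TopologicalSpace.exists_dense_seq B
  obtain ⟨eg, heg⟩ := exists_surjective_nat G
  obtain ⟨fi, hfi⟩ := exists_injective_nat I
  have hstage := fun n : ℕ => exists_unit_stage h1 hmul hG h hx hx0 hx1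
    ((Finset.range (n + 1)).preimage fi hfi.injOn)
    ((Finset.range (n + 1)).image eg) ((Finset.range (n + 1)).image a)
    (ε := 1 / (n + 1)) (by positivity)
  choose v hv1 hvc hv using hstage
  have hsmall : ∀ ε > 0, ∀ᶠ n : ℕ in atTop, (1 / (n + 1) : ℝ) < ε := fun ε hε =>
    tendsto_one_div_add_atTop_nhds_zero_nat.eventually_lt_const hε
  have hev : ∀ i, ∀ᶠ n : ℕ in atTop, i ∈ Finset.range (n + 1) := fun i =>
    (eventually_ge_atTop i).mono fun n hn => Finset.mem_range.2 (Nat.lt_succ_of_le hn)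
  refine ⟨v, hv1, fun b => ?_, fun i ε hε => ?_, fun i ε hε => ?_, fun g i ε hε => ?_⟩
  · refine NormedAddGroup.tendsto_nhds_zero.2 fun η hη => ?_
    obtain ⟨_, ⟨i, rfl⟩, hi⟩ := Metric.mem_closure_iff.1 (ha b) (η / 4) (by linarith)
    rw [dist_eq_norm] at hi
    filter_upwards [hsmall (η / 2) (by linarith), hev i] with n hn hin
    have h2 := (hvc n (a i) (Finset.mem_image_of_mem a hin)).trans hn
    rw [norm_norm]
    calc ‖v n * b - b * v n‖
        = ‖v n * (b - a i) - (b - a i) * v n + (v n * a i - a i * v n)‖ := by noncomm_ring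
      _ ≤ ‖v n‖ * ‖b - a i‖ + ‖b - a i‖ * ‖v n‖ + ‖v n * a i - a i * v n‖ :=
          (norm_add_le _ _).trans (add_le_add ((norm_sub_le _ _).trans
            (add_le_add (norm_mul_le _ _) (norm_mul_le _ _))) le_rfl)
      _ < η := by nlinarith [hv1 n, norm_nonneg (b - a i), norm_nonneg (v n)]
  · filter_upwards [hsmall ε hε, hev (fi i)] with n hn hin φ hφ
    exact (hv n i (Finset.mem_preimage.2 hin) φ hφ).1.trans hn
  · filter_upwards [hsmall ε hε, hev (fi i)] with n hn hin φ hφ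
    exact (hv n i (Finset.mem_preimage.2 hin) φ hφ).2.1.trans hn
  · obtain ⟨j, rfl⟩ := heg g
    filter_upwards [hsmall ε hε, hev j, hev (fi i)] with n hn hjn hin φ hφ
    exact ((hv n i (Finset.mem_preimage.2 hin) φ hφ).2.2 _
      (Finset.mem_image_of_mem eg hjn)).trans hn

end Vale.Agent.P095.Mix
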