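import Vale.Agent.P101.Fomega.Main
import Vale.Agent.P095.Gamma.Final
import Vale.Agent.P095.Mix.Stage

/-! P095: invariant matrix units for all tracial states of a unital algebra without characters. -/

open Filter Topology BoundedContinuousFunction
open scoped ComplexOrder

namespace Vale.Agent.P095.Mix

open Gamma Vale.Agent.P101

/-- If `F_ω(A)` has no characters then `A` has a norm-central sequence `x` with `x² → 0` and
`x* x + x x* → 1` uniformly in the 2-norms of its tracial states. -/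
theorem exists_mcDuff_seq_norm {A : Type*} [CStarAlgebra A] [PartialOrder A] [StarOrderedRing A]
    [TopologicalSpace.SeparableSpace A] {ω : Ultrafilter ℕ} (hω : (ω : Filter ℕ) ≤ atTop)
    (h : IsEmpty (Fomega A ω →⋆ₐ[ℂ] ℂ)) {𝒯 : Set (A →ₗ[ℂ] ℂ)} (h𝒯 : AreTraces 𝒯) :
    ∃ x : ℕ →ᵇ A, NormCentral x ∧ SmallTo 𝒯 (fun n => x n * x n) ∧
      SmallTo 𝒯 (fun n => star (x n) * x n + x n * star (x n) - 1) := by
  obtain ⟨e, he⟩ := TopologicalSpace.exists_dense_seq A
  choose a ha1 ha2 ha3 ha4 using fun n : ℕ =>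
    exists_mcDuff_stage hω h h𝒯 e n (ε := 1 / ((n : ℝ) + 1)) (by positivity)
  let x : ℕ →ᵇ A := BoundedContinuousFunction.ofNormedAddCommGroupDiscrete a 2 ha1
  have hlim : Tendsto (fun n : ℕ => 1 / ((n : ℝ) + 1)) atTop (𝓝 0) :=
    tendsto_one_div_add_atTop_nhds_zero_nat
  refine ⟨x, fun b => ?_, fun ε hε => ?_, fun ε hε => ?_⟩
  · rw [Metric.tendsto_atTop]
    intro ε hε
    obtain ⟨i, hi⟩ := he.exists_dist_lt b (show (0:ℝ) < ε / 8 by positivity)
    rw [dist_eq_norm] at hi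
    obtain ⟨M, hM⟩ := Metric.tendsto_atTop.1 hlim (ε / 2) (by positivity)
    refine ⟨max M i, fun n hn => ?_⟩
    have h1 := ha3 n i (le_of_max_le_right hn)
    have h2 : 1 / ((n : ℝ) + 1) < ε / 2 := (le_abs_self _).trans_lt
      (by simpa [Real.dist_eq] using hM n (le_of_max_le_left hn))
    rw [Real.dist_0_eq_abs, abs_norm]
    change ‖a n * b - b * a n‖ < ε
    have e1 : a n * b - b * a n =
        a n * (b - e i) - (b - e i) * a n + (a n * e i - e i * a n) := by noncomm_ring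
    rw [e1]
    have h3 : ‖a n‖ * ‖b - e i‖ ≤ 2 * (ε / 8) :=
      mul_le_mul (ha1 n) hi.le (norm_nonneg _) two_pos.le
    calc _ ≤ ‖a n‖ * ‖b - e i‖ + ‖b - e i‖ * ‖a n‖ + ‖a n * e i - e i * a n‖ :=
          (norm_add_le _ _).trans (add_le_add ((norm_sub_le _ _).trans
            (add_le_add (norm_mul_le _ _) (norm_mul_le _ _))) le_rfl)
      _ < ε := by linarith [mul_comm ‖a n‖ ‖b - e i‖]
  · have h2 : Tendsto (fun n => ‖a n * a n‖ * ‖a n * a n‖) atTop (𝓝 0) := by
      have h1 : Tendsto (fun n => ‖a n * a n‖) atTop (𝓝 0) :=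
        squeeze_zero (fun _ => norm_nonneg _) (fun n => (ha2 n).le) hlim
      simpa using h1.mul h1
    filter_upwards [h2.eventually_lt_const hε] with n hn τ hτ
    refine lt_of_le_of_lt ((Complex.re_le_norm _).trans ((h𝒯 τ hτ).2.2.2.2 _)) ?_
    rwa [CStarRing.norm_star_mul_self]
  · filter_upwards [hlim.eventually_lt_const hε] with n hn τ hτ
    exact (ha4 n τ hτ).trans hn

/-- All tracial states form a family. -/
theorem isFamily_allTraces {A : Type*} [CStarAlgebra A] {G : Type*} (α : G → A ≃⋆ₐ[ℂ] A) :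
    IsFamily α fun _ : Unit => allTraces A where
  nonneg _ φ hφ x := hφ.2.1 x
  one_le _ φ hφ := by rw [hφ.2.2, norm_one]
  almostTrace _ c ε hε := ⟨∅, 1, one_pos, fun x y _ _ _ _ φ hφ => by
    rw [map_sub, hφ.1, sub_self, norm_zero]; exact hε.le⟩
  act _ g := ⟨(), fun φ hφ => by
    refine ⟨fun x y => ?_, fun x => ?_, ?_⟩
    · show φ (α g (x * y)) = φ (α g (y * x))
      rw [map_mul (α g), map_mul (α g), hφ.1]
    · show 0 ≤ φ (α g (star x * x))
      rw [map_mul (α g), map_star (α g)]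
      exact hφ.2.1 _
    · show φ (α g 1) = 1
      rw [map_one, hφ.2.2]⟩

theorem exists_invariant_unit_all {A : Type*} [CStarAlgebra A] [PartialOrder A] [StarOrderedRing A]
    [TopologicalSpace.SeparableSpace A] {ω : Ultrafilter ℕ} (hω : (ω : Filter ℕ) ≤ atTop)
    (hA : IsEmpty (FomegaCharacter A ω))
    {G : Type*} [Group G] [Countable G] [DecidableEq G] (α : G → A ≃⋆ₐ[ℂ] A)
    (h1 : ∀ a, α 1 a = a) (hmul : ∀ g h a, α (g * h) a = α g (α h a))
    (hG : ∀ (K : Finset G) (ε : ℝ), 0 < ε → ∃ F : Finset G, F.Nonempty ∧ ∀ g ∈ K,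
      (((F.image (g * ·)) \ F).card : ℝ) ≤ ε * F.card) :
    ∃ v : ℕ → A, (∀ n, ‖v n‖ ≤ 1) ∧
      (∀ b, Tendsto (fun n => ‖v n * b - b * v n‖) atTop (𝓝 0)) ∧
      ∀ ε > 0, (∀ᶠ n in atTop, ∀ τ ∈ allTraces A,
        (τ (star (v n * v n) * (v n * v n))).re < ε ∧
        (τ (star (star (v n) * v n + v n * star (v n) - 1) *
          (star (v n) * v n + v n * star (v n) - 1))).re < ε) ∧
        ∀ g, ∀ᶠ n in atTop, ∀ τ ∈ allTraces A,
          (τ (star (α g (v n) - v n) * (α g (v n) - v n))).re < ε := by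
  obtain ⟨x, hx, hx0, hx1⟩ := exists_mcDuff_seq_norm hω (isEmpty_fomegaCharacter_iff.1 hA)
    (areTraces_allTraces (A := A))
  obtain ⟨v, hv1, hvc, hv0, hv2, hvα⟩ := exists_invariant_unit h1 hmul hG (isFamily_allTraces α) hx
    (fun _ => hx0) (fun _ => hx1)
  refine ⟨v, hv1, hvc, fun ε hε => ⟨?_, fun g => hvα g () ε hε⟩⟩
  filter_upwards [hv0 () ε hε, hv2 () ε hε] with n h3 h4 τ hτ
  exact ⟨h3 τ hτ, h4 τ hτ⟩

end Vale.Agent.P095.Mix
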