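import Vale.Agent.P095.Mix.Ideal
import Vale.Agent.P095.Mix.Unital

/-! P095: short names for the hypotheses and conclusions of the invariant matrix unit theorems. -/

open Filter Topology
open scoped ComplexOrder

namespace Vale.Agent.P095.Mix

variable {B : Type*} [CStarAlgebra B] {G : Type*}

/-- An action of a group with Følner sets. -/
def IsAmenableAction [Group G] [DecidableEq G] (α : G → B ≃⋆ₐ[ℂ] B) : Prop :=
  (∀ a, α 1 a = a) ∧ (∀ g h a, α (g * h) a = α g (α h a)) ∧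
    ∀ (K : Finset G) (ε : ℝ), 0 < ε → ∃ F : Finset G, F.Nonempty ∧ ∀ g ∈ K,
      (((F.image (g * ·)) \ F).card : ℝ) ≤ ε * F.card

/-- A two-sided star ideal invariant under the action. -/
def IsInvariantIdeal (α : G → B ≃⋆ₐ[ℂ] B) (P : Submodule ℂ B) : Prop :=
  (∀ b, ∀ p ∈ P, b * p ∈ P) ∧ (∀ b, ∀ p ∈ P, p * b ∈ P) ∧ (∀ p ∈ P, star p ∈ P) ∧
    ∀ g, ∀ p ∈ P, α g p ∈ P

/-- A norm-central sequence that is a unital two by two matrix unit modulo small sequences. -/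
def IsMatrixUnit (Small : (ℕ → B) → Prop) (v : ℕ → B) : Prop :=
  NormCentral v ∧ Small (fun n => v n * v n) ∧
    Small fun n => star (v n) * v n + v n * star (v n) - 1

/-- Small in 2-norm uniformly over all tracial states. -/
def SmallAll (y : ℕ → B) : Prop :=
  ∀ ε > 0, ∀ᶠ n in atTop, ∀ τ : B →ₗ[ℂ] ℂ,
    ((∀ x z, τ (x * z) = τ (z * x)) ∧ (∀ x, 0 ≤ τ (star x * x)) ∧ τ 1 = 1) →
      (τ (star (y n) * y n)).re < ε

variable [PartialOrder B] [StarOrderedRing B] [TopologicalSpace.SeparableSpace B]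

theorem exists_invariant_matrixUnit_ideal [Group G] [DecidableEq G] [Countable G]
    (α : G → B ≃⋆ₐ[ℂ] B) (hα : IsAmenableAction α) (P : Submodule ℂ B)
    (hP : IsInvariantIdeal α P) (D : Set (B × B)) (hD : D.Countable)
    (hDP : ∀ d ∈ D, d.1 ∈ P ∧ d.2 ∈ P) (hαD : ∀ g, ∀ d ∈ D, (α g d.1, α g d.2) ∈ D)
    (x : BoundedContinuousFunction ℕ B) (hx : IsMatrixUnit (SmallTr P D) ⇑x) :
    ∃ v : ℕ → B, (∀ n, ‖v n‖ ≤ 1) ∧ IsMatrixUnit (SmallTr P D) v ∧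
      ∀ g, SmallTr P D fun n => α g (v n) - v n := by
  obtain ⟨v, h1, h2, h3, h4, h5⟩ := exists_invariant_unit_ideal α hα.1 hα.2.1 hα.2.2 P hP.1
    hP.2.1 hP.2.2.1 hP.2.2.2 D hD hDP hαD hx.1 hx.2.1 hx.2.2
  exact ⟨v, h1, ⟨h2, h3, h4⟩, h5⟩

theorem exists_invariant_matrixUnit_all [Group G] [DecidableEq G] [Countable G]
    {ω : Ultrafilter ℕ} (hω : (ω : Filter ℕ) ≤ atTop)
    (hB : IsEmpty (Vale.Agent.P101.FomegaCharacter B ω))
    (α : G → B ≃⋆ₐ[ℂ] B) (hα : IsAmenableAction α) :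
    ∃ v : ℕ → B, (∀ n, ‖v n‖ ≤ 1) ∧ IsMatrixUnit SmallAll v ∧
      ∀ g, SmallAll fun n => α g (v n) - v n := by
  obtain ⟨v, h1, h2, h3⟩ := exists_invariant_unit_all hω hB α hα.1 hα.2.1 hα.2.2
  exact ⟨v, h1, ⟨h2, fun ε hε => (h3 ε hε).1.mono fun n h τ hτ => (h τ hτ).1,
    fun ε hε => (h3 ε hε).1.mono fun n h τ hτ => (h τ hτ).2⟩,
    fun g ε hε => (h3 ε hε).2 g⟩

end Vale.Agent.P095.Mix
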