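import Vale.Agent.P095.Gamma.Norm2
import Vale.Agent.P095.Gamma.McDuff

/-! P095: order tools for commuting positive weights under a tracial state. -/

namespace Vale.Agent.P095.Mix

open Gamma

variable {C : Type*} [CStarAlgebra C] (τ : TraceState C)

theorem n2_star (x : C) : τ.n2 (star x) = τ.n2 x := by
  rw [TraceState.n2, TraceState.n2, TraceState.hsq, TraceState.hsq, star_star, τ.trace]

theorem n2_nonneg (x : C) : 0 ≤ τ.n2 x := Real.sqrt_nonneg _

/-- Cauchy-Schwarz for complex values. -/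
theorem norm_inner_le (x y : C) : ‖τ.f (star x * y)‖ ≤ τ.n2 x * τ.n2 y := by
  set z := τ.f (star x * y) with hz
  have h := τ.re_inner_le x ((starRingEnd ℂ) z • y)
  rw [mul_smul_comm, map_smul, τ.n2_smul, RCLike.norm_conj, smul_eq_mul, ← hz,
    ← Complex.normSq_eq_conj_mul_self, Complex.ofReal_re, Complex.normSq_eq_norm_sq] at h
  rcases (norm_nonneg z).eq_or_lt with h0 | h0
  · rw [← h0]; exact mul_nonneg (n2_nonneg τ x) (n2_nonneg τ y)
  · refine le_of_mul_le_mul_left ?_ h0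
    linarith

theorem norm_trace_le_n2 (x : C) : ‖τ.f x‖ ≤ τ.n2 x := by
  have h := norm_inner_le τ 1 x
  have h1 : τ.n2 (1 : C) = 1 := by simp [TraceState.n2, TraceState.hsq, τ.one]
  rwa [star_one, one_mul, h1, one_mul] at h

section order

variable [PartialOrder C] [StarOrderedRing C]

theorem re_nonneg {a : C} (ha : 0 ≤ a) : 0 ≤ (τ.f a).re := by
  simpa using re_mono τ ha

omit [PartialOrder C] [StarOrderedRing C] in
theorem im_eq_zero {a : C} (ha : IsSelfAdjoint a) : (τ.f a).im = 0 := by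
  have h := τ.star_map a
  rw [ha.star_eq] at h
  exact Complex.conj_eq_iff_im.1 h.symm

theorem re_mul_nonneg {a b : C} (ha : 0 ≤ a) (hb : 0 ≤ b) : 0 ≤ (τ.f (a * b)).re := by
  obtain ⟨r, hr, rfl⟩ : ∃ r : C, star r = r ∧ r * r = a :=
    ⟨CFC.sqrt a, Vale.Agent.P101.star_sqrt a, CFC.sqrt_mul_sqrt_self a ha⟩
  have e : τ.f (r * r * b) = τ.f (star r * b * r) := by
    rw [τ.trace (star r * b) r, hr, mul_assoc]
  rw [e]
  exact re_nonneg τ (star_left_conjugate_nonneg hb r)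

theorem re_mul_mono {a a' b : C} (h : a ≤ a') (hb : 0 ≤ b) :
    (τ.f (a * b)).re ≤ (τ.f (a' * b)).re := by
  have := re_mul_nonneg τ (sub_nonneg.2 h) hb
  rw [sub_mul, map_sub, Complex.sub_re] at this
  linarith

theorem n2_mul_le (x y : C) : τ.n2 (x * y) ≤ ‖x‖ * τ.n2 y := by
  rw [TraceState.n2, TraceState.n2, ← Real.sqrt_sq (norm_nonneg x),
    ← Real.sqrt_mul (sq_nonneg _)]
  refine Real.sqrt_le_sqrt ?_
  have h : star x * x ≤ algebraMap ℝ C (‖x‖ ^ 2) := by
    rw [sq, ← CStarRing.norm_star_mul_self]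
    exact IsSelfAdjoint.le_algebraMap_norm_self (IsSelfAdjoint.star_mul_self x)
  have h' := re_mono τ (star_left_conjugate_le_conjugate h y)
  rw [Algebra.algebraMap_eq_smul_one, mul_smul_comm, mul_one, smul_mul_assoc,
    ← Complex.coe_smul, map_smul, smul_eq_mul, Complex.re_ofReal_mul] at h'
  rw [TraceState.hsq, TraceState.hsq, star_mul,
    show star y * star x * (x * y) = star y * (star x * x) * y by noncomm_ring]
  exact h'

theorem n2_mul_le' (x y : C) : τ.n2 (x * y) ≤ τ.n2 x * ‖y‖ := by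
  rw [← n2_star τ (x * y), star_mul, ← n2_star τ x, mul_comm (τ.n2 _), ← norm_star y]
  exact n2_mul_le τ _ _

/-- Products of commuting positive contractions. -/
theorem mul_mem_Icc {a b : C} (ha : 0 ≤ a) (ha1 : a ≤ 1) (hb : 0 ≤ b) (hb1 : b ≤ 1)
    (h : Commute a b) : 0 ≤ a * b ∧ a * b ≤ a ∧ a * b ≤ 1 := by
  have h1 : a * b ≤ a := by
    have := Commute.mul_nonneg ha (sub_nonneg.2 hb1) ((Commute.one_right a).sub_right h)
    rwa [mul_sub, mul_one, sub_nonneg] at this
  exact ⟨Commute.mul_nonneg ha hb h, h1, h1.trans ha1⟩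

theorem norm_le_one_of_mem_Icc {a : C} (ha : 0 ≤ a) (ha1 : a ≤ 1) : ‖a‖ ≤ 1 :=
  (CStarAlgebra.norm_le_one_iff_of_nonneg a ha).2 ha1

/-- The square of a positive contraction has smaller trace. -/
theorem hsq_le_re_of_mem_Icc {a : C} (ha : 0 ≤ a) (ha1 : a ≤ 1) : τ.hsq a ≤ (τ.f a).re := by
  rw [TraceState.hsq, (IsSelfAdjoint.of_nonneg ha).star_eq]
  exact re_mono τ (mul_mem_Icc ha ha1 ha ha1 (Commute.refl a)).2.1

variable {ι : Type*} [Fintype ι]

/-- Jensen's inequality for a commuting partition of unity. -/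
theorem jensen {Q Z : ι → C} (hQ : ∀ i, 0 ≤ Q i) (hsum : ∑ i, Q i = 1)
    (hQQ : ∀ i j, Commute (Q i) (Q j)) (hQZ : ∀ i j, Commute (Q i) (Z j))
    (hQZ' : ∀ i j, Commute (Q i) (star (Z j))) :
    star (∑ i, Q i * Z i) * (∑ i, Q i * Z i) ≤ ∑ i, Q i * (star (Z i) * Z i) := by
  set Y := ∑ i, Q i * Z i with hY
  have hQs : ∀ i, star (Q i) = Q i := fun i => (IsSelfAdjoint.of_nonneg (hQ i)).star_eq
  have cY : ∀ i, Commute (Q i) Y :=
    fun i => Commute.sum_right _ _ _ fun j _ => (hQQ i j).mul_right (hQZ i j)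
  have cY' : ∀ i, Commute (Q i) (star Y) := fun i => by
    simpa [hQs i] using (cY i).star_star
  have key : ∑ i, Q i * (star (Z i - Y) * (Z i - Y)) =
      ∑ i, Q i * (star (Z i) * Z i) - star Y * Y := by
    have e2 : star Y = ∑ i, Q i * star (Z i) := by
      simp only [hY, star_sum, star_mul, hQs]
      exact Finset.sum_congr rfl fun i _ => (hQZ' i i).eq.symm
    have e4 : ∑ i, Q i * (star Y * Z i) = star Y * Y := by
      rw [hY, Finset.mul_sum]
      refine Finset.sum_congr rfl fun i _ => ?_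
      rw [← hY, ← mul_assoc, (cY' i).eq, mul_assoc]
    have e5 : ∑ i, Q i * (star (Z i) * Y) = star Y * Y := by
      simp_rw [← mul_assoc]
      rw [← Finset.sum_mul, ← e2]
    calc ∑ i, Q i * (star (Z i - Y) * (Z i - Y))
        = ∑ i, (Q i * (star (Z i) * Z i) - Q i * (star (Z i) * Y) - Q i * (star Y * Z i) +
            Q i * (star Y * Y)) := Finset.sum_congr rfl fun i _ => by
          rw [star_sub]; noncomm_ring
      _ = _ := by
          rw [Finset.sum_add_distrib, Finset.sum_sub_distrib, Finset.sum_sub_distrib, e4, e5,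
            ← Finset.sum_mul, hsum, one_mul]
          abel
  rw [← sub_nonneg, ← key]
  refine Finset.sum_nonneg fun i _ => Commute.mul_nonneg (hQ i) (star_mul_self_nonneg _) ?_
  rw [star_sub]
  exact ((hQZ' i i).sub_right (cY' i)).mul_right ((hQZ i i).sub_right (cY i))

theorem hsq_sum_mul_le {Q Z : ι → C} (hQ : ∀ i, 0 ≤ Q i) (hsum : ∑ i, Q i = 1)
    (hQQ : ∀ i j, Commute (Q i) (Q j)) (hQZ : ∀ i j, Commute (Q i) (Z j))
    (hQZ' : ∀ i j, Commute (Q i) (star (Z j))) :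
    τ.hsq (∑ i, Q i * Z i) ≤ ∑ i, (τ.f (Q i * (star (Z i) * Z i))).re := by
  refine (re_mono τ (jensen hQ hsum hQQ hQZ hQZ')).trans_eq ?_
  rw [map_sum, Complex.re_sum]

/-- A weighted mixture of contractions is a contraction. -/
theorem norm_sum_mul_le {Q Z : ι → C} (hQ : ∀ i, 0 ≤ Q i) (hsum : ∑ i, Q i = 1)
    (hQQ : ∀ i j, Commute (Q i) (Q j)) (hQZ : ∀ i j, Commute (Q i) (Z j))
    (hQZ' : ∀ i j, Commute (Q i) (star (Z j))) {c : ℝ} (hc : 0 ≤ c) (hZ : ∀ i, ‖Z i‖ ≤ c) :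
    ‖∑ i, Q i * Z i‖ ≤ c := by
  have h : star (∑ i, Q i * Z i) * (∑ i, Q i * Z i) ≤ algebraMap ℝ C (c ^ 2) := by
    refine (jensen hQ hsum hQQ hQZ hQZ').trans ?_
    rw [show algebraMap ℝ C (c ^ 2) = ∑ i, Q i * algebraMap ℝ C (c ^ 2) by
      rw [← Finset.sum_mul, hsum, one_mul]]
    refine Finset.sum_le_sum fun i _ => ?_
    rw [← sub_nonneg, ← mul_sub]
    refine Commute.mul_nonneg (hQ i) (sub_nonneg.2 ?_)
      ((Algebra.commute_algebraMap_right _ _).sub_right ((hQZ' i i).mul_right (hQZ i i)))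
    refine (IsSelfAdjoint.le_algebraMap_norm_self (IsSelfAdjoint.star_mul_self _)).trans ?_
    refine algebraMap_mono C ?_
    rw [CStarRing.norm_star_mul_self, sq]
    exact mul_self_le_mul_self (norm_nonneg _) (hZ i)
  have h' := (CStarAlgebra.norm_le_iff_le_algebraMap _ (sq_nonneg c) (star_mul_self_nonneg _)).2 h
  rw [CStarRing.norm_star_mul_self, ← sq] at h'
  exact (sq_le_sq₀ (norm_nonneg _) hc).1 h'

end order

end Vale.Agent.P095.Mix
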