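import Vale.Agent.P095.Mix.Defs
import Vale.Agent.P095.Mix.Tools

/-!
P095: the exact algebra of the mixture.

Cells that meet in different group elements force the matrix units to be 2-close (`hash`), distinct
cells of one group element are disjoint (`overlap`), and the selection marginal is independent of
the cells.  Then the mixture is nearly a matrix unit and depends continuously on the finite set.
-/

namespace Vale.Agent.P095.Mix

open Gamma
open scoped IsMulCommutative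

set_option linter.unusedSectionVars false
set_option linter.unusedVariables false

variable {C : Type*} [CStarAlgebra C] [PartialOrder C] [StarOrderedRing C]

/-- Exact matrix units, cells and selection projections. -/
structure CoreData (τ : TraceState C) (Γ L : Type*) [Fintype L] (S : ℕ) (η₁ η₂ : ℝ) where
  V : Γ → C
  E : Γ → L → C
  P : Fin S → C
  V_sq : ∀ g, V g * V g = 0
  V_one : ∀ g, star (V g) * V g + V g * star (V g) = 1
  E_nonneg : ∀ g l, 0 ≤ E g l
  E_sum : ∀ g, ∑ l, E g l = 1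
  E_comm : ∀ g h l l', Commute (E g l) (E h l')
  E_V : ∀ g h l, Commute (E g l) (V h)
  P_nonneg : ∀ s, 0 ≤ P s
  P_sum : ∑ s, P s = 1
  P_mul : ∀ s s', s ≠ s' → P s * P s' = 0
  P_V : ∀ s g, Commute (P s) (V g)
  P_E : ∀ s g l, Commute (P s) (E g l)
  indep : ∀ (m : ℕ) (g : Fin m → Γ) (φ : Fin m → L) (s : Fin S),
    τ.f (prodE (fun i => E (g i)) φ * P s) = τ.f (prodE (fun i => E (g i)) φ) / (S : ℂ)
  hash : ∀ g h, (τ.f (∑ l, E g l * E h l *
    (star (V g - V h) * (V g - V h) + (V g - V h) * star (V g - V h)))).re ≤ η₁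
  overlap : ∀ g l l', l ≠ l' → (τ.f (E g l * E g l')).re ≤ η₂

variable {τ : TraceState C} {Γ L : Type*} [Fintype L] [DecidableEq L] [DecidableEq Γ] {S : ℕ}
  {η₁ η₂ : ℝ}

/-- The mixture along a family of group elements. -/
noncomputable def CoreData.U (D : CoreData τ Γ L S η₁ η₂) (sel : (L → ℝ) → Fin S → L) {n : ℕ}
    (g : Fin n → Γ) : C :=
  mixU sel (fun i => D.E (g i)) (fun i => D.V (g i)) D.P

/-- The weights of the partition used by the mixture. -/
private noncomputable def CoreData.Q (D : CoreData τ Γ L S η₁ η₂) {n : ℕ} (g : Fin n → Γ)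
    (p : (Fin n → L) × Fin S) : C :=
  prodE (fun i => D.E (g i)) p.1 * D.P p.2

omit [CStarAlgebra C] [PartialOrder C] [StarOrderedRing C] [DecidableEq L] [DecidableEq Γ] in
private theorem sum_marginal_comm {R : Type*} [CommRing R] [DecidableEq L] {m k : ℕ}
    (f : Fin m → L → R) (hf : ∀ i, ∑ l, f i l = 1) {ι : Fin k → Fin m} (hι : Function.Injective ι)
    (ψ : Fin k → L) :
    ∑ φ ∈ Finset.univ.filter (fun φ : Fin m → L => (fun i => φ (ι i)) = ψ), ∏ i, f i (φ i) =
      ∏ i, f (ι i) (ψ i) := by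
  classical
  have hset : (Finset.univ.filter fun φ : Fin m → L => (fun i => φ (ι i)) = ψ) =
      Fintype.piFinset fun j => Finset.univ.filter fun l => ∀ i, ι i = j → l = ψ i := by
    ext φ
    simp only [Finset.mem_filter, Finset.mem_univ, true_and, Fintype.mem_piFinset]
    exact ⟨fun h j i hij => by rw [← hij]; exact congrFun h i,
      fun h => funext fun i => h (ι i) i rfl⟩
  rw [hset, ← Finset.prod_univ_sum, ← Finset.prod_subset
    (Finset.subset_univ (Finset.univ.image ι)) fun j _ hj => ?_, Finset.prod_image hι.injOn]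
  · refine Finset.prod_congr rfl fun i _ => ?_
    rw [show (Finset.univ.filter fun l => ∀ i', ι i' = ι i → l = ψ i') = {ψ i} by
      ext l
      simp only [Finset.mem_filter, Finset.mem_univ, true_and, Finset.mem_singleton]
      exact ⟨fun h => h i rfl, fun h i' hi' => by rw [hι hi', h]⟩, Finset.sum_singleton]
  · rw [Finset.filter_true_of_mem fun l _ i hij =>
      absurd (Finset.mem_image.2 ⟨i, Finset.mem_univ i, hij⟩) hj]
    exact hf j

private theorem CoreData.sum_marginal (D : CoreData τ Γ L S η₁ η₂) {m k : ℕ} (g : Fin m → Γ)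
    {ι : Fin k → Fin m} (hι : Function.Injective ι) (ψ : Fin k → L) :
    ∑ φ ∈ Finset.univ.filter (fun φ : Fin m → L => (fun i => φ (ι i)) = ψ),
        prodE (fun i => D.E (g i)) φ = prodE (fun i => D.E (g (ι i))) ψ := by
  let s : Set C := Set.range fun p : Γ × L => D.E p.1 p.2
  have : IsMulCommutative (Subring.closure s) := Subring.isMulCommutative_closure (by
    rintro _ ⟨a, rfl⟩ _ ⟨b, rfl⟩
    exact D.E_comm a.1 b.1 a.2 b.2)
  let e : Γ → L → Subring.closure s := fun x l =>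
    ⟨D.E x l, Subring.subset_closure ⟨(x, l), rfl⟩⟩
  have key : ∀ {j : ℕ} (h : Fin j → Γ) (φ : Fin j → L),
      prodE (fun i => D.E (h i)) φ = ((∏ i, e (h i) (φ i) : Subring.closure s) : C) := fun h φ => by
    rw [← List.prod_ofFn, SubmonoidClass.coe_list_prod, List.map_ofFn]
    rfl
  simp only [key, ← AddSubmonoidClass.coe_finsetSum]
  refine congrArg Subtype.val (sum_marginal_comm (fun i => e (g i)) (fun i => ?_) hι ψ)
  exact Subtype.ext ((AddSubmonoidClass.coe_finsetSum _ _).trans (D.E_sum (g i)))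

private theorem CoreData.sum_prodE (D : CoreData τ Γ L S η₁ η₂) {m : ℕ} (g : Fin m → Γ) :
    ∑ φ, prodE (fun i => D.E (g i)) φ = 1 := by
  have h := D.sum_marginal g (ι := (Fin.elim0 : Fin 0 → Fin m)) (fun i => i.elim0)
    (Fin.elim0 : Fin 0 → L)
  rw [Finset.filter_true_of_mem fun φ _ => funext fun i => i.elim0] at h
  simpa [prodE] using h

omit [DecidableEq L] [DecidableEq Γ] in
private theorem CoreData.commute_prodE (D : CoreData τ Γ L S η₁ η₂) {m : ℕ} (g : Fin m → Γ)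
    (φ : Fin m → L) {y : C} (hy : ∀ i, Commute y (D.E (g i) (φ i))) :
    Commute y (prodE (fun i => D.E (g i)) φ) :=
  Commute.list_prod_right _ _ fun z hz => by
    obtain ⟨i, rfl⟩ := List.mem_ofFn.1 hz
    exact hy i

omit [DecidableEq L] [DecidableEq Γ] in
private theorem CoreData.E_le_one (D : CoreData τ Γ L S η₁ η₂) (g : Γ) (l : L) : D.E g l ≤ 1 :=
  D.E_sum g ▸ Finset.single_le_sum (fun l _ => D.E_nonneg g l) (Finset.mem_univ l)

omit [DecidableEq L] [DecidableEq Γ] in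
private theorem CoreData.prodE_mem (D : CoreData τ Γ L S η₁ η₂) :
    ∀ {m : ℕ} (g : Fin m → Γ) (φ : Fin m → L),
      0 ≤ prodE (fun i => D.E (g i)) φ ∧ prodE (fun i => D.E (g i)) φ ≤ 1 ∧
        ∀ i, prodE (fun i => D.E (g i)) φ ≤ D.E (g i) (φ i)
  | 0, g, φ => by
      simp [prodE]
  | m + 1, g, φ => by
      obtain ⟨h0, h1, h2⟩ := D.prodE_mem (fun i => g i.succ) fun i => φ i.succ
      have e : prodE (fun i => D.E (g i)) φ =
          D.E (g 0) (φ 0) * prodE (fun i => D.E (g i.succ)) (fun i => φ i.succ) := by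
        simp [prodE, List.ofFn_succ]
      have hc := D.commute_prodE (fun i => g i.succ) (fun i => φ i.succ)
        (y := D.E (g 0) (φ 0)) fun i => D.E_comm _ _ _ _
      rw [e]
      obtain ⟨a0, a1, a2⟩ := mul_mem_Icc (D.E_nonneg _ _) (D.E_le_one _ _) h0 h1 hc
      refine ⟨a0, a2, Fin.cases a1 fun i => ?_⟩
      rw [hc.eq]
      exact (mul_mem_Icc h0 h1 (D.E_nonneg _ _) (D.E_le_one _ _) hc.symm).2.1.trans (h2 i)

omit [DecidableEq L] [DecidableEq Γ] in
private theorem CoreData.P_comm (D : CoreData τ Γ L S η₁ η₂) (s s' : Fin S) :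
    Commute (D.P s) (D.P s') := by
  rcases eq_or_ne s s' with rfl | h
  · exact Commute.refl _
  · exact (D.P_mul s s' h).trans (D.P_mul s' s h.symm).symm

omit [DecidableEq L] [DecidableEq Γ] in
private theorem CoreData.P_le_one (D : CoreData τ Γ L S η₁ η₂) (s : Fin S) : D.P s ≤ 1 :=
  D.P_sum ▸ Finset.single_le_sum (fun s _ => D.P_nonneg s) (Finset.mem_univ s)

omit [DecidableEq L] [DecidableEq Γ] in
private theorem CoreData.Q_mem (D : CoreData τ Γ L S η₁ η₂) {n : ℕ} (g : Fin n → Γ)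
    (p : (Fin n → L) × Fin S) :
    0 ≤ D.Q g p ∧ D.Q g p ≤ 1 ∧ D.Q g p ≤ prodE (fun i => D.E (g i)) p.1 := by
  obtain ⟨h0, h1, -⟩ := D.prodE_mem g p.1
  obtain ⟨a, b, c⟩ := mul_mem_Icc h0 h1 (D.P_nonneg p.2) (D.P_le_one p.2)
    (D.commute_prodE g p.1 fun i => D.P_E _ _ _).symm
  exact ⟨a, c, b⟩

private theorem CoreData.Q_sum (D : CoreData τ Γ L S η₁ η₂) {n : ℕ} (g : Fin n → Γ) :
    ∑ p, D.Q g p = 1 := by
  simp only [CoreData.Q, Fintype.sum_prod_type, ← Finset.mul_sum, D.P_sum, mul_one, D.sum_prodE g]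

omit [DecidableEq L] [DecidableEq Γ] in
private theorem CoreData.Q_comm (D : CoreData τ Γ L S η₁ η₂) {n : ℕ} (g : Fin n → Γ)
    (p q : (Fin n → L) × Fin S) : Commute (D.Q g p) (D.Q g q) := by
  have hEE : Commute (prodE (fun i => D.E (g i)) p.1) (prodE (fun i => D.E (g i)) q.1) :=
    D.commute_prodE g q.1 fun i => (D.commute_prodE g p.1 fun j => D.E_comm _ _ _ _).symm
  have hEP : ∀ (φ : Fin n → L) (s : Fin S), Commute (prodE (fun i => D.E (g i)) φ) (D.P s) :=
    fun φ s => (D.commute_prodE g φ fun i => D.P_E _ _ _).symm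
  exact (hEE.mul_right (hEP _ _)).mul_left ((hEP _ _).symm.mul_right (D.P_comm _ _))

omit [DecidableEq L] [DecidableEq Γ] in
private theorem CoreData.Q_V (D : CoreData τ Γ L S η₁ η₂) {n : ℕ} (g : Fin n → Γ)
    (p : (Fin n → L) × Fin S) (x : Γ) :
    Commute (D.Q g p) (D.V x) ∧ Commute (D.Q g p) (star (D.V x)) := by
  have h : Commute (D.Q g p) (D.V x) :=
    (D.commute_prodE g p.1 fun i => (D.E_V _ _ _).symm).symm.mul_left (D.P_V _ _)
  refine ⟨h, ?_⟩
  simpa [(IsSelfAdjoint.of_nonneg (D.Q_mem g p).1).star_eq] using h.star_star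

omit [DecidableEq L] [DecidableEq Γ] in
private theorem CoreData.norm_V_le (D : CoreData τ Γ L S η₁ η₂) (x : Γ) : ‖D.V x‖ ≤ 1 := by
  have h : star (D.V x) * D.V x ≤ 1 := D.V_one x ▸ le_add_of_nonneg_right (mul_star_self_nonneg _)
  have h' := norm_le_one_of_mem_Icc (star_mul_self_nonneg _) h
  rw [CStarRing.norm_star_mul_self] at h'
  nlinarith [norm_nonneg (D.V x)]

omit [CStarAlgebra C] [PartialOrder C] [StarOrderedRing C] [DecidableEq Γ] in
private theorem wts_dist {n : ℕ} (hn : 0 < n) (ψ : Fin n → L) :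
    (∀ l, 0 ≤ wts ψ l) ∧ ∑ l, wts ψ l = 1 := by
  have hn' : (0 : ℝ) < n := Nat.cast_pos.2 hn
  refine ⟨fun l => div_nonneg (Nat.cast_nonneg _) hn'.le, ?_⟩
  simp only [wts]
  rw [← Finset.sum_div, ← Nat.cast_sum, ← Finset.card_eq_sum_card_fiberwise
    (fun i _ => Finset.mem_univ (ψ i)), Finset.card_univ, Fintype.card_fin, div_self hn'.ne']

/-- The selected class. -/
private noncomputable def cls {n : ℕ} (sel : (L → ℝ) → Fin S → L) (ψ : Fin n → L) (s : Fin S) : Finset (Fin n) :=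
  Finset.univ.filter fun i => ψ i = sel (wts ψ) s

omit [PartialOrder C] [StarOrderedRing C] [DecidableEq Γ] in
private theorem amp_eq {n : ℕ} (hn : 0 < n) (sel : (L → ℝ) → Fin S → L) (V : Fin n → C)
    (ψ : Fin n → L) (s : Fin S) :
    amp sel V ψ s = ((cls sel ψ s).card : ℝ)⁻¹ • ∑ i ∈ cls sel ψ s, V i := by
  rw [← Complex.coe_smul, amp, cls, wts, ← Complex.ofReal_mul,
    mul_div_cancel₀ _ (Nat.cast_ne_zero.2 hn.ne' : (n : ℝ) ≠ 0)]
  push_cast
  rfl

omit [CStarAlgebra C] [PartialOrder C] [StarOrderedRing C] [DecidableEq Γ] in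
private theorem cls_card_pos {n : ℕ} {sel : (L → ℝ) → Fin S → L}
    {ψ : Fin n → L} {s : Fin S} (h : 0 < wts ψ (sel (wts ψ) s)) :
    0 < (cls sel ψ s).card := by
  rw [Finset.card_pos]
  by_contra h'
  rw [Finset.not_nonempty_iff_eq_empty] at h'
  simp only [cls] at h'
  simp [wts, h'] at h

private theorem CoreData.norm_amp_le (D : CoreData τ Γ L S η₁ η₂) {sel : (L → ℝ) → Fin S → L}
    {n : ℕ} (hn : 0 < n) (g : Fin n → Γ) (ψ : Fin n → L) (s : Fin S)
    (h : 0 < wts ψ (sel (wts ψ) s)) : ‖amp sel (fun i => D.V (g i)) ψ s‖ ≤ 1 := by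
  have hc : (0 : ℝ) < (cls sel ψ s).card := Nat.cast_pos.2 (cls_card_pos h)
  rw [amp_eq hn, norm_smul, Real.norm_of_nonneg (by positivity), inv_mul_le_one₀ hc]
  exact (norm_sum_le_of_le _ fun i _ => D.norm_V_le (g i)).trans_eq (by simp)

private theorem CoreData.Q_amp (D : CoreData τ Γ L S η₁ η₂) (sel : (L → ℝ) → Fin S → L)
    {m n : ℕ} (u : Fin m → Γ) (p : (Fin m → L) × Fin S) (g : Fin n → Γ) (ψ : Fin n → L)
    (s : Fin S) : Commute (D.Q u p) (amp sel (fun i => D.V (g i)) ψ s) ∧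
      Commute (D.Q u p) (star (amp sel (fun i => D.V (g i)) ψ s)) := by
  refine ⟨(Commute.sum_right _ _ _ fun i _ => (D.Q_V u p _).1).smul_right _, ?_⟩
  simp only [amp, star_smul, star_sum]
  exact (Commute.sum_right _ _ _ fun i _ => (D.Q_V u p _).2).smul_right _

private theorem CoreData.U_eq (D : CoreData τ Γ L S η₁ η₂) (sel : (L → ℝ) → Fin S → L) {n : ℕ}
    (g : Fin n → Γ) : D.U sel g = ∑ p, D.Q g p * amp sel (fun i => D.V (g i)) p.1 p.2 := by
  rw [CoreData.U, mixU, Fintype.sum_prod_type]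
  rfl

/-- The mixture written over a refinement. -/
private theorem CoreData.U_refine (D : CoreData τ Γ L S η₁ η₂) (sel : (L → ℝ) → Fin S → L)
    {m n : ℕ} (u : Fin m → Γ) {ι : Fin n → Fin m} (hι : Function.Injective ι) (g : Fin n → Γ)
    (hg : ∀ i, u (ι i) = g i) :
    D.U sel g = ∑ p : (Fin m → L) × Fin S,
      D.Q u p * amp sel (fun i => D.V (g i)) (fun i => p.1 (ι i)) p.2 := by
  rw [CoreData.U, mixU, Fintype.sum_prod_type, ← Finset.sum_fiberwise Finset.univ
    (fun φ : Fin m → L => fun i => φ (ι i))]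
  refine Finset.sum_congr rfl fun ψ _ => ?_
  rw [Finset.sum_comm]
  refine Finset.sum_congr rfl fun s _ => ?_
  rw [← funext fun i => congrArg D.E (hg i), ← D.sum_marginal u hι ψ, Finset.sum_mul, Finset.sum_mul]
  refine Finset.sum_congr rfl fun φ hφ => ?_
  rw [(Finset.mem_filter.1 hφ).2]
  rfl

omit [DecidableEq Γ] [DecidableEq L] in
private theorem CoreData.n2_Q_mul_le (D : CoreData τ Γ L S η₁ η₂) {n : ℕ} (g : Fin n → Γ)
    {p q : (Fin n → L) × Fin S} (h : p.1 ≠ q.1) : τ.n2 (D.Q g p * D.Q g q) ≤ Real.sqrt η₂ := by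
  obtain ⟨i, hi⟩ := Function.ne_iff.1 h
  obtain ⟨a0, a1, a2⟩ := D.Q_mem g p
  obtain ⟨b0, b1, b2⟩ := D.Q_mem g q
  obtain ⟨c0, -, c1⟩ := mul_mem_Icc a0 a1 b0 b1 (D.Q_comm g p q)
  refine Real.sqrt_le_sqrt ((hsq_le_re_of_mem_Icc τ c0 c1).trans ?_)
  refine (re_mul_mono τ (a2.trans ((D.prodE_mem g p.1).2.2 i)) b0).trans ?_
  rw [τ.trace]
  refine (re_mul_mono τ (b2.trans ((D.prodE_mem g q.1).2.2 i)) (D.E_nonneg _ _)).trans ?_
  exact D.overlap _ _ _ (Ne.symm hi)

/-- A double mixture is close to its diagonal. -/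
private theorem CoreData.n2_double_le (D : CoreData τ Γ L S η₁ η₂)
    {n : ℕ} (g : Fin n → Γ) (F : (Fin n → L) × Fin S → (Fin n → L) × Fin S → C) {c B : ℝ}
    (hc : 0 ≤ c) (hF : ∀ p q, ‖F p q‖ ≤ c) (hFc : ∀ p q, Commute (D.Q g p) (F q q) ∧
      Commute (D.Q g p) (star (F q q)))
    (hB : ∑ p, (τ.f (D.Q g p * (star (F p p) * F p p))).re ≤ B) :
    τ.n2 (∑ p, ∑ q, D.Q g p * D.Q g q * F p q) ≤
      Real.sqrt B + 2 * c * ((Fintype.card L : ℝ) ^ n) ^ 2 * S * Real.sqrt η₂ := by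
  have hpart : ∑ p, D.Q g p * F p p = ∑ p, ∑ q, D.Q g p * D.Q g q * F p p :=
    Finset.sum_congr rfl fun p _ => by
      rw [← Finset.sum_mul, ← Finset.mul_sum, D.Q_sum, mul_one]
  have h1 : τ.n2 (∑ p, D.Q g p * F p p) ≤ Real.sqrt B :=
    Real.sqrt_le_sqrt ((hsq_sum_mul_le τ (fun p => (D.Q_mem g p).1) (D.Q_sum g) (D.Q_comm g)
      (fun p q => (hFc p q).1) fun p q => (hFc p q).2).trans hB)
  have h2 : τ.n2 (∑ p, ∑ q, D.Q g p * D.Q g q * (F p q - F p p)) ≤
      ∑ p : (Fin n → L) × Fin S, ∑ q : (Fin n → L) × Fin S,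
        (if p.2 = q.2 then 2 * c * Real.sqrt η₂ else 0) := by
    refine (τ.n2_sum_le _ _).trans (Finset.sum_le_sum fun p _ =>
      (τ.n2_sum_le _ _).trans (Finset.sum_le_sum fun q _ => ?_))
    split_ifs with hs
    · rcases eq_or_ne p.1 q.1 with h | h
      · rw [show q = p from Prod.ext h.symm hs.symm, sub_self, mul_zero, τ.n2_zero]
        positivity
      · refine (n2_mul_le' τ _ _).trans ?_
        rw [mul_comm (2 * c)]
        exact mul_le_mul (D.n2_Q_mul_le g h) ((norm_sub_le _ _).trans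
          (by linarith [hF p q, hF p p])) (norm_nonneg _) (Real.sqrt_nonneg _)
    · have : D.Q g p * D.Q g q = 0 := by
        simp only [CoreData.Q]
        rw [mul_assoc, ← mul_assoc (D.P p.2),
          (D.commute_prodE g q.1 fun i => D.P_E p.2 _ _).eq, mul_assoc, D.P_mul _ _ hs, mul_zero,
          mul_zero]
      rw [this, zero_mul, τ.n2_zero]
  have e : ∑ p, ∑ q, D.Q g p * D.Q g q * F p q = ∑ p, D.Q g p * F p p +
      ∑ p, ∑ q, D.Q g p * D.Q g q * (F p q - F p p) := by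
    simp only [hpart, mul_sub, Finset.sum_sub_distrib]
    abel
  rw [e]
  refine (τ.n2_add_le _ _).trans (add_le_add h1 (h2.trans_eq ?_))
  simp [Fintype.sum_prod_type, Finset.sum_ite_eq, Finset.sum_const]
  ring

/-- The squared difference of two matrix units. -/
private noncomputable def CoreData.gap (D : CoreData τ Γ L S η₁ η₂) (x y : Γ) : C :=
  star (D.V x - D.V y) * (D.V x - D.V y) + (D.V x - D.V y) * star (D.V x - D.V y)

omit [DecidableEq L] [DecidableEq Γ] in
private theorem CoreData.gap_nonneg (D : CoreData τ Γ L S η₁ η₂) (x y : Γ) : 0 ≤ D.gap x y :=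
  add_nonneg (star_mul_self_nonneg _) (mul_star_self_nonneg _)

private theorem CoreData.sum_gap_le (D : CoreData τ Γ L S η₁ η₂) (hη₁ : 0 ≤ η₁)
    {sel : (L → ℝ) → Fin S → L} {n : ℕ} (g : Fin n → Γ) :
    ∑ p : (Fin n → L) × Fin S, (τ.f (D.Q g p *
        ∑ x ∈ cls sel p.1 p.2 ×ˢ cls sel p.1 p.2, D.gap (g x.1) (g x.2))).re
      ≤ (n : ℝ) ^ 2 * η₁ := by
  have h1 : ∀ p : (Fin n → L) × Fin S, (τ.f (D.Q g p *
        ∑ x ∈ cls sel p.1 p.2 ×ˢ cls sel p.1 p.2, D.gap (g x.1) (g x.2))).re ≤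
      ∑ x : Fin n × Fin n, if p.1 x.1 = p.1 x.2 then
        (τ.f (D.Q g p * D.gap (g x.1) (g x.2))).re else 0 := fun p => by
    rw [Finset.mul_sum, map_sum, Complex.re_sum, ← Finset.sum_filter]
    refine Finset.sum_le_sum_of_subset_of_nonneg (fun x hx => ?_) fun x _ _ =>
      re_mul_nonneg τ (D.Q_mem g p).1 (D.gap_nonneg _ _)
    simp only [cls, Finset.mem_product, Finset.mem_filter, Finset.mem_univ, true_and] at hx ⊢
    rw [hx.1, hx.2]
  refine (Finset.sum_le_sum fun p _ => h1 p).trans ?_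
  rw [Finset.sum_comm]
  refine (Finset.sum_le_card_nsmul _ _ η₁ fun x _ => ?_).trans_eq (by
    simp only [Finset.card_univ, Fintype.card_prod, Fintype.card_fin, nsmul_eq_mul]; push_cast; ring)
  obtain ⟨i, j⟩ := x
  rcases eq_or_ne i j with rfl | hij
  · simp [CoreData.gap, hη₁]
  have hι : Function.Injective ![i, j] := by
    intro a b
    fin_cases a <;> fin_cases b <;> simp [hij, Ne.symm hij]
  have hm : ∀ l, ∑ φ ∈ Finset.univ.filter (fun φ : Fin n → L => φ i = φ j ∧ φ i = l),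
      prodE (fun k => D.E (g k)) φ = D.E (g i) l * D.E (g j) l := fun l => by
    refine Eq.trans (Finset.sum_congr ?_ fun _ _ => rfl)
      ((D.sum_marginal g hι ![l, l]).trans (by simp [prodE, List.ofFn_succ]))
    ext φ
    simp only [Finset.mem_filter, Finset.mem_univ, true_and, funext_iff, Fin.forall_fin_two]
    simp only [Matrix.cons_val_zero, Matrix.cons_val_one]
    exact ⟨fun h => ⟨h.2, h.1 ▸ h.2⟩, fun h => ⟨h.1.trans h.2.symm, h.1⟩⟩
  calc ∑ p : (Fin n → L) × Fin S,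
        (if p.1 i = p.1 j then (τ.f (D.Q g p * D.gap (g i) (g j))).re else 0)
      = ∑ φ ∈ Finset.univ.filter (fun φ : Fin n → L => φ i = φ j),
          (τ.f (prodE (fun k => D.E (g k)) φ * D.gap (g i) (g j))).re := by
        rw [Fintype.sum_prod_type, Finset.sum_filter]
        refine Finset.sum_congr rfl fun φ _ => ?_
        dsimp only
        split_ifs
        · rw [← Complex.re_sum, ← map_sum, ← Finset.sum_mul]
          simp only [CoreData.Q, ← Finset.mul_sum, D.P_sum, mul_one]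
        · simp
    _ = (τ.f (∑ l, D.E (g i) l * D.E (g j) l * D.gap (g i) (g j))).re := by
        simp only [← hm, Finset.sum_mul, map_sum, Complex.re_sum]
        rw [← Finset.sum_fiberwise (Finset.univ.filter fun φ : Fin n → L => φ i = φ j)
          (fun φ => φ i)]
        simp only [Finset.filter_filter]
    _ ≤ η₁ := D.hash (g i) (g j)

private theorem CoreData.amp_sq_le (D : CoreData τ Γ L S η₁ η₂) {sel : (L → ℝ) → Fin S → L}
    {n : ℕ} (hn : 0 < n) (g : Fin n → Γ) (ψ : Fin n → L) (s : Fin S)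
    (h : 0 < wts ψ (sel (wts ψ) s)) :
    let A := amp sel (fun i => D.V (g i)) ψ s
    let X := ∑ x ∈ cls sel ψ s ×ˢ cls sel ψ s, D.gap (g x.1) (g x.2)
    star (A * A) * (A * A) ≤ X ∧
      star (star A * A + A * star A - 1) * (star A * A + A * star A - 1) ≤ X := by
  intro A X
  set c := cls sel ψ s with hc
  have hc0 : (0 : ℝ) < c.card := Nat.cast_pos.2 (cls_card_pos h)
  set t : ℝ := (c.card : ℝ)⁻¹ with ht
  have ht0 : 0 < t := inv_pos.2 hc0
  have ht1 : t * t ≤ 1 := by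
    have : t ≤ 1 := inv_le_one_of_one_le₀ (Nat.one_le_cast.2 (cls_card_pos h))
    nlinarith
  have hA : A = t • ∑ i ∈ c, D.V (g i) := amp_eq hn sel _ ψ s
  have hone : ∑ x ∈ c ×ˢ c, t * t = 1 := by
    rw [Finset.sum_const, Finset.card_product, nsmul_eq_mul, Nat.cast_mul, ht]
    field_simp
  have hX : (t * t) • X ≤ X := by
    rw [← sub_nonneg, show X - (t * t) • X = (1 - t * t) • X by rw [sub_smul, one_smul]]
    exact smul_nonneg (by linarith) (Finset.sum_nonneg fun x _ => D.gap_nonneg _ _)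
  refine ⟨?_, ?_⟩
  · have e : A * A = ∑ x : (c ×ˢ c : Finset (Fin n × Fin n)),
        algebraMap ℝ C (t * t) *
          (D.V (g x.1.1) * (D.V (g x.1.2) - D.V (g x.1.1))) := by
      rw [Finset.sum_coe_sort (c ×ˢ c) fun x =>
        algebraMap ℝ C (t * t) * (D.V (g x.1) * (D.V (g x.2) - D.V (g x.1))), hA,
        smul_mul_smul_comm, Finset.sum_mul_sum, Finset.sum_product, Finset.smul_sum]
      refine Finset.sum_congr rfl fun i _ => ?_
      simp only [mul_sub, D.V_sq, sub_zero, ← Algebra.smul_def, Finset.smul_sum]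
    rw [e]
    refine (jensen (fun _ => algebraMap_nonneg C (by positivity)) ?_
      (fun _ _ => Algebra.commute_algebraMap_left _ _)
      (fun _ _ => Algebra.commute_algebraMap_left _ _)
      fun _ _ => Algebra.commute_algebraMap_left _ _).trans (le_trans ?_ hX)
    · rw [← map_sum, Finset.sum_coe_sort (c ×ˢ c) fun _ => t * t, hone, map_one]
    rw [Finset.sum_coe_sort (c ×ˢ c) fun x => algebraMap ℝ C (t * t) *
      (star (D.V (g x.1) * (D.V (g x.2) - D.V (g x.1))) *
        (D.V (g x.1) * (D.V (g x.2) - D.V (g x.1)))), ← Finset.mul_sum, ← Algebra.smul_def]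
    refine smul_le_smul_of_nonneg_left (Finset.sum_le_sum fun x _ => ?_) (by positivity)
    have hV : star (D.V (g x.1)) * D.V (g x.1) ≤ 1 :=
      D.V_one (g x.1) ▸ le_add_of_nonneg_right (mul_star_self_nonneg _)
    calc star (D.V (g x.1) * (D.V (g x.2) - D.V (g x.1))) *
          (D.V (g x.1) * (D.V (g x.2) - D.V (g x.1)))
        = star (D.V (g x.2) - D.V (g x.1)) * (star (D.V (g x.1)) * D.V (g x.1)) *
            (D.V (g x.2) - D.V (g x.1)) := by rw [star_mul]; noncomm_ring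
      _ ≤ star (D.V (g x.2) - D.V (g x.1)) * 1 * (D.V (g x.2) - D.V (g x.1)) :=
          star_left_conjugate_le_conjugate hV _
      _ ≤ D.gap (g x.1) (g x.2) := by
          rw [mul_one, CoreData.gap, ← neg_sub (D.V (g x.1)), star_neg, neg_mul_neg]
          exact le_add_of_nonneg_right (mul_star_self_nonneg _)
  · set Z := star A * A + A * star A - 1 with hZ
    have e : (2 : ℝ) • -Z = (t * t) • X := by
      have hgap : ∀ i j, D.gap (g i) (g j) = (2 : ℝ) • (1 : C) -
          ((star (D.V (g i)) * D.V (g j) + D.V (g i) * star (D.V (g j))) +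
            (star (D.V (g j)) * D.V (g i) + D.V (g j) * star (D.V (g i)))) := fun i j => by
        rw [two_smul]
        nth_rw 1 [← D.V_one (g i), ← D.V_one (g j)]
        simp only [CoreData.gap, star_sub, sub_mul, mul_sub]
        abel
      have hsA : star A = t • ∑ i ∈ c, star (D.V (g i)) := by
        rw [hA, star_smul, star_trivial, star_sum]
      have hZ' : Z = (t * t) • ∑ i ∈ c, ∑ j ∈ c,
          (star (D.V (g i)) * D.V (g j) + D.V (g i) * star (D.V (g j))) - 1 := by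
        rw [hZ, hsA, hA, smul_mul_smul_comm, smul_mul_smul_comm, Finset.sum_mul_sum,
          Finset.sum_mul_sum, ← smul_add, ← Finset.sum_add_distrib]
        simp only [← Finset.sum_add_distrib]
      simp only [X, hgap, Finset.sum_product, Finset.sum_add_distrib, Finset.sum_sub_distrib]
      rw [Finset.sum_comm (f := fun i j => star (D.V (g j)) * D.V (g i)),
        Finset.sum_comm (f := fun i j => D.V (g j) * star (D.V (g i)))]
      have h2 : (t * t) • ∑ i ∈ c, ∑ j ∈ c, (2 : ℝ) • (1 : C) = (2 : ℝ) • 1 := by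
        rw [Finset.sum_const, Finset.sum_const, ← Nat.cast_smul_eq_nsmul ℝ c.card,
          ← Nat.cast_smul_eq_nsmul ℝ c.card, smul_smul, smul_smul, smul_smul]
        congr 1
        rw [ht]; field_simp
      rw [smul_sub, h2, hZ']
      simp only [Finset.sum_add_distrib]
      module
    have hsa : IsSelfAdjoint Z :=
      ((IsSelfAdjoint.star_mul_self A).add (IsSelfAdjoint.mul_star_self A)).sub (IsSelfAdjoint.one C)
    have hZ0 : 0 ≤ -Z := by
      have : 0 ≤ (2 : ℝ) • -Z :=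
        e ▸ smul_nonneg (by positivity) (Finset.sum_nonneg fun x _ => D.gap_nonneg _ _)
      have h' := smul_nonneg (show (0 : ℝ) ≤ 2⁻¹ by norm_num) this
      rwa [smul_smul, inv_mul_cancel₀ (two_ne_zero (α := ℝ)), one_smul] at h'
    have hZ1 : -Z ≤ 1 := by
      rw [hZ, neg_sub]
      exact sub_le_self _ (add_nonneg (star_mul_self_nonneg _) (mul_star_self_nonneg _))
    rw [hsa.star_eq, ← neg_mul_neg]
    refine (mul_mem_Icc hZ0 hZ1 hZ0 hZ1 (Commute.refl _)).2.1.trans (le_trans ?_ (e.trans_le hX))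
    rw [two_smul]
    exact le_add_of_nonneg_left hZ0

omit [CStarAlgebra C] [PartialOrder C] [StarOrderedRing C] [DecidableEq L] in
private theorem card_image_sdiff_le {n : ℕ} (g g' : Fin n → Γ) (A B : Finset (Fin n))
    (h : ∀ i ∈ A, ∀ j, g i = g' j → j ∈ B) :
    (A.image g \ B.image g').card ≤ (A.filter fun i => ∀ j, g i ≠ g' j).card := by
  refine le_trans (Finset.card_le_card ?_) (Finset.card_image_le (f := g))
  intro x hx
  obtain ⟨hx, hx'⟩ := Finset.mem_sdiff.1 hx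
  obtain ⟨i, hi, rfl⟩ := Finset.mem_image.1 hx
  exact Finset.mem_image_of_mem g (Finset.mem_filter.2
    ⟨hi, fun j hj => hx' (Finset.mem_image.2 ⟨j, h i hi j hj, hj.symm⟩)⟩)

omit [PartialOrder C] [StarOrderedRing C] [DecidableEq L] in
private theorem norm_avg_sub_le (v : Γ → C) (hv : ∀ x, ‖v x‖ ≤ 1) {X Y : Finset Γ}
    (hX : X.Nonempty) (hY : Y.Nonempty) :
    ‖(X.card : ℝ)⁻¹ • ∑ x ∈ X, v x - (Y.card : ℝ)⁻¹ • ∑ x ∈ Y, v x‖ ≤
      2 * (((X \ Y).card : ℝ) + (Y \ X).card) / X.card := by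
  obtain ⟨a, ha⟩ : ∃ a : ℝ, a = X.card := ⟨_, rfl⟩
  obtain ⟨b, hb⟩ : ∃ b : ℝ, b = Y.card := ⟨_, rfl⟩
  have ha0 : 0 < a := ha ▸ Nat.cast_pos.2 hX.card_pos
  have hb0 : 0 < b := hb ▸ Nat.cast_pos.2 hY.card_pos
  have ca : ((X ∩ Y).card : ℝ) + (X \ Y).card = a := by
    rw [ha]; exact_mod_cast Finset.card_inter_add_card_sdiff X Y
  have cb : ((X ∩ Y).card : ℝ) + (Y \ X).card = b := by
    rw [hb, Finset.inter_comm]; exact_mod_cast Finset.card_inter_add_card_sdiff Y X
  have sX : ∑ x ∈ X, v x = ∑ x ∈ X ∩ Y, v x + ∑ x ∈ X \ Y, v x :=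
    (Finset.sum_inter_add_sum_sdiff X Y v).symm
  have sY : ∑ x ∈ Y, v x = ∑ x ∈ X ∩ Y, v x + ∑ x ∈ Y \ X, v x := by
    rw [Finset.inter_comm]; exact (Finset.sum_inter_add_sum_sdiff Y X v).symm
  have hbd : ∀ T : Finset Γ, ‖∑ x ∈ T, v x‖ ≤ T.card := fun T =>
    (norm_sum_le_of_le _ fun x _ => hv x).trans_eq (by simp)
  have e : a⁻¹ • ∑ x ∈ X, v x - b⁻¹ • ∑ x ∈ Y, v x = a⁻¹ • ∑ x ∈ X \ Y, v x -
      b⁻¹ • ∑ x ∈ Y \ X, v x + (a⁻¹ - b⁻¹) • ∑ x ∈ X ∩ Y, v x := by
    rw [sX, sY]; module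
  rw [← ha, ← hb, e]
  refine (norm_add_le _ _).trans ((add_le_add (norm_sub_le _ _) le_rfl).trans ?_)
  simp only [norm_smul, norm_inv, Real.norm_eq_abs, abs_of_pos ha0, abs_of_pos hb0]
  obtain ⟨p, hp⟩ : ∃ p : ℝ, p = (X \ Y).card := ⟨_, rfl⟩
  obtain ⟨q, hq⟩ : ∃ q : ℝ, q = (Y \ X).card := ⟨_, rfl⟩
  obtain ⟨k, hk⟩ : ∃ k : ℝ, k = (X ∩ Y).card := ⟨_, rfl⟩
  rw [← hp, ← hk] at ca
  rw [← hq, ← hk] at cb
  have hp0 : 0 ≤ p := hp ▸ Nat.cast_nonneg _
  have hq0 : 0 ≤ q := hq ▸ Nat.cast_nonneg _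
  have hk0 : 0 ≤ k := hk ▸ Nat.cast_nonneg _
  have habs : |a⁻¹ - b⁻¹| ≤ (p + q) / (a * b) := by
    rw [inv_sub_inv ha0.ne' hb0.ne', abs_div, abs_of_pos (mul_pos ha0 hb0)]
    refine div_le_div_of_nonneg_right (abs_le.2 ⟨?_, ?_⟩) (by positivity) <;> linarith
  calc a⁻¹ * ‖∑ x ∈ X \ Y, v x‖ + b⁻¹ * ‖∑ x ∈ Y \ X, v x‖ + |a⁻¹ - b⁻¹| * ‖∑ x ∈ X ∩ Y, v x‖
      ≤ a⁻¹ * p + b⁻¹ * q + (p + q) / (a * b) * k := by
        gcongr
        · exact hp ▸ hbd _
        · exact hq ▸ hbd _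
        · exact hk ▸ hbd _
    _ = (b * p + a * q + (p + q) * k) / (a * b) := by field_simp
    _ ≤ (2 * (p + q) * b) / (a * b) := by
        refine div_le_div_of_nonneg_right ?_ (by positivity)
        subst ca cb
        nlinarith [mul_nonneg hp0 hq0, mul_nonneg hq0 hq0]
    _ = 2 * ((((X \ Y).card : ℝ)) + (Y \ X).card) / a := by
        rw [← hp, ← hq]; field_simp

/-- The averaged distance of the selected averages of two families, at fixed labels. -/
private theorem CoreData.sum_norm_amp_sub_le (D : CoreData τ Γ L S η₁ η₂)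
    {sel : (L → ℝ) → Fin S → L} {n : ℕ} (hn : 0 < n) {θ : ℝ} (hθ : 0 ≤ θ)
    (hsel : ∀ w : L → ℝ, (∀ l, 0 ≤ w l) → ∑ l, w l = 1 →
      (∀ s, 0 < w (sel w s)) ∧
      ∀ l, ((Finset.univ.filter fun s => sel w s = l).card : ℝ) ≤ (w l + θ) * S)
    (hstable : ∀ w w' : L → ℝ, (∀ l, 0 ≤ w l) → ∑ l, w l = 1 → (∀ l, 0 ≤ w' l) → ∑ l, w' l = 1 →
      ((Finset.univ.filter fun s => sel w s ≠ sel w' s).card : ℝ)
        ≤ (∑ l, |w l - w' l| + θ) * S)
    (g g' : Fin n → Γ) (hg : Function.Injective g) (hg' : Function.Injective g') {δ : ℝ}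
    (hδ : (((Finset.univ.filter fun i => ∀ j, g i ≠ g' j).card : ℝ) +
        (Finset.univ.filter fun j => ∀ i, g i ≠ g' j).card) / n ≤ δ)
    (ψ ψ' : Fin n → L) (hψ : ∀ i j, g i = g' j → ψ i = ψ' j) :
    ∑ s, ‖amp sel (fun i => D.V (g i)) ψ s - amp sel (fun i => D.V (g' i)) ψ' s‖ ^ 2
      ≤ (8 * δ + 4 * (1 + (Fintype.card L : ℝ)) * θ) * S := by
  have hn' : (0 : ℝ) < n := Nat.cast_pos.2 hn
  let T : L → Finset Γ := fun l => (Finset.univ.filter fun i => ψ i = l).image g
  let T' : L → Finset Γ := fun l => (Finset.univ.filter fun i => ψ' i = l).image g'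
  let d : L → ℝ := fun l => ((T l \ T' l).card : ℝ) + (T' l \ T l).card
  have hw : ∀ l, wts ψ l = (T l).card / n := fun l => by
    rw [Finset.card_image_of_injective _ hg]; rfl
  have hw' : ∀ l, wts ψ' l = (T' l).card / n := fun l => by
    rw [Finset.card_image_of_injective _ hg']; rfl
  have hd0 : ∀ l, 0 ≤ d l := fun l => by positivity
  have hdsum : ∑ l, d l ≤ δ * n := by
    have h1 : ∀ l, (T l \ T' l).card ≤ ((Finset.univ.filter fun i => ∀ j, g i ≠ g' j).filter
        fun i => ψ i = l).card := fun l => by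
      rw [Finset.filter_comm]
      exact card_image_sdiff_le g g' _ _ fun i hi j hij => Finset.mem_filter.2
        ⟨Finset.mem_univ j, (hψ i j hij).symm.trans (Finset.mem_filter.1 hi).2⟩
    have h2 : ∀ l, (T' l \ T l).card ≤ ((Finset.univ.filter fun j => ∀ i, g i ≠ g' j).filter
        fun j => ψ' j = l).card := fun l => by
      rw [Finset.filter_comm]
      refine (card_image_sdiff_le g' g _ _ fun j hj i hij => Finset.mem_filter.2
        ⟨Finset.mem_univ i, (hψ i j hij.symm).trans (Finset.mem_filter.1 hj).2⟩).trans_eq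
        (congrArg Finset.card (Finset.filter_congr fun j _ => ?_))
      exact forall_congr' fun i => ne_comm
    rw [div_le_iff₀ hn'] at hδ
    refine le_trans ?_ hδ
    rw [Finset.sum_add_distrib, ← Nat.cast_sum, ← Nat.cast_sum,
      Finset.card_eq_sum_card_fiberwise (fun i _ => Finset.mem_univ (ψ i)),
      Finset.card_eq_sum_card_fiberwise (fun i _ => Finset.mem_univ (ψ' i))]
    exact add_le_add (Nat.cast_le.2 (Finset.sum_le_sum fun l _ => h1 l))
      (Nat.cast_le.2 (Finset.sum_le_sum fun l _ => h2 l))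
  have hwd : ∑ l, |wts ψ l - wts ψ' l| ≤ δ := by
    refine le_trans (b := (∑ l, d l) / n) ?_ ((div_le_iff₀ hn').2 hdsum)
    rw [Finset.sum_div]
    refine Finset.sum_le_sum fun l _ => ?_
    rw [hw, hw', ← sub_div, abs_div, abs_of_pos hn']
    refine div_le_div_of_nonneg_right ?_ hn'.le
    have e1 : (((T l ∩ T' l).card : ℝ) + (T l \ T' l).card) = (T l).card := by
      exact_mod_cast Finset.card_inter_add_card_sdiff (T l) (T' l)
    have e2 : (((T l ∩ T' l).card : ℝ) + (T' l \ T l).card) = (T' l).card := by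
      rw [Finset.inter_comm]; exact_mod_cast Finset.card_inter_add_card_sdiff (T' l) (T l)
    rw [← e1, ← e2, abs_le]
    constructor <;>
      linarith [(Nat.cast_nonneg _ : (0 : ℝ) ≤ ((T l \ T' l).card : ℝ)),
        (Nat.cast_nonneg _ : (0 : ℝ) ≤ ((T' l \ T l).card : ℝ))]
  obtain ⟨hwn, hw1⟩ := wts_dist hn ψ
  obtain ⟨hwn', hw1'⟩ := wts_dist hn ψ'
  obtain ⟨hpos, hfreq⟩ := hsel _ hwn hw1
  have hpos' := (hsel _ hwn' hw1').1
  let H : L → ℝ := fun l => min 4 (4 * d l / (T l).card)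
  have hH0 : ∀ l, 0 ≤ H l := fun l => le_min (by norm_num) (by positivity)
  have hpt : ∀ s, ‖amp sel (fun i => D.V (g i)) ψ s - amp sel (fun i => D.V (g' i)) ψ' s‖ ^ 2 ≤
      (if sel (wts ψ) s ≠ sel (wts ψ') s then 4 else 0) + H (sel (wts ψ) s) := fun s => by
    have h2 : ‖amp sel (fun i => D.V (g i)) ψ s - amp sel (fun i => D.V (g' i)) ψ' s‖ ≤ 2 :=
      (norm_sub_le _ _).trans (by
        linarith [D.norm_amp_le hn g ψ s (hpos s), D.norm_amp_le hn g' ψ' s (hpos' s)])
    have h4 : ‖amp sel (fun i => D.V (g i)) ψ s - amp sel (fun i => D.V (g' i)) ψ' s‖ ^ 2 ≤ 4 :=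
      (pow_le_pow_left₀ (norm_nonneg _) h2 2).trans (by norm_num)
    split_ifs with hs
    · linarith [hH0 (sel (wts ψ) s)]
    rw [zero_add]
    refine le_min h4 ?_
    have e1 : amp sel (fun i => D.V (g i)) ψ s =
        ((T (sel (wts ψ) s)).card : ℝ)⁻¹ • ∑ x ∈ T (sel (wts ψ) s), D.V x := by
      rw [amp_eq hn, Finset.card_image_of_injective _ hg, Finset.sum_image hg.injOn]; rfl
    have e2 : amp sel (fun i => D.V (g' i)) ψ' s =
        ((T' (sel (wts ψ) s)).card : ℝ)⁻¹ • ∑ x ∈ T' (sel (wts ψ) s), D.V x := by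
      rw [amp_eq hn, Finset.card_image_of_injective _ hg', Finset.sum_image hg'.injOn,
        not_not.1 hs]
      rfl
    have hT : (T (sel (wts ψ) s)).Nonempty :=
      (Finset.card_pos.1 (cls_card_pos (hpos s))).image g
    have hT' : (T' (sel (wts ψ) s)).Nonempty := by
      have : sel (wts ψ) s = sel (wts ψ') s := not_not.1 hs
      rw [this]
      exact (Finset.card_pos.1 (cls_card_pos (hpos' s))).image g'
    have h3 := norm_avg_sub_le D.V D.norm_V_le hT hT'
    rw [← e1, ← e2] at h3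
    calc ‖amp sel (fun i => D.V (g i)) ψ s - amp sel (fun i => D.V (g' i)) ψ' s‖ ^ 2
        ≤ 2 * ‖amp sel (fun i => D.V (g i)) ψ s - amp sel (fun i => D.V (g' i)) ψ' s‖ := by
          rw [sq]; exact mul_le_mul_of_nonneg_right h2 (norm_nonneg _)
      _ ≤ 2 * (2 * d (sel (wts ψ) s) / (T (sel (wts ψ) s)).card) :=
          mul_le_mul_of_nonneg_left h3 zero_le_two
      _ = 4 * d (sel (wts ψ) s) / (T (sel (wts ψ) s)).card := by ring
  refine (Finset.sum_le_sum fun s _ => hpt s).trans ?_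
  rw [Finset.sum_add_distrib, ← Finset.sum_filter, Finset.sum_const, nsmul_eq_mul]
  have h5 : ∑ s, H (sel (wts ψ) s) ≤ (4 * δ + 4 * (Fintype.card L : ℝ) * θ) * S := by
    calc ∑ s, H (sel (wts ψ) s)
        = ∑ l, ((Finset.univ.filter fun s => sel (wts ψ) s = l).card : ℝ) * H l := by
          rw [← Finset.sum_fiberwise Finset.univ (fun s => sel (wts ψ) s)]
          refine Finset.sum_congr rfl fun l _ => ?_
          rw [Finset.sum_congr rfl fun s hs => congrArg H (Finset.mem_filter.1 hs).2,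
            Finset.sum_const, nsmul_eq_mul]
      _ ≤ ∑ l, (4 * d l / n + 4 * θ) * S := by
          refine Finset.sum_le_sum fun l _ => (mul_le_mul_of_nonneg_right (hfreq l) (hH0 l)).trans ?_
          rw [mul_right_comm]
          refine mul_le_mul_of_nonneg_right ?_ (Nat.cast_nonneg S)
          rw [add_mul]
          refine add_le_add ?_ (by
            rw [mul_comm]; exact mul_le_mul_of_nonneg_right (min_le_left _ _) hθ)
          rcases (Nat.cast_nonneg (T l).card : (0 : ℝ) ≤ _).eq_or_lt with h0 | h0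
          · rw [hw, ← h0, zero_div, zero_mul]; positivity
          · calc wts ψ l * H l ≤ wts ψ l * (4 * d l / (T l).card) :=
                  mul_le_mul_of_nonneg_left (min_le_right _ _) (hwn l)
              _ = 4 * d l / n := by rw [hw]; field_simp
      _ = ((4 * ∑ l, d l) / n + 4 * (Fintype.card L : ℝ) * θ) * S := by
          rw [← Finset.sum_mul, Finset.sum_add_distrib, ← Finset.sum_div, ← Finset.mul_sum,
            Finset.sum_const, Finset.card_univ, nsmul_eq_mul]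
          ring
      _ ≤ _ := by
          gcongr
          rw [div_le_iff₀ hn']
          linarith
  have h6 : ((Finset.univ.filter fun s => sel (wts ψ) s ≠ sel (wts ψ') s).card : ℝ) * 4 ≤
      (4 * δ + 4 * θ) * S := by
    have := (hstable _ _ hwn hw1 hwn' hw1').trans
      (mul_le_mul_of_nonneg_right (add_le_add hwd le_rfl) (Nat.cast_nonneg S))
    linarith
  linarith

theorem CoreData.norm_U_le (D : CoreData τ Γ L S η₁ η₂) {sel : (L → ℝ) → Fin S → L}
    {n : ℕ} (hn : 0 < n)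
    (hpos : ∀ w : L → ℝ, (∀ l, 0 ≤ w l) → ∑ l, w l = 1 → ∀ s, 0 < w (sel w s))
    (g : Fin n → Γ) : ‖D.U sel g‖ ≤ 1 := by
  rw [D.U_eq]
  exact norm_sum_mul_le (fun p => (D.Q_mem g p).1) (D.Q_sum g) (D.Q_comm g)
    (fun p q => (D.Q_amp sel g p g q.1 q.2).1) (fun p q => (D.Q_amp sel g p g q.1 q.2).2)
    zero_le_one fun p => D.norm_amp_le hn g p.1 p.2
      (hpos _ (wts_dist hn p.1).1 (wts_dist hn p.1).2 _)

theorem CoreData.n2_U_defect (D : CoreData τ Γ L S η₁ η₂) (hη₁ : 0 ≤ η₁) (hη₂ : 0 ≤ η₂)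
    {sel : (L → ℝ) → Fin S → L} {n : ℕ} (hn : 0 < n)
    (hpos : ∀ w : L → ℝ, (∀ l, 0 ≤ w l) → ∑ l, w l = 1 → ∀ s, 0 < w (sel w s))
    (g : Fin n → Γ) :
    τ.n2 (D.U sel g * D.U sel g) ≤ Real.sqrt (4 * (n : ℝ) ^ 2 * η₁) +
        8 * ((Fintype.card L : ℝ) ^ n) ^ 2 * S * Real.sqrt η₂ ∧
      τ.n2 (star (D.U sel g) * D.U sel g + D.U sel g * star (D.U sel g) - 1) ≤
        Real.sqrt (4 * (n : ℝ) ^ 2 * η₁) +
          8 * ((Fintype.card L : ℝ) ^ n) ^ 2 * S * Real.sqrt η₂ := by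
  set A : (Fin n → L) × Fin S → C := fun p => amp sel (fun i => D.V (g i)) p.1 p.2 with hA
  have hp : ∀ p : (Fin n → L) × Fin S, 0 < wts p.1 (sel (wts p.1) p.2) :=
    fun p => hpos _ (wts_dist hn p.1).1 (wts_dist hn p.1).2 _
  have hA1 : ∀ p, ‖A p‖ ≤ 1 := fun p => D.norm_amp_le hn g p.1 p.2 (hp p)
  have hQA : ∀ p q, Commute (D.Q g p) (A q) ∧ Commute (D.Q g p) (star (A q)) :=
    fun p q => D.Q_amp sel g p g q.1 q.2
  have hQs : ∀ p, star (D.Q g p) = D.Q g p :=
    fun p => (IsSelfAdjoint.of_nonneg (D.Q_mem g p).1).star_eq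
  have hU : D.U sel g = ∑ p, D.Q g p * A p := D.U_eq sel g
  have hU' : star (D.U sel g) = ∑ p, D.Q g p * star (A p) := by
    rw [hU, star_sum]
    exact Finset.sum_congr rfl fun p _ => by rw [star_mul, hQs, ((hQA p p).2).eq]
  have hmul : ∀ X Y : (Fin n → L) × Fin S → C, (∀ p q, Commute (D.Q g q) (X p)) →
      (∑ p, D.Q g p * X p) * (∑ q, D.Q g q * Y q) =
        ∑ p, ∑ q, D.Q g p * D.Q g q * (X p * Y q) := fun X Y h => by
    rw [Finset.sum_mul_sum]
    refine Finset.sum_congr rfl fun p _ => Finset.sum_congr rfl fun q _ => ?_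
    rw [mul_assoc, ← mul_assoc (X p), ← (h p q).eq]
    simp only [mul_assoc]
  have hgain : ∀ F : (Fin n → L) × Fin S → C,
      (∀ p, star (F p) * F p ≤
        ∑ x ∈ cls sel p.1 p.2 ×ˢ cls sel p.1 p.2, D.gap (g x.1) (g x.2)) →
      ∑ p, (τ.f (D.Q g p * (star (F p) * F p))).re ≤ 4 * (n : ℝ) ^ 2 * η₁ := fun F hF => by
    refine (Finset.sum_le_sum fun p _ => ?_).trans
      ((D.sum_gap_le hη₁ (sel := sel) g).trans (by nlinarith [sq_nonneg (n : ℝ)]))
    rw [τ.trace (D.Q g p) (star (F p) * F p), τ.trace (D.Q g p) (∑ x ∈ _, _)]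
    exact re_mul_mono τ (hF p) (D.Q_mem g p).1
  have hN : 0 ≤ ((Fintype.card L : ℝ) ^ n) ^ 2 * S * Real.sqrt η₂ := by positivity
  refine ⟨?_, ?_⟩
  · rw [hU, hmul A A fun p q => (hQA q p).1]
    refine (D.n2_double_le g (fun p q => A p * A q) zero_le_one
      (fun p q => (norm_mul_le _ _).trans
        (mul_le_one₀ (hA1 p) (norm_nonneg _) (hA1 q)))
      (fun p q => ⟨(hQA p q).1.mul_right (hQA p q).1, ?_⟩)
      (hgain (fun p => A p * A p) fun p => (D.amp_sq_le hn g p.1 p.2 (hp p)).1)).trans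
      (by linarith)
    rw [star_mul]
    exact (hQA p q).2.mul_right (hQA p q).2
  · have e : star (D.U sel g) * D.U sel g + D.U sel g * star (D.U sel g) - 1 =
        ∑ p, ∑ q, D.Q g p * D.Q g q * (star (A p) * A q + A p * star (A q) - 1) := by
      simp only [mul_sub, mul_add, Finset.sum_sub_distrib, Finset.sum_add_distrib, mul_one]
      rw [hU', hU, hmul _ A fun p q => (hQA q p).2, hmul A _ fun p q => (hQA q p).1]
      rw [← Finset.sum_mul_sum, D.Q_sum, one_mul]
    rw [e]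
    have h1 : ∀ p q, Commute (D.Q g p) (star (A q) * A q + A q * star (A q) - 1) := fun p q =>
      (((hQA p q).2.mul_right (hQA p q).1).add_right
        ((hQA p q).1.mul_right (hQA p q).2)).sub_right (Commute.one_right _)
    refine (D.n2_double_le g (fun p q => star (A p) * A q + A p * star (A q) - 1)
      (by norm_num : (0 : ℝ) ≤ 3) (fun p q => ?_) (fun p q => ⟨h1 p q, ?_⟩)
      (hgain (fun p => star (A p) * A p + A p * star (A p) - 1)
        fun p => (D.amp_sq_le hn g p.1 p.2 (hp p)).2)).trans (by linarith)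
    · refine ((norm_sub_le _ _).trans (add_le_add (norm_add_le _ _) le_rfl)).trans ?_
      have h2 := (norm_mul_le (star (A p)) (A q)).trans
        (mul_le_one₀ (by rw [norm_star]; exact hA1 p) (norm_nonneg _) (hA1 q))
      have h3 := (norm_mul_le (A p) (star (A q))).trans
        (mul_le_one₀ (hA1 p) (norm_nonneg _) (by rw [norm_star]; exact hA1 q))
      have h4 : ‖(1 : C)‖ ≤ 1 := norm_le_one_of_mem_Icc zero_le_one le_rfl
      linarith
    · simpa [hQs] using (h1 p q).star_star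

theorem CoreData.hsq_U_sub (D : CoreData τ Γ L S η₁ η₂) (hη₂ : 0 ≤ η₂)
    {sel : (L → ℝ) → Fin S → L} {n : ℕ} (hn : 0 < n) (hS : 0 < S) {θ : ℝ} (hθ : 0 ≤ θ)
    (hsel : ∀ w : L → ℝ, (∀ l, 0 ≤ w l) → ∑ l, w l = 1 →
      (∀ s, 0 < w (sel w s)) ∧
      ∀ l, ((Finset.univ.filter fun s => sel w s = l).card : ℝ) ≤ (w l + θ) * S)
    (hstable : ∀ w w' : L → ℝ, (∀ l, 0 ≤ w l) → ∑ l, w l = 1 → (∀ l, 0 ≤ w' l) → ∑ l, w' l = 1 →
      ((Finset.univ.filter fun s => sel w s ≠ sel w' s).card : ℝ)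
        ≤ (∑ l, |w l - w' l| + θ) * S)
    (g g' : Fin n → Γ) (hg : Function.Injective g) (hg' : Function.Injective g') {δ : ℝ}
    (hδ : (((Finset.univ.filter fun i => ∀ j, g i ≠ g' j).card : ℝ) +
        (Finset.univ.filter fun j => ∀ i, g i ≠ g' j).card) / n ≤ δ) :
    τ.hsq (D.U sel g - D.U sel g') ≤
      8 * δ + 4 * (1 + (Fintype.card L : ℝ)) * θ +
        4 * ((Fintype.card L : ℝ) ^ n) ^ 2 * η₂ := by
  refine le_trans ?_ (le_add_of_nonneg_right (by positivity))
  set T : Finset Γ := Finset.univ.image g ∪ Finset.univ.image g' with hT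
  set u : Fin T.card → Γ := fun k => (T.equivFin.symm k : Γ) with hu
  have hgT : ∀ i, g i ∈ T := fun i =>
    Finset.mem_union_left _ (Finset.mem_image_of_mem g (Finset.mem_univ i))
  have hgT' : ∀ i, g' i ∈ T := fun i =>
    Finset.mem_union_right _ (Finset.mem_image_of_mem g' (Finset.mem_univ i))
  set ι : Fin n → Fin T.card := fun i => T.equivFin ⟨g i, hgT i⟩ with hι
  set ι' : Fin n → Fin T.card := fun i => T.equivFin ⟨g' i, hgT' i⟩ with hι'
  have hinj : Function.Injective ι := fun a b h => hg (congrArg Subtype.val (T.equivFin.injective h))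
  have hinj' : Function.Injective ι' := fun a b h =>
    hg' (congrArg Subtype.val (T.equivFin.injective h))
  set Z : (Fin T.card → L) × Fin S → C := fun p =>
    amp sel (fun i => D.V (g i)) (fun i => p.1 (ι i)) p.2 -
      amp sel (fun i => D.V (g' i)) (fun i => p.1 (ι' i)) p.2 with hZ
  have hUU : D.U sel g - D.U sel g' = ∑ p, D.Q u p * Z p := by
    rw [D.U_refine sel u hinj g (fun i => by simp [hu, hι]),
      D.U_refine sel u hinj' g' (fun i => by simp [hu, hι']), ← Finset.sum_sub_distrib]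
    exact Finset.sum_congr rfl fun p _ => (mul_sub _ _ _).symm
  rw [hUU]
  refine (hsq_sum_mul_le τ (fun p => (D.Q_mem u p).1) (D.Q_sum u) (D.Q_comm u)
    (fun p q => (D.Q_amp sel u p g _ _).1.sub_right (D.Q_amp sel u p g' _ _).1)
    (fun p q => by
      rw [star_sub]
      exact (D.Q_amp sel u p g _ _).2.sub_right (D.Q_amp sel u p g' _ _).2)).trans ?_
  set B := 8 * δ + 4 * (1 + (Fintype.card L : ℝ)) * θ
  have hS' : (0 : ℝ) < S := Nat.cast_pos.2 hS
  calc ∑ p, (τ.f (D.Q u p * (star (Z p) * Z p))).re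
      ≤ ∑ p : (Fin T.card → L) × Fin S,
          (τ.f (prodE (fun i => D.E (u i)) p.1)).re / S * ‖Z p‖ ^ 2 := by
        refine Finset.sum_le_sum fun p _ => ?_
        have h : star (Z p) * Z p ≤ algebraMap ℝ C (‖Z p‖ ^ 2) := by
          rw [sq, ← CStarRing.norm_star_mul_self]
          exact IsSelfAdjoint.le_algebraMap_norm_self (IsSelfAdjoint.star_mul_self _)
        rw [τ.trace]
        refine (re_mul_mono τ h (D.Q_mem u p).1).trans_eq ?_
        rw [← Algebra.smul_def, ← Complex.coe_smul, map_smul, smul_eq_mul, Complex.re_ofReal_mul,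
          CoreData.Q, D.indep, Complex.div_natCast_re, mul_comm]
    _ = ∑ φ : Fin T.card → L, (τ.f (prodE (fun i => D.E (u i)) φ)).re / S *
          ∑ s, ‖Z (φ, s)‖ ^ 2 := by
        rw [Fintype.sum_prod_type]
        simp only [Finset.mul_sum]
    _ ≤ ∑ φ : Fin T.card → L, (τ.f (prodE (fun i => D.E (u i)) φ)).re / S * (B * S) := by
        refine Finset.sum_le_sum fun φ _ => mul_le_mul_of_nonneg_left ?_
          (div_nonneg (re_nonneg τ (D.prodE_mem u φ).1) hS'.le)
        refine D.sum_norm_amp_sub_le hn hθ hsel hstable g g' hg hg' hδ _ _ fun i j hij => ?_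
        simp only [hι, hι', hij]
    _ = B := by
        rw [← Finset.sum_mul, ← Finset.sum_div, ← Complex.re_sum, ← map_sum, D.sum_prodE, τ.one,
          Complex.one_re]
        field_simp

end Vale.Agent.P095.Mix
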