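import Vale.Agent.P095.Mix.Defs
import Vale.Agent.P095.Mix.Tools

/-!
P095: exact trigonometry of symmetries in commuting slots.

`expSum S g r K = exp (i r ∑_{a ∈ K} B g a)` factorises over the slots, and each factor is
`cos r + i sin r B`; against the commutant of slot `a` the pair `exp(i r B) exp(-i r B')` acts as
`1 - (sin r ^ 2 / 2) (B - B') ^ 2`.
-/

namespace Vale.Agent.P095.Mix

open Gamma

variable {C : Type*} [CStarAlgebra C] {τ : TraceState C} {Γ ι : Type*}

/-- `exp (i r ∑_{a ∈ K} B g a)`. -/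
noncomputable def expSum (S : SlotSystem τ Γ ι) (g : Γ) (r : ℝ) (K : Finset ι) : C :=
  uExp r (∑ a ∈ K, S.B g a)

theorem commute_uExp {B x : C} (r : ℝ) (h : Commute B x) : Commute (uExp r B) x :=
  (h.smul_left _).exp_left

theorem norm_uExp_le {B : C} (hB : IsSelfAdjoint B) (r : ℝ) : ‖uExp r B‖ ≤ 1 := by
  have h : star ((r : ℂ) • B) = (r : ℂ) • B := by
    rw [star_smul, hB.star_eq, Complex.star_def, Complex.conj_ofReal]
  have hu : uExp r B ∈ unitary C := by
    rw [uExp, ← smul_smul]
    exact (selfAdjoint.expUnitary ⟨(r : ℂ) • B, h⟩).2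
  rcases subsingleton_or_nontrivial C with h | h
  · simp [Subsingleton.elim (uExp r B) 0]
  · exact (CStarRing.norm_of_mem_unitary hu).le

theorem star_uExp {B : C} (hB : IsSelfAdjoint B) (r : ℝ) : star (uExp r B) = uExp (-r) B := by
  rw [uExp, uExp, NormedSpace.star_exp, star_smul, hB.star_eq]
  simp

variable [DecidableEq ι]

theorem expSum_insert (S : SlotSystem τ Γ ι) (g : Γ) (r : ℝ) {a : ι} {K : Finset ι} (h : a ∉ K) :
    expSum S g r (insert a K) = uExp r (S.B g a) * expSum S g r K := by
  let _ : NormedAlgebra ℚ C := NormedAlgebra.restrictScalars ℚ ℂ C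
  rw [expSum, Finset.sum_insert h, expSum, uExp, uExp, uExp, smul_add]
  refine NormedSpace.exp_add_of_commute (Commute.smul_left (Commute.smul_right ?_ _) _)
  exact Commute.sum_right _ _ _ fun b hb =>
    S.comm a b (fun e => h (e ▸ hb)) _ (S.B_mem g a) _ (S.B_mem g b)

theorem uExp_of_sq_eq_one {B : C} (hB : IsSelfAdjoint B) (hB2 : B * B = 1) (r : ℝ) :
    uExp r B = ((Real.cos r : ℝ) : ℂ) • (1 : C) + (Complex.I * (Real.sin r : ℝ)) • B := by
  rcases subsingleton_or_nontrivial C with hC | hC
  · exact Subsingleton.elim _ _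
  have := hB.isStarNormal
  rw [← cfc_exp_eq_uExp r hB,
    cfc_congr (g := fun z : ℂ => ((Real.cos r : ℝ) : ℂ) + (Complex.I * (Real.sin r : ℝ)) * z)
      fun z hz => ?_, cfc_const_add _ _ B, cfc_const_mul_id _ B, Algebra.algebraMap_eq_smul_one]
  have hz2 : z ^ 2 = 1 := by
    have := spectrum.pow_mem_pow B 2 hz
    rwa [pow_two B, hB2, spectrum.one_eq, Set.mem_singleton_iff] at this
  show Complex.exp _ = _
  rw [Complex.exp_mul_I]
  rcases sq_eq_one_iff.1 hz2 with rfl | rfl <;>
    simp [Complex.ofReal_cos, Complex.ofReal_sin] <;> ring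

theorem norm_expSum_le (S : SlotSystem τ Γ ι) (g : Γ) (r : ℝ) (K : Finset ι) :
    ‖expSum S g r K‖ ≤ 1 := by
  refine norm_uExp_le ?_ r
  rw [IsSelfAdjoint, star_sum]
  exact Finset.sum_congr rfl fun a _ => S.B_sa g a

theorem commute_expSum (S : SlotSystem τ Γ ι) (g : Γ) (r : ℝ) {K : Finset ι} {x : C}
    (hx : ∀ a ∈ K, Commute (S.B g a) x) : Commute (expSum S g r K) x := by
  exact commute_uExp r (Commute.sum_left _ _ _ fun a ha => hx a ha)

/-- The pair of exponentials of one slot. -/
noncomputable def pairP (S : SlotSystem τ Γ ι) (g h : Γ) (r : ℝ) (a : ι) : C :=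
  uExp r (S.B g a) * uExp (-r) (S.B h a)

theorem uExp_slot (S : SlotSystem τ Γ ι) (g : Γ) (r : ℝ) (a : ι) :
    uExp r (S.B g a)
      = ((Real.cos r : ℝ) : ℂ) • (1 : C) + (Complex.I * (Real.sin r : ℝ)) • S.B g a :=
  uExp_of_sq_eq_one (S.B_sa g a) (S.B_sq g a) r

theorem norm_slot_le (S : SlotSystem τ Γ ι) (g : Γ) (a : ι) : ‖S.B g a‖ ≤ 1 := by
  rcases subsingleton_or_nontrivial C with hC | hC
  · simp [Subsingleton.elim (S.B g a) 0]
  · refine (CStarRing.norm_of_mem_unitary ⟨?_, ?_⟩).le <;> rw [S.B_sa, S.B_sq]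

/-- Against the commutant of a slot a pair of exponentials is `1 - y`. -/
theorem trace_pairP (S : SlotSystem τ Γ ι) (g h : Γ) (r : ℝ) (a : ι) {Y : C}
    (hY : ∀ y ∈ S.U a, Commute Y y) :
    τ.f (Y * pairP S g h r a) = τ.f (Y * (1 - ((Real.sin r ^ 2 / 2 : ℝ) : ℂ) •
      ((S.B g a - S.B h a) * (S.B g a - S.B h a)))) := by
  have h1 := S.par g a Y hY
  have h2 := S.par h a Y hY
  have h3 : τ.f (Y * (S.B g a * S.B h a)) = τ.f (Y * (S.B h a * S.B g a)) := by
    rw [← mul_assoc, (hY _ (S.B_mem g a)).eq, mul_assoc, τ.trace, mul_assoc]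
  have hc : ((Real.cos r : ℝ) : ℂ) ^ 2 = 1 - ((Real.sin r : ℝ) : ℂ) ^ 2 := by
    norm_cast; linarith [Real.sin_sq_add_cos_sq r]
  rw [pairP, uExp_slot, uExp_slot, Real.cos_neg, Real.sin_neg]
  simp only [add_mul, mul_add, sub_mul, mul_sub, smul_mul_assoc, mul_smul_comm, one_mul, mul_one,
    smul_smul, map_add, map_sub, map_smul, smul_eq_mul, S.B_sq, h1, h2, h3, smul_sub, smul_add]
  simp only [Complex.ofReal_neg, Complex.ofReal_div, Complex.ofReal_pow, Complex.ofReal_ofNat]
  linear_combination (τ.f Y) * hc -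
    ((Real.sin r : ℝ) : ℂ) ^ 2 * τ.f (Y * (S.B h a * S.B g a)) * Complex.I_mul_I

theorem pair_insert (S : SlotSystem τ Γ ι) (g h : Γ) (r : ℝ) {a : ι} {K : Finset ι} (ha : a ∉ K) :
    expSum S g r (insert a K) * expSum S h (-r) (insert a K)
      = pairP S g h r a * (expSum S g r K * expSum S h (-r) K) := by
  rw [expSum_insert S g r ha, expSum_insert S h (-r) ha, pairP]
  have : Commute (expSum S g r K) (uExp (-r) (S.B h a)) :=
    commute_expSum S g r fun b hb => (commute_uExp (-r)
      (S.comm a b (fun e => ha (e ▸ hb)) _ (S.B_mem h a) _ (S.B_mem g b))).symm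
  simp only [mul_assoc]
  rw [← mul_assoc (expSum S g r K), this.eq, mul_assoc]

/-- The pair of exponentials commutes with what commutes with its slots. -/
theorem commute_pair (S : SlotSystem τ Γ ι) (g h : Γ) (r r' : ℝ) {K : Finset ι} {x : C}
    (hx : ∀ a ∈ K, ∀ y ∈ S.U a, Commute y x) :
    Commute (expSum S g r K * expSum S h r' K) x :=
  Commute.mul_left (commute_expSum S g r fun a ha => hx a ha _ (S.B_mem g a))
    (commute_expSum S h r' fun a ha => hx a ha _ (S.B_mem h a))

/-- The induction over the slots. -/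
theorem trace_pair_bound [PartialOrder C] [StarOrderedRing C] (S : SlotSystem τ Γ ι) (g h : Γ)
    {r : ℝ} (hs : Real.sin r ^ 2 / 2 * 4 ≤ 1) (K : Finset ι) : ∀ Y : C, 0 ≤ Y → (∀ a ∈ K, ∀ y ∈ S.U a, Commute Y y) →
      ∃ A B : ℝ, 0 ≤ A ∧ 0 ≤ B ∧ A + B ≤ (τ.f Y).re ∧
        τ.f (Y * (expSum S g r K * expSum S h (-r) K)) = A ∧
        ∑ b ∈ K, τ.f (Y * ((((Real.sin r ^ 2 / 2 : ℝ) : ℂ) •
          ((S.B g b - S.B h b) * (S.B g b - S.B h b))) *
            (expSum S g r (K.erase b) * expSum S h (-r) (K.erase b)))) = B := by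
  induction K using Finset.induction_on with
  | empty =>
    intro Y hY _
    refine ⟨(τ.f Y).re, 0, re_nonneg τ hY, le_rfl, by simp, ?_, by simp⟩
    simp only [expSum, Finset.sum_empty, uExp, smul_zero, NormedSpace.exp_zero, mul_one]
    exact Complex.ext rfl (by simpa using im_eq_zero τ (IsSelfAdjoint.of_nonneg hY))
  | insert c K hc ih =>
    intro Y hY hcomm
    set lam : ℂ := ((Real.sin r ^ 2 / 2 : ℝ) : ℂ) with hlam
    set X : ι → C := fun b => (S.B g b - S.B h b) * (S.B g b - S.B h b) with hX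
    set E : Finset ι → C := fun K => expSum S g r K * expSum S h (-r) K with hE
    set y : C := lam • X c with hy
    have hne : ∀ b ∈ K, c ≠ b := fun b hb e => hc (e ▸ hb)
    have hsX : ∀ b, ∀ x, (∀ z ∈ S.U b, Commute z x) → Commute (X b) x := fun b x hx =>
      ((hx _ (S.B_mem g b)).sub_left (hx _ (S.B_mem h b))).mul_left
        ((hx _ (S.B_mem g b)).sub_left (hx _ (S.B_mem h b)))
    have hyc : ∀ b ∈ K, ∀ z ∈ S.U b, Commute y z := fun b hb z hz =>
      (hsX c z fun w hw => S.comm c b (hne b hb) w hw z hz).smul_left _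
    have hyY : Commute Y y :=
      ((hsX c Y fun w hw => (hcomm c (by simp) w hw).symm).symm).smul_right _
    have hX0 : 0 ≤ X c ∧ X c ≤ algebraMap ℝ C 4 := by
      have hsa : IsSelfAdjoint (S.B g c - S.B h c) := IsSelfAdjoint.sub (S.B_sa g c) (S.B_sa h c)
      have e : X c = star (S.B g c - S.B h c) * (S.B g c - S.B h c) := by
        simp only [hX, hsa.star_eq]
      rw [e]
      refine ⟨star_mul_self_nonneg _,
        (IsSelfAdjoint.le_algebraMap_norm_self (IsSelfAdjoint.star_mul_self _)).trans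
          (algebraMap_mono C ?_)⟩
      rw [CStarRing.norm_star_mul_self]
      nlinarith [(norm_sub_le (S.B g c) (S.B h c)).trans
        (add_le_add (norm_slot_le S g c) (norm_slot_le S h c)), norm_nonneg (S.B g c - S.B h c)]
    have hy0 : 0 ≤ y := by
      rw [hy, hlam, Complex.coe_smul]
      exact smul_nonneg (by positivity) hX0.1
    have hy1 : y ≤ 1 := by
      rw [hy, hlam, Complex.coe_smul]
      refine (smul_le_smul_of_nonneg_left hX0.2 (by positivity)).trans ?_
      rw [Algebra.algebraMap_eq_smul_one, smul_smul]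
      nth_rw 2 [← one_smul ℝ (1 : C)]
      refine smul_le_smul_of_nonneg_right ?_ zero_le_one
      nlinarith [hs]
    have hY1 : 0 ≤ Y * (1 - y) :=
      Commute.mul_nonneg hY (sub_nonneg.2 hy1) ((Commute.one_right Y).sub_right hyY)
    obtain ⟨A, B, hA, hB, hAB, eA, eB⟩ := ih (Y * (1 - y)) hY1 fun b hb z hz =>
      (hcomm b (by simp [hb]) z hz).mul_left ((Commute.one_left z).sub_left (hyc b hb z hz))
    obtain ⟨A', B', hA', hB', hAB', eA', -⟩ := ih (Y * y) (Commute.mul_nonneg hY hy0 hyY)
      fun b hb z hz => (hcomm b (by simp [hb]) z hz).mul_left (hyc b hb z hz)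
    have step : ∀ (Z : C) (K' : Finset ι), K' ⊆ K → (∀ z ∈ S.U c, Commute Z z) →
        τ.f (Z * (pairP S g h r c * E K')) = τ.f (Z * (1 - y) * E K') := by
      intro Z K' hK' hZ
      have cE : ∀ z ∈ S.U c, Commute (E K') z := fun z hz =>
        commute_pair S g h r (-r) fun b hb w hw => S.comm b c (hne b (hK' hb)).symm w hw z hz
      have e1 : pairP S g h r c * E K' = E K' * pairP S g h r c :=
        ((Commute.mul_right (commute_uExp r (cE _ (S.B_mem g c)).symm).symm
          (commute_uExp (-r) (cE _ (S.B_mem h c)).symm).symm).symm).eq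
      rw [e1, ← mul_assoc, trace_pairP S g h r c fun z hz => (hZ z hz).mul_left (cE z hz)]
      have hEy : Commute (E K') (1 - y) := (Commute.one_right _).sub_right
        ((hsX c (E K') fun w hw => (cE w hw).symm).symm.smul_right lam)
      show τ.f (Z * E K' * (1 - y)) = _
      rw [mul_assoc Z, hEy.eq, ← mul_assoc]
    refine ⟨A, B + A', hA, add_nonneg hB hA', ?_, ?_, ?_⟩
    · rw [mul_sub, mul_one, map_sub, Complex.sub_re] at hAB
      linarith
    · rw [pair_insert S g h r hc, step Y K (Finset.Subset.refl _) (hcomm c (by simp))]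
      exact eA
    · rw [Finset.sum_insert hc, Finset.erase_insert hc]
      push_cast
      rw [← eA', ← eB, add_comm (Finset.sum K _)]
      congr 1
      · rw [mul_assoc]
      · refine Finset.sum_congr rfl fun b hb => ?_
        have hcb : c ∉ K.erase b := fun hh => hc (Finset.mem_of_mem_erase hh)
        rw [Finset.erase_insert_of_ne (hne b hb), pair_insert S g h r hcb, ← mul_assoc Y,
          step (Y * (lam • X b)) (K.erase b) (Finset.erase_subset b K) fun z hz =>
            (hcomm c (by simp) z hz).mul_left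
              ((hsX b z fun w hw => S.comm b c (hne b hb).symm w hw z hz).smul_left _)]
        have hc1 : Commute (lam • X b) (1 - y) := (Commute.one_right _).sub_right
          (((hsX b y fun w hw => (hyc b hb w hw).symm)).smul_left _)
        show τ.f (Y * (lam • X b) * (1 - y) * E (K.erase b))
          = τ.f (Y * (1 - y) * (lam • X b * E (K.erase b)))
        simp only [mul_assoc]
        rw [← mul_assoc (lam • X b), hc1.eq, mul_assoc]

theorem norm_uExp_slot_sub (S : SlotSystem τ Γ ι) (g : Γ) (r : ℝ) (a : ι) :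
    ‖uExp r (S.B g a) - 1‖ ≤ 2 * |r| := by
  have hc : |Real.cos r - 1| ≤ |r| := by
    have h1 := Real.cos_le_one r
    have h2 := Real.one_sub_sq_div_two_le_cos (x := r)
    rw [abs_sub_comm, abs_of_nonneg (by linarith)]
    rcases le_total |r| 2 with hr | hr
    · nlinarith [sq_abs r, abs_nonneg r]
    · linarith [Real.neg_one_le_cos r]
  rw [uExp_slot, show ((Real.cos r : ℝ) : ℂ) • (1 : C) + (Complex.I * (Real.sin r : ℝ)) • S.B g a - 1
    = ((Real.cos r - 1 : ℝ) : ℂ) • (1 : C) + (Complex.I * (Real.sin r : ℝ)) • S.B g a by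
      push_cast; rw [sub_smul, one_smul]; abel]
  refine (norm_add_le _ _).trans ?_
  rw [norm_smul, norm_smul, norm_mul, Complex.norm_I, one_mul, Complex.norm_real, Complex.norm_real,
    Real.norm_eq_abs, Real.norm_eq_abs]
  have hn : ‖(1 : C)‖ ≤ 1 := by
    rcases subsingleton_or_nontrivial C with hC | hC
    · simp [Subsingleton.elim (1 : C) 0]
    · exact CStarRing.norm_one.le
  nlinarith [norm_slot_le S g a, Real.abs_sin_le_abs (x := r), abs_nonneg (Real.cos r - 1),
    abs_nonneg (Real.sin r), norm_nonneg (S.B g a), norm_nonneg (1 : C)]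

/-- The group commutator of two exponentials of one slot is nearly invisible to its commutant. -/
theorem trace_commutator (S : SlotSystem τ Γ ι) (g h : Γ) (r r' : ℝ) (a : ι) {Y : C}
    (hY : ∀ y ∈ S.U a, Commute Y y) :
    ‖τ.f (Y * (uExp (-r) (S.B g a) * uExp (-r') (S.B h a) *
        (uExp r (S.B g a) * uExp r' (S.B h a)))) - τ.f Y‖
      ≤ 4 * (|r| * |r'| * (|r| + |r'|)) * ‖Y‖ := by
  set A := S.B g a
  set B := S.B h a
  set s : ℂ := Complex.I * (Real.sin r : ℝ) with hs
  set s' : ℂ := Complex.I * (Real.sin r' : ℝ) with hs'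
  set p := uExp r A
  set q := uExp r' B
  set p' := uExp (-r) A with hp'
  set q' := uExp (-r') B with hq'
  have hinv : ∀ (t : ℝ) (Z : C), uExp (-t) Z * uExp t Z = 1 := by
    intro t Z
    let _ : NormedAlgebra ℚ C := NormedAlgebra.restrictScalars ℚ ℂ C
    rw [uExp, uExp, ← NormedSpace.exp_add_of_commute (((Commute.refl Z).smul_left _).smul_right _),
      ← add_smul]
    simp
  have hpq : p * q = q * p + (s * s') • (A * B - B * A) := by
    simp only [p, q, A, B, uExp_slot, add_mul, mul_add, smul_mul_assoc, mul_smul_comm, one_mul,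
      mul_one, smul_sub, ← hs, ← hs']
    module
  have e : p' * q' * (p * q) = 1 + (s * s') • (p' * q' * (A * B - B * A)) := by
    rw [hpq, mul_add, mul_smul_comm]
    congr 1
    rw [mul_assoc, ← mul_assoc q', hinv, one_mul, hinv]
  have hcc : τ.f (Y * (A * B - B * A)) = 0 := by
    have h3 : τ.f (Y * (A * B)) = τ.f (Y * (B * A)) := by
      rw [← mul_assoc, (hY _ (S.B_mem g a)).eq, mul_assoc, τ.trace, mul_assoc]
    rw [mul_sub, map_sub, h3, sub_self]
  set c : ℂ := ((Real.cos r : ℝ) : ℂ) * ((Real.cos r' : ℝ) : ℂ) with hc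
  rw [e, mul_add, mul_one, map_add, add_sub_cancel_left, mul_smul_comm, map_smul, smul_eq_mul]
  have e2 : τ.f (Y * (p' * q' * (A * B - B * A)))
      = τ.f (Y * ((p' * q' - c • 1) * (A * B - B * A))) := by
    rw [sub_mul, mul_sub Y, map_sub, smul_mul_assoc, one_mul, mul_smul_comm, map_smul, hcc,
      smul_zero, sub_zero]
  have hd : p' * q' - c • 1 = (p' - ((Real.cos r : ℝ) : ℂ) • 1) * q' +
      ((Real.cos r : ℝ) : ℂ) • (q' - ((Real.cos r' : ℝ) : ℂ) • 1) := by
    rw [sub_mul, smul_mul_assoc, one_mul, smul_sub, smul_smul, ← hc]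
    abel
  have hb : ∀ (k : Γ) (t : ℝ),
      ‖uExp (-t) (S.B k a) - ((Real.cos t : ℝ) : ℂ) • (1 : C)‖ ≤ |t| := by
    intro k t
    rw [uExp_slot, Real.cos_neg, add_sub_cancel_left, norm_smul, norm_mul, Complex.norm_I, one_mul,
      Complex.norm_real, Real.norm_eq_abs, Real.sin_neg, abs_neg]
    exact (mul_le_mul Real.abs_sin_le_abs (norm_slot_le S k a) (norm_nonneg _)
      (abs_nonneg _)).trans_eq (mul_one _)
  have hd' : ‖p' * q' - c • 1‖ ≤ |r| + |r'| := by
    rw [hd]
    refine (norm_add_le _ _).trans (add_le_add ((norm_mul_le _ _).trans ?_) ?_)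
    · exact (mul_le_mul (hb g r) (norm_uExp_le (S.B_sa h a) _) (norm_nonneg _)
        (abs_nonneg _)).trans_eq (mul_one _)
    · rw [norm_smul, Complex.norm_real, Real.norm_eq_abs]
      exact (mul_le_mul (Real.abs_cos_le_one r) (hb h r') (norm_nonneg _) zero_le_one).trans_eq
        (one_mul _)
  have hab : ‖A * B - B * A‖ ≤ 2 := by
    refine (norm_sub_le _ _).trans ?_
    have h1 := mul_le_mul (norm_slot_le S g a) (norm_slot_le S h a) (norm_nonneg _) zero_le_one
    have h2 := mul_le_mul (norm_slot_le S h a) (norm_slot_le S g a) (norm_nonneg _) zero_le_one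
    linarith [norm_mul_le A B, norm_mul_le B A]
  rw [e2, norm_mul]
  have hss : ‖s * s'‖ ≤ |r| * |r'| := by
    rw [hs, hs', norm_mul, norm_mul, norm_mul, Complex.norm_I, one_mul, one_mul, Complex.norm_real,
      Complex.norm_real]
    exact mul_le_mul Real.abs_sin_le_abs Real.abs_sin_le_abs (norm_nonneg _) (abs_nonneg _)
  calc ‖s * s'‖ * ‖τ.f (Y * ((p' * q' - c • 1) * (A * B - B * A)))‖
      ≤ (|r| * |r'|) * (‖Y‖ * ((|r| + |r'|) * 2)) := by
        refine mul_le_mul hss ((τ.bound _).trans ((norm_mul_le _ _).trans ?_)) (norm_nonneg _)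
          (by positivity)
        exact mul_le_mul_of_nonneg_left ((norm_mul_le _ _).trans
          (mul_le_mul hd' hab (norm_nonneg _) (by positivity))) (norm_nonneg _)
    _ ≤ 4 * (|r| * |r'| * (|r| + |r'|)) * ‖Y‖ := by
        nlinarith [mul_nonneg (mul_nonneg (abs_nonneg r) (abs_nonneg r'))
          (add_nonneg (abs_nonneg r) (abs_nonneg r')), norm_nonneg Y,
          mul_nonneg (mul_nonneg (mul_nonneg (abs_nonneg r) (abs_nonneg r'))
          (add_nonneg (abs_nonneg r) (abs_nonneg r'))) (norm_nonneg Y)]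

variable [Fintype ι]

/-- Decay of the averaged squared difference against the pair of exponentials. -/
theorem norm_trace_decay [PartialOrder C] [StarOrderedRing C] (S : SlotSystem τ Γ ι) (g h : Γ)
    {r : ℝ} (hr0 : r ≠ 0) (hr : |r| ≤ 1 / 2) (hι : 0 < Fintype.card ι) :
    ‖τ.f ((((Fintype.card ι : ℂ))⁻¹ • ∑ a, (S.B g a - S.B h a) * (S.B g a - S.B h a)) *
        (expSum S g r Finset.univ * expSum S h (-r) Finset.univ))‖ ≤
      4 / ((Fintype.card ι : ℝ) * r ^ 2) + 16 * |r| := by
  set M : ℕ := Fintype.card ι with hM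
  have hM' : (0 : ℝ) < M := by exact_mod_cast hι
  have hsin : |Real.sin r| ≤ |r| := Real.abs_sin_le_abs
  have hs : Real.sin r ^ 2 / 2 * 4 ≤ 1 := by
    nlinarith [sq_abs (Real.sin r), abs_nonneg (Real.sin r)]
  set lam : ℝ := Real.sin r ^ 2 / 2 with hlam
  have hlow : r ^ 2 / 4 ≤ lam := by
    have h2 : 3 / 4 * |r| ≤ |Real.sin r| := by
      have h3 := Real.sin_gt_sub_cube (x := |r|) (abs_pos.2 hr0)
      have h4 : Real.sin |r| ≤ |Real.sin r| := by
        rcases abs_choice r with e | e <;> rw [e]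
        · exact le_abs_self _
        · rw [Real.sin_neg]; exact neg_le_abs _
      nlinarith [abs_nonneg r, pow_le_pow_left₀ (abs_nonneg r) hr 2]
    rw [hlam, ← sq_abs r, ← sq_abs (Real.sin r)]
    nlinarith [abs_nonneg r]
  have hlam0 : 0 < lam := lt_of_lt_of_le (by positivity) hlow
  obtain ⟨A, B, hA, hB, hAB, -, eB⟩ :=
    trace_pair_bound S g h hs Finset.univ 1 zero_le_one fun _ _ _ _ => Commute.one_left _
  rw [τ.one, Complex.one_re] at hAB
  set X : ι → C := fun b => (S.B g b - S.B h b) * (S.B g b - S.B h b) with hX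
  set E : Finset ι → C := fun K => expSum S g r K * expSum S h (-r) K with hE
  simp only [one_mul, smul_mul_assoc, map_smul, smul_eq_mul, ← Finset.mul_sum, ← hlam] at eB
  have hsum : ‖∑ b, τ.f (X b * E (Finset.univ.erase b))‖ ≤ 1 / lam := by
    rw [le_div_iff₀ hlam0]
    have := congrArg norm eB
    rw [norm_mul, Complex.norm_real, Complex.norm_real, Real.norm_of_nonneg hlam0.le,
      Real.norm_of_nonneg hB] at this
    change lam * ‖∑ b, τ.f (X b * E (Finset.univ.erase b))‖ = B at this
    linarith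
  have hEn : ∀ K, ‖E K‖ ≤ 1 := fun K => (norm_mul_le _ _).trans
    ((mul_le_mul (norm_expSum_le S g r K) (norm_expSum_le S h (-r) K) (norm_nonneg _)
      zero_le_one).trans_eq (one_mul 1))
  have herr : ∀ b, ‖τ.f (X b * E Finset.univ) - τ.f (X b * E (Finset.univ.erase b))‖
      ≤ 16 * |r| := by
    intro b
    have e : E Finset.univ = pairP S g h r b * E (Finset.univ.erase b) := by
      conv_lhs => rw [← Finset.insert_erase (Finset.mem_univ b)]
      exact pair_insert S g h r (Finset.notMem_erase b _)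
    have hP : ‖pairP S g h r b - 1‖ ≤ 4 * |r| := by
      have h1 := norm_uExp_slot_sub S g r b
      have h2 := norm_uExp_slot_sub S h (-r) b
      rw [abs_neg] at h2
      rw [pairP, show uExp r (S.B g b) * uExp (-r) (S.B h b) - 1
        = uExp r (S.B g b) * (uExp (-r) (S.B h b) - 1) + (uExp r (S.B g b) - 1) by noncomm_ring]
      refine (norm_add_le _ _).trans ?_
      have := (norm_mul_le _ _).trans (mul_le_mul (norm_uExp_le (S.B_sa g b) r) h2 (norm_nonneg _)
        zero_le_one)
      linarith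
    have hXb : ‖X b‖ ≤ 4 := by
      have := (norm_sub_le (S.B g b) (S.B h b)).trans
        (add_le_add (norm_slot_le S g b) (norm_slot_le S h b))
      refine (norm_mul_le _ _).trans ?_
      nlinarith [norm_nonneg (S.B g b - S.B h b)]
    rw [e, ← map_sub, ← mul_sub, show pairP S g h r b * E (Finset.univ.erase b) -
      E (Finset.univ.erase b) = (pairP S g h r b - 1) * E (Finset.univ.erase b) by noncomm_ring]
    refine (τ.bound _).trans ((norm_mul_le _ _).trans ?_)
    refine (mul_le_mul hXb ((norm_mul_le _ _).trans (mul_le_mul hP (hEn _) (norm_nonneg _)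
      (by positivity))) (norm_nonneg _) (by norm_num)).trans_eq (by ring)
  change ‖τ.f (((M : ℂ)⁻¹ • ∑ b, X b) * E Finset.univ)‖ ≤ _
  rw [smul_mul_assoc, map_smul, smul_eq_mul, Finset.sum_mul, map_sum, norm_mul, norm_inv,
    Complex.norm_natCast]
  have h4 : ‖∑ b, τ.f (X b * E Finset.univ)‖ ≤ 1 / lam + M * (16 * |r|) := by
    have h5 := (norm_sum_le _ _).trans (Finset.sum_le_sum (s := Finset.univ) fun b _ => herr b)
    rw [Finset.sum_sub_distrib, Finset.sum_const, Finset.card_univ, nsmul_eq_mul] at h5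
    have := norm_le_norm_add_norm_sub' (∑ b, τ.f (X b * E Finset.univ))
      (∑ b, τ.f (X b * E (Finset.univ.erase b)))
    linarith
  refine (mul_le_mul_of_nonneg_left h4 (by positivity)).trans ?_
  rw [mul_add, ← mul_assoc, inv_mul_cancel₀ hM'.ne', one_mul]
  refine add_le_add ?_ le_rfl
  rw [inv_mul_eq_div, div_div, div_le_div_iff₀ (by positivity) (by positivity)]
  nlinarith

/-- Exponentials of two fields almost commute in the 2-norm. -/
theorem hsq_expSum_comm_le [PartialOrder C] [StarOrderedRing C] (S : SlotSystem τ Γ ι) (g h : Γ)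
    (r r' : ℝ) :
    τ.hsq (expSum S g r Finset.univ * expSum S h r' Finset.univ -
        expSum S h r' Finset.univ * expSum S g r Finset.univ) ≤
      16 * (Fintype.card ι : ℝ) * (|r| * |r'| * (|r| + |r'|)) := by
  set P : Finset ι → C := fun K => expSum S g r K with hP
  set Q : Finset ι → C := fun K => expSum S h r' K with hQ
  set W : Finset ι → C := fun K => star (P K) * star (Q K) * (P K * Q K) with hW
  have hn : ∀ K, ‖W K‖ ≤ 1 := by
    intro K
    refine (norm_mul_le _ _).trans ((mul_le_mul ((norm_mul_le _ _).trans ?_)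
      ((norm_mul_le _ _).trans ?_) (norm_nonneg _) zero_le_one).trans_eq (one_mul 1))
    · rw [norm_star, norm_star]
      exact (mul_le_mul (norm_expSum_le S g r K) (norm_expSum_le S h r' K) (norm_nonneg _)
        zero_le_one).trans_eq (one_mul 1)
    · exact (mul_le_mul (norm_expSum_le S g r K) (norm_expSum_le S h r' K) (norm_nonneg _)
        zero_le_one).trans_eq (one_mul 1)
  have key : ∀ K, ‖τ.f (W K) - 1‖ ≤ K.card * (4 * (|r| * |r'| * (|r| + |r'|))) := by
    intro K
    induction K using Finset.induction_on with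
    | empty => simp [hW, hP, hQ, expSum, uExp, τ.one]
    | insert c K hc ih =>
      have cz : ∀ x, x ∈ S.U c →
          Commute (P K) x ∧ Commute (Q K) x ∧ Commute (star (P K)) x ∧ Commute (star (Q K)) x := by
        intro x hx
        have h1 : ∀ (k : Γ) (t : ℝ), ∀ z ∈ S.U c, Commute (expSum S k t K) z := fun k t z hz =>
          commute_expSum S k t fun b hb =>
            S.comm b c (fun e => hc (e ▸ hb)) _ (S.B_mem k b) _ hz
        refine ⟨h1 g r x hx, h1 h r' x hx, ?_, ?_⟩
        · simpa using (h1 g r _ (S.star_mem c x hx)).star_star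
        · simpa using (h1 h r' _ (S.star_mem c x hx)).star_star
      set p := uExp r (S.B g c)
      set q := uExp r' (S.B h c)
      set p' := uExp (-r) (S.B g c)
      set q' := uExp (-r') (S.B h c)
      have hp : star p = p' := star_uExp (S.B_sa g c) r
      have hq : star q = q' := star_uExp (S.B_sa h c) r'
      have cp : ∀ (k : Γ) (t : ℝ) (Z : C), (∀ x ∈ S.U c, Commute Z x) →
          Commute Z (uExp t (S.B k c)) :=
        fun k t Z hZ => (commute_uExp t (hZ _ (S.B_mem k c)).symm).symm
      have c1 := cp h (-r') _ fun x hx => (cz x hx).2.2.1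
      have c2 := cp g r _ fun x hx => ((cz x hx).2.2.1).mul_left (cz x hx).2.2.2
      have c3 := cp h r' _ fun x hx => (cz x hx).1
      have c4 := cp g (-r) _ fun x hx => (cz x hx).2.2.1
      have e : W (insert c K) = W K * (p' * q' * (p * q)) := by
        have cW : ∀ k t, Commute (W K) (uExp t (S.B k c)) := fun k t => cp k t _ fun x hx =>
          (((cz x hx).2.2.1).mul_left (cz x hx).2.2.2).mul_left ((cz x hx).1.mul_left (cz x hx).2.1)
        rw [(((cW g (-r)).mul_right (cW h (-r'))).mul_right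
          ((cW g r).mul_right (cW h r'))).eq]
        simp only [hW, hP, hQ, expSum_insert S g r hc, expSum_insert S h r' hc, star_mul]
        change star (P K) * star p * (star (Q K) * star q) * (p * P K * (q * Q K)) = _
        rw [hp, hq]
        have cq := cp h (-r') _ fun x hx => (cz x hx).2.2.2
        calc star (P K) * p' * (star (Q K) * q') * (p * P K * (q * Q K))
            = (star (P K) * p') * (star (Q K) * q') * ((p * P K) * (q * Q K)) := rfl
          _ = (p' * star (P K)) * (q' * star (Q K)) * ((p * P K) * (q * Q K)) := by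
              rw [c4.eq, cq.eq]
          _ = p' * (star (P K) * q') * star (Q K) * (p * (P K * q) * Q K) := by
              simp only [mul_assoc]
          _ = p' * (q' * star (P K)) * star (Q K) * (p * (q * P K) * Q K) := by
              rw [c1.eq, c3.eq]
          _ = p' * q' * ((star (P K) * star (Q K)) * p) * (q * (P K * Q K)) := by
              simp only [mul_assoc]
          _ = p' * q' * (p * (star (P K) * star (Q K))) * (q * (P K * Q K)) := by rw [c2.eq]
          _ = p' * q' * p * ((star (P K) * star (Q K)) * q) * (P K * Q K) := by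
              simp only [mul_assoc]
          _ = p' * q' * p * (q * (star (P K) * star (Q K))) * (P K * Q K) := by
              rw [(cp h r' _ fun x hx => ((cz x hx).2.2.1).mul_left (cz x hx).2.2.2).eq]
          _ = p' * q' * (p * q) * W K := by simp only [hW, mul_assoc]
      have t := trace_commutator S g h r r' c (Y := W K) fun x hx =>
        (((cz x hx).2.2.1).mul_left (cz x hx).2.2.2).mul_left ((cz x hx).1.mul_left (cz x hx).2.1)
      rw [e, Finset.card_insert_of_notMem hc]
      refine (norm_sub_le_norm_sub_add_norm_sub _ (τ.f (W K)) 1).trans ?_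
      refine (add_le_add (t.trans (mul_le_mul_of_nonneg_left (hn K) (by positivity))) ih).trans ?_
      push_cast
      linarith
  have h1 := key Finset.univ
  have h2 : ∀ x y : C, τ.hsq (x - y)
      = τ.hsq x + τ.hsq y - 2 * (τ.f (star y * x)).re := by
    intro x y
    have := τ.re_star_mul_comm x y
    simp only [TraceState.hsq, star_sub, sub_mul, mul_sub, map_sub, Complex.sub_re]
    linarith
  rw [h2]
  have h3 := τ.hsq_le_norm_sq (P Finset.univ * Q Finset.univ)
  have h4 := τ.hsq_le_norm_sq (Q Finset.univ * P Finset.univ)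
  have h5 : ∀ x y : C, ‖x‖ ≤ 1 → ‖y‖ ≤ 1 → ‖x * y‖ ^ 2 ≤ 1 := fun x y hx hy =>
    pow_le_one₀ (norm_nonneg _) ((norm_mul_le x y).trans (mul_le_one₀ hx (norm_nonneg _) hy))
  have h6 := h5 _ _ (norm_expSum_le S g r Finset.univ) (norm_expSum_le S h r' Finset.univ)
  have h7 := h5 _ _ (norm_expSum_le S h r' Finset.univ) (norm_expSum_le S g r Finset.univ)
  have h8 := (abs_le.1 ((Complex.abs_re_le_norm _).trans h1)).1
  rw [Complex.sub_re, Complex.one_re, Finset.card_univ] at h8
  simp only [hW, hP, hQ] at h3 h4 h8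
  rw [star_mul]
  have : 0 ≤ (Fintype.card ι : ℝ) * (|r| * |r'| * (|r| + |r'|)) := by positivity
  linarith

/-- An exponential almost commutes in norm with every single slot. -/
theorem norm_expSum_comm_le (S : SlotSystem τ Γ ι) (g : Γ) (r : ℝ) (a : ι) {y : C}
    (hy : y ∈ S.U a) :
    ‖expSum S g r Finset.univ * y - y * expSum S g r Finset.univ‖ ≤ 2 * |r| * ‖y‖ := by
  rw [← Finset.insert_erase (Finset.mem_univ a), expSum_insert S g r (Finset.notMem_erase a _)]
  set E := expSum S g r (Finset.univ.erase a)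
  have hE : Commute E y := commute_expSum S g r fun b hb =>
    S.comm b a (Finset.ne_of_mem_erase hb) _ (S.B_mem g b) _ hy
  rw [show uExp r (S.B g a) * E * y - y * (uExp r (S.B g a) * E)
      = (uExp r (S.B g a) * y - y * uExp r (S.B g a)) * E by
    rw [mul_assoc, hE.eq, sub_mul, mul_assoc, mul_assoc]]
  have e : uExp r (S.B g a) * y - y * uExp r (S.B g a)
      = (Complex.I * (Real.sin r : ℝ)) • (S.B g a * y - y * S.B g a) := by
    rw [uExp_slot, add_mul, mul_add, smul_mul_assoc, mul_smul_comm, one_mul, mul_one,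
      smul_mul_assoc, mul_smul_comm, smul_sub]
    abel
  rw [e]
  refine (norm_mul_le _ _).trans ?_
  refine (mul_le_of_le_one_right (norm_nonneg _) (norm_expSum_le S g r _)).trans ?_
  rw [norm_smul, norm_mul, Complex.norm_I, one_mul, Complex.norm_real, Real.norm_eq_abs]
  have h1 : ‖S.B g a * y - y * S.B g a‖ ≤ 2 * ‖y‖ := by
    refine (norm_sub_le _ _).trans ?_
    have := norm_slot_le S g a
    nlinarith [norm_mul_le (S.B g a) y, norm_mul_le y (S.B g a), norm_nonneg y]
  refine (mul_le_mul Real.abs_sin_le_abs h1 (norm_nonneg _) (abs_nonneg r)).trans_eq (by ring)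

end Vale.Agent.P095.Mix
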