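import Vale.Agent.P095.Gamma.WindowCalc

/-!
P095, invariant matrix units in the tracial central quotient: definitions.

From commuting slots `u g a` and windows `p (o, s, j)` one forms the random matrix units
`V g = ∑ p (o, s, j) * u g j`, cells `E g l` of the randomly shifted fields `fld`, and the mixture
`U = ∑_φ ∑_s (∏ E) * p_s * (average of the V g in the selected cell)`.
-/

open scoped Real

namespace Vale.Agent.P095.Mix

open Gamma

variable {C : Type*}

section Abstract

variable [CStarAlgebra C] {L : Type*} [Fintype L] {n S : ℕ}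

/-- Frequencies of the labels. -/
noncomputable def wts [DecidableEq L] (ψ : Fin n → L) (l : L) : ℝ :=
  ((Finset.univ.filter fun i => ψ i = l).card : ℝ) / n

/-- A product of cells. -/
noncomputable def prodE {m : ℕ} (E : Fin m → L → C) (ψ : Fin m → L) : C :=
  (List.ofFn fun i => E i (ψ i)).prod

/-- The average of the matrix units in the selected cell. -/
noncomputable def amp [DecidableEq L] (sel : (L → ℝ) → Fin S → L) (V : Fin n → C) (ψ : Fin n → L)
    (s : Fin S) : C :=
  (((n : ℝ) * wts ψ (sel (wts ψ) s))⁻¹ : ℂ) •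
    ∑ i ∈ Finset.univ.filter fun i => ψ i = sel (wts ψ) s, V i

/-- The mixture. -/
noncomputable def mixU [DecidableEq L] (sel : (L → ℝ) → Fin S → L) (E : Fin n → L → C)
    (V : Fin n → C) (P : Fin S → C) : C :=
  ∑ ψ : Fin n → L, ∑ s, prodE E ψ * P s * amp sel V ψ s

/-- `x * min(1, |x|⁻¹)`. -/
noncomputable def clip (x : C) : C :=
  x * cfc (fun z : ℂ => (((max 1 (Real.sqrt z.re))⁻¹ : ℝ) : ℂ)) (star x * x)

end Abstract

/-- The parameters of the construction. -/
structure Param where
  H : ℕ
  R : ℕ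
  S : ℕ
  f : Fin H → ℝ → ℝ
  T : ℝ
  sel : (Fin H × Fin H → ℝ) → Fin S → Fin H × Fin H

/-- The two symmetries of a matrix unit. -/
def sym [Ring C] [Algebra ℂ C] [Star C] (s : Bool) (u : C) : C :=
  if s then Complex.I • (star u - u) else u + star u

/-- The shifts. -/
noncomputable def ang (R : ℕ) (o : Fin R) : ℝ := 2 * π * (o : ℕ) / R

variable [CStarAlgebra C] {R S M : ℕ}

/-- The normalised sum of a family over the slots. -/
noncomputable def avgFld (B : Fin M → C) : C := ((Real.sqrt M)⁻¹ : ℂ) • ∑ a, B a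

/-- The field of one group element. -/
noncomputable def fld (s : Bool) (u : Fin M → C) : C := avgFld fun a => sym s (u a)

/-- The offset marginal of the windows. -/
noncomputable def qo (p : Fin R × Fin S × Fin M → C) (o : Fin R) : C :=
  ∑ x : Fin S × Fin M, p (o, x)

/-- The selection marginal of the windows. -/
noncomputable def ps (p : Fin R × Fin S × Fin M → C) (s : Fin S) : C :=
  ∑ x : Fin R × Fin M, p (x.1, s, x.2)

/-- The random matrix unit of one group element. -/
noncomputable def unit (p : Fin R × Fin S × Fin M → C) (u : Fin M → C) : C :=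
  ∑ x, p x * u x.2.2

/-- A shifted window. -/
noncomputable def shiftWin (f : ℝ → ℝ) (φ t : ℝ) (Z : C) : C :=
  window (fun θ => f (θ + φ)) t Z

/-- A cell of one randomly shifted field. -/
noncomputable def cell (f : ℝ → ℝ) (T : ℝ) (p : Fin R × Fin S × Fin M → C) (Z : C) : C :=
  ∑ o, qo p o * shiftWin f (ang R o) T Z

/-- A cell of both fields. -/
noncomputable def lab {H : ℕ} (f : Fin H → ℝ → ℝ) (T : ℝ) (p : Fin R × Fin S × Fin M → C)
    (u : Fin M → C) (l : Fin H × Fin H) : C :=
  cell (f l.1) T p (fld false u) * cell (f l.2) T p (fld true u)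

/-- The mixture built from slots and windows. -/
noncomputable def Param.raw (P : Param) {n : ℕ} (u : Fin n → Fin M → C)
    (p : Fin P.R × Fin P.S × Fin M → C) : C :=
  mixU P.sel (fun i => lab P.f P.T p (u i)) (fun i => unit p (u i)) (ps p)

/-- The contraction built from slots and windows. -/
noncomputable def Param.elt (P : Param) {n : ℕ} (u : Fin n → Fin M → C)
    (p : Fin P.R × Fin P.S × Fin M → C) : C :=
  clip (P.raw u p)

/-- Slots and windows up to the tolerance `e`. -/
structure MixData (τ : TraceState C) (Γ : Type*) (R S M : ℕ) (e : ℝ) [PartialOrder C] where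
  u : Γ → Fin M → C
  p : Fin R × Fin S × Fin M → C
  W : Set C
  u_sq : ∀ g a, u g a * u g a = 0
  u_one : ∀ g a, star (u g a) * u g a + u g a * star (u g a) = 1
  u_comm : ∀ g h a b, a ≠ b → Commute (u g a) (u h b) ∧ Commute (u g a) (star (u h b))
  W_u : ∀ w ∈ W, ∀ g a, Commute (u g a) w ∧ Commute (star (u g a)) w
  p_nonneg : ∀ x, 0 ≤ p x
  p_sum : ∑ x, p x = 1
  p_comm : ∀ x y, Commute (p x) (p y)
  p_u : ∀ x g a, Commute (p x) (u g a)
  p_mul : ∀ x y, x ≠ y → ‖τ.f (p x * p y)‖ ≤ e
  p_indep : ∀ a : C, (∀ w ∈ W, Commute a w) → ∀ x,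
    ‖τ.f (a * p x) - τ.f a / (R * S * M : ℕ)‖ ≤ e * ‖a‖

/-- The tolerance requested of the windows. -/
noncomputable def tol (R S M : ℕ) : ℝ := ((((R * S * M : ℕ) : ℝ) + 1) ^ 3 * (M + 1))⁻¹ ^ 2

/-- The accumulated error of the windows. -/
noncomputable def err (R S M : ℕ) (e : ℝ) : ℝ := 32 * ((R * S * M : ℕ) : ℝ) ^ 3 * Real.sqrt e

/-- Squared differences of two symmetries, averaged over the slots. -/
noncomputable def sqAvg (B B' : Fin M → C) : C :=
  ((M : ℂ))⁻¹ • ∑ a, (B a - B' a) * (B a - B' a)

end Vale.Agent.P095.Mix
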