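import Vale.Agent.P095.Mix.Defs
import Vale.Agent.P095.Mix.Tools

/-!
P095: estimates for slots and windows up to the tolerance `e`.
-/

namespace Vale.Agent.P095.Mix

open Gamma

variable {C : Type*} [CStarAlgebra C] [PartialOrder C] [StarOrderedRing C] {τ : TraceState C}
  {Γ : Type*} {R S M : ℕ} {e : ℝ}

omit [PartialOrder C] [StarOrderedRing C] in
theorem sym_props {u : C} (h0 : u * u = 0) (h1 : star u * u + u * star u = 1) (s : Bool) :
    star (sym s u) = sym s u ∧ sym s u * sym s u = 1 := by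
  have h0' : star u * star u = 0 := by rw [← star_mul, h0, star_zero]
  cases s
  · constructor
    · simp [sym, add_comm]
    · simp [sym, add_mul, mul_add, h0, h0', h1]
  · constructor
    · simp [sym, ← smul_neg]
    · simp [sym, smul_sub, sub_mul, mul_sub, smul_smul, h0, h0', ← h1]
      abel

theorem trace_zero_of_commute {u x : C} (h0 : u * u = 0) (h1 : star u * u + u * star u = 1)
    (h : Commute x u) : τ.f (x * u) = 0 := by
  have e : x * u = x * u * star u * u := by
    calc x * u = x * u * (star u * u + u * star u) := by rw [h1, mul_one]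
      _ = x * u * star u * u + x * (u * u) * star u := by noncomm_ring
      _ = _ := by rw [h0, mul_zero, zero_mul, add_zero]
  rw [e, τ.trace, show u * (x * u * star u) = u * x * u * star u by noncomm_ring, ← h.eq,
    show x * u * u * star u = x * (u * u) * star u by noncomm_ring, h0, mul_zero, zero_mul,
    map_zero]

/-- A symmetry of slot `a`. -/
def MixData.B (D : MixData τ Γ R S M e) (g : Γ × Bool) (a : Fin M) : C := sym g.2 (D.u g.1 a)

/-- The slot system of the symmetries. -/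
noncomputable def MixData.slots (D : MixData τ Γ R S M e) : SlotSystem τ (Γ × Bool) (Fin M) where
  B := D.B
  U a := {y | ∀ x, (∀ g, Commute x (D.u g a) ∧ Commute x (star (D.u g a))) → Commute x y}
  star_mem a y hy x hx := by
    have h := hy (star x) fun g => ⟨by simpa using (hx g).2.star_star,
      by simpa using (hx g).1.star_star⟩
    simpa using h.star_star
  B_mem g a x hx := by
    rcases g with ⟨g, _ | _⟩
    · exact (hx g).1.add_right (hx g).2
    · exact ((hx g).2.sub_right (hx g).1).smul_right _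
  B_sa g a := (sym_props (D.u_sq g.1 a) (D.u_one g.1 a) g.2).1
  B_sq g a := (sym_props (D.u_sq g.1 a) (D.u_one g.1 a) g.2).2
  comm i j hij x hx y hy := by
    have hi : ∀ g, Commute (D.u g i) y ∧ Commute (star (D.u g i)) y := fun g =>
      ⟨hy _ fun h => D.u_comm g h i j hij,
        hy _ fun h => ⟨((D.u_comm h g j i (Ne.symm hij)).2).symm,
          (D.u_comm g h i j hij).1.star_star⟩⟩
    exact (hx y fun g => ⟨(hi g).1.symm, (hi g).2.symm⟩).symm
  par g a x hx := by
    have h1 : Commute x (D.u g.1 a) := hx _ fun _ h => (h g.1).1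
    have h2 : Commute x (star (D.u g.1 a)) := hx _ fun _ h => (h g.1).2
    have e1 := trace_zero_of_commute (τ := τ) (D.u_sq g.1 a) (D.u_one g.1 a) h1
    have e2 := trace_zero_of_commute (τ := τ) (u := star (D.u g.1 a))
      (by rw [← star_mul, D.u_sq, star_zero])
      (by rw [star_star, add_comm]; exact D.u_one g.1 a) h2
    rcases g with ⟨g, _ | _⟩
    · show τ.f (x * (D.u g a + star (D.u g a))) = 0
      rw [mul_add, map_add, e1, e2, add_zero]
    · show τ.f (x * (Complex.I • (star (D.u g a) - D.u g a))) = 0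
      rw [mul_smul_comm, map_smul, mul_sub, map_sub, e1, e2, sub_zero, smul_zero]

variable (D : MixData τ Γ R S M e)

theorem MixData.unit_mem (g : Γ) (a : Fin M) : D.u g a ∈ D.slots.U a := fun _ hx => (hx g).1

theorem MixData.fld_eq (g : Γ) (s : Bool) :
    fld s (D.u g) = avgFld (D.slots.B (g, s)) := rfl

theorem MixData.commute_fld_W {w : C} (hw : w ∈ D.W) (g : Γ) (s : Bool) :
    Commute (fld s (D.u g)) w := by
  have h := D.W_u w hw g
  refine (Commute.sum_left _ _ _ fun a _ => ?_).smul_left _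
  cases s
  · exact (h a).1.add_left (h a).2
  · exact ((h a).2.sub_left (h a).1).smul_left _

theorem MixData.p_star (x : Fin R × Fin S × Fin M) : star (D.p x) = D.p x :=
  (IsSelfAdjoint.of_nonneg (D.p_nonneg x)).star_eq

theorem MixData.p_ustar (x : Fin R × Fin S × Fin M) (g : Γ) (a : Fin M) :
    Commute (D.p x) (star (D.u g a)) := by
  simpa [D.p_star x] using (D.p_u x g a).star_star

theorem MixData.norm_u_le (g : Γ) (a : Fin M) : ‖D.u g a‖ ≤ 1 := by
  have h : star (D.u g a) * D.u g a ≤ 1 := by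
    calc _ ≤ star (D.u g a) * D.u g a + D.u g a * star (D.u g a) :=
          le_add_of_nonneg_right (mul_star_self_nonneg _)
      _ = 1 := D.u_one g a
  have h' := norm_le_one_of_mem_Icc (star_mul_self_nonneg _) h
  rw [CStarRing.norm_star_mul_self] at h'
  nlinarith [norm_nonneg (D.u g a)]

theorem MixData.norm_B_le (g : Γ × Bool) (a : Fin M) : ‖D.slots.B g a‖ ≤ 1 := by
  have h := congrArg norm (show star (D.slots.B g a) * D.slots.B g a = 1 by
    rw [D.slots.B_sa, D.slots.B_sq])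
  rw [CStarRing.norm_star_mul_self] at h
  rcases subsingleton_or_nontrivial C with h0 | h0
  · simp [Subsingleton.elim (D.slots.B g a) 0]
  · rw [norm_one] at h
    nlinarith [norm_nonneg (D.slots.B g a)]

/-- A family mixed along the windows. -/
noncomputable def MixData.mix (c : Fin R × Fin S × Fin M → C) : C := ∑ x, D.p x * c x

/-- An indicator. -/
def ind (P : Prop) [Decidable P] : C := if P then 1 else 0

omit [PartialOrder C] [StarOrderedRing C] in
theorem ind_props (P : Prop) [Decidable P] :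
    (∀ z : C, Commute z (ind P)) ∧ ‖(ind P : C)‖ ≤ 1 := by
  unfold ind
  split
  · refine ⟨Commute.one_right, ?_⟩
    rcases subsingleton_or_nontrivial C with h0 | h0
    · simp [Subsingleton.elim (1 : C) 0]
    · rw [norm_one]
  · exact ⟨Commute.zero_right, by simp⟩

theorem MixData.qo_eq (o : Fin R) : qo D.p o = D.mix fun x => ind (x.1 = o) := by
  rw [MixData.mix, Fintype.sum_prod_type, Finset.sum_eq_single o (fun o' _ h => by simp [ind, h])
    (by simp)]
  simp [ind, qo]

theorem MixData.ps_eq (s : Fin S) : ps D.p s = D.mix fun x => ind (x.2.1 = s) := by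
  simp only [MixData.mix, ps, Fintype.sum_prod_type]
  refine Finset.sum_congr rfl fun o _ => ?_
  rw [Finset.sum_eq_single (s : Fin S) (fun s' _ h => by simp [ind, h]) (by simp)]
  simp [ind]

theorem MixData.unit_eq (g : Γ) : unit D.p (D.u g) = D.mix fun x => D.u g x.2.2 := rfl

theorem MixData.star_mix {c : Fin R × Fin S × Fin M → C} (hc : ∀ x y, Commute (D.p x) (star (c y))) :
    star (D.mix c) = D.mix fun x => star (c x) := by
  simp only [MixData.mix, star_sum, star_mul, D.p_star]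
  exact Finset.sum_congr rfl fun x _ => (hc x x).eq.symm

theorem MixData.mix_sub (c d : Fin R × Fin S × Fin M → C) :
    D.mix c - D.mix d = D.mix fun x => c x - d x := by
  simp only [MixData.mix, mul_sub, Finset.sum_sub_distrib]

theorem MixData.sym_unit (g : Γ) (s : Bool) :
    sym s (unit D.p (D.u g)) = D.mix fun x => D.slots.B (g, s) x.2.2 := by
  rw [D.unit_eq]
  cases s <;>
  · simp only [sym, Bool.false_eq_true, if_false, if_true,
      D.star_mix (fun x y => D.p_ustar x g y.2.2)]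
    simp only [MixData.mix, MixData.slots, MixData.B, sym, Bool.false_eq_true, if_false, if_true,
      mul_add, mul_sub, mul_smul_comm, Finset.sum_add_distrib, Finset.sum_sub_distrib,
      Finset.smul_sum, smul_sub]

theorem MixData.commute_fld_p (x : Fin R × Fin S × Fin M) (g : Γ) (s : Bool) :
    Commute (fld s (D.u g)) (D.p x) := by
  refine (Commute.sum_left _ _ _ fun a _ => ?_).smul_left _
  have h1 := (D.p_u x g a).symm
  have h2 := (D.p_ustar x g a).symm
  cases s
  · exact h1.add_left h2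
  · exact (h2.sub_left h1).smul_left _

theorem MixData.qo_props :
    (∀ o, 0 ≤ qo D.p o ∧ qo D.p o ≤ 1) ∧ ∑ o, qo D.p o = 1 ∧
    (∀ s, 0 ≤ ps D.p s ∧ ps D.p s ≤ 1) ∧ ∑ s, ps D.p s = 1 ∧
    (∀ o o', Commute (qo D.p o) (qo D.p o')) ∧ (∀ o s, Commute (qo D.p o) (ps D.p s)) ∧
    (∀ s s', Commute (ps D.p s) (ps D.p s')) := by
  have hpos : ∀ {ι : Type} [Fintype ι] (f : ι → Fin R × Fin S × Fin M), 0 ≤ ∑ i, D.p (f i) :=
    fun {ι} _ f => Finset.sum_nonneg fun i _ => D.p_nonneg _
  have hq : ∑ o, qo D.p o = 1 := by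
    rw [← D.p_sum]; exact (Fintype.sum_prod_type _).symm
  have hs : ∑ s, ps D.p s = 1 := by
    rw [← D.p_sum]
    simp only [ps, Fintype.sum_prod_type]
    exact Finset.sum_comm
  have hc : ∀ {ι κ : Type} [Fintype ι] [Fintype κ] (f : ι → Fin R × Fin S × Fin M)
      (g : κ → Fin R × Fin S × Fin M), Commute (∑ i, D.p (f i)) (∑ j, D.p (g j)) :=
    fun {ι κ} _ _ f g => Commute.sum_left _ _ _ fun i _ =>
      Commute.sum_right _ _ _ fun j _ => D.p_comm _ _
  have hq0 : ∀ o, 0 ≤ qo D.p o := fun o => hpos _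
  have hs0 : ∀ s, 0 ≤ ps D.p s := fun s => hpos _
  exact ⟨fun o => ⟨hq0 o, hq ▸ Finset.single_le_sum (fun i _ => hq0 i) (Finset.mem_univ o)⟩, hq,
    fun s => ⟨hs0 s, hs ▸ Finset.single_le_sum (fun i _ => hs0 i) (Finset.mem_univ s)⟩, hs,
    fun o o' => hc _ _, fun o s => hc _ _, fun s s' => hc _ _⟩

theorem MixData.norm_unit_le (g : Γ) : ‖unit D.p (D.u g)‖ ≤ 1 := by
  exact norm_sum_mul_le D.p_nonneg D.p_sum D.p_comm (fun x y => D.p_u x g y.2.2)
    (fun x y => D.p_ustar x g y.2.2) zero_le_one fun x => D.norm_u_le g _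

theorem MixData.commute_unit (g : Γ) :
    (∀ o, Commute (qo D.p o) (unit D.p (D.u g))) ∧ ∀ s, Commute (ps D.p s) (unit D.p (D.u g)) := by
  have h : ∀ x, Commute (D.p x) (unit D.p (D.u g)) := fun x =>
    Commute.sum_right _ _ _ fun y _ => (D.p_comm x y).mul_right (D.p_u x g _)
  exact ⟨fun o => Commute.sum_left _ _ _ fun x _ => h _,
    fun s => Commute.sum_left _ _ _ fun x _ => h _⟩

/-- If `y` nearly commutes with every slot entry and exactly with the windows, it nearly commutes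
with the random matrix unit. -/
theorem MixData.norm_unit_comm_le {y : C} {η : ℝ} (hη : 0 ≤ η) (hp : ∀ x, Commute y (D.p x))
    (g : Γ) (h : ∀ a, ‖y * D.u g a - D.u g a * y‖ ≤ η) :
    ‖y * unit D.p (D.u g) - unit D.p (D.u g) * y‖ ≤ η := by
  have e : y * unit D.p (D.u g) - unit D.p (D.u g) * y =
      ∑ x, D.p x * (y * D.u g x.2.2 - D.u g x.2.2 * y) := by
    rw [unit, Finset.mul_sum, Finset.sum_mul, ← Finset.sum_sub_distrib]
    refine Finset.sum_congr rfl fun x _ => ?_
    rw [← mul_assoc, (hp x).eq, mul_sub]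
    simp only [mul_assoc]
  have hc : ∀ x z : Fin R × Fin S × Fin M,
      Commute (D.p x) (y * D.u g z.2.2 - D.u g z.2.2 * y) := fun x z =>
    ((hp x).symm.mul_right (D.p_u x g _)).sub_right ((D.p_u x g _).mul_right (hp x).symm)
  rw [e]
  exact norm_sum_mul_le D.p_nonneg D.p_sum D.p_comm hc
    (fun x z => by simpa [D.p_star x] using (hc x z).star_star) hη fun x => h _

section quantitative

variable (he : 0 ≤ e) (he1 : e ≤ 1) (hk : 0 < R * S * M)

include he he1 hk

theorem MixData.n2_p_mul {x y : Fin R × Fin S × Fin M} (h : x ≠ y) :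
    τ.n2 (D.p x * D.p y) ≤ Real.sqrt e := by
  have h1 : ∀ x, D.p x ≤ 1 := fun x =>
    D.p_sum ▸ Finset.single_le_sum (fun i _ => D.p_nonneg i) (Finset.mem_univ x)
  have hP := mul_mem_Icc (D.p_nonneg x) (h1 x) (D.p_nonneg y) (h1 y) (D.p_comm x y)
  refine Real.sqrt_le_sqrt ?_
  exact (hsq_le_re_of_mem_Icc τ hP.1 hP.2.2).trans ((Complex.re_le_norm _).trans (D.p_mul x y h))

/-- Mixing is multiplicative up to the tolerance. -/
theorem MixData.n2_mix_mul {c d : Fin R × Fin S × Fin M → C} (hc : ∀ x y, Commute (c x) (D.p y))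
    {α β : ℝ} (hα : ∀ x, ‖c x‖ ≤ α) (hβ : ∀ x, ‖d x‖ ≤ β) :
    τ.n2 (D.mix c * D.mix d - D.mix fun x => c x * d x) ≤
      2 * α * β * ((R * S * M : ℕ) : ℝ) ^ 2 * Real.sqrt e := by
  have e1 : D.mix c * D.mix d - (D.mix fun x => c x * d x) =
      ∑ x, ∑ y, D.p x * D.p y * (c x * d y - c x * d x) := by
    simp only [mul_sub, Finset.sum_sub_distrib]
    congr 1
    · rw [MixData.mix, MixData.mix, Finset.sum_mul_sum]
      refine Finset.sum_congr rfl fun x _ => Finset.sum_congr rfl fun y _ => ?_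
      calc D.p x * c x * (D.p y * d y) = D.p x * (c x * D.p y) * d y := by noncomm_ring
        _ = _ := by rw [(hc x y).eq]; noncomm_ring
    · refine Finset.sum_congr rfl fun x _ => ?_
      rw [← Finset.sum_mul, ← Finset.mul_sum, D.p_sum, mul_one]
  rw [e1]
  refine (τ.n2_sum_le _ _).trans ((Finset.sum_le_sum fun x _ => (τ.n2_sum_le _ _).trans
    (Finset.sum_le_sum (g := fun _ => 2 * α * β * Real.sqrt e) fun y _ => ?_)).trans (le_of_eq ?_))
  · have hα0 : 0 ≤ α := (norm_nonneg _).trans (hα x)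
    have hβ0 : 0 ≤ β := (norm_nonneg _).trans (hβ x)
    rcases eq_or_ne x y with rfl | hxy
    · rw [sub_self, mul_zero, τ.n2_zero]; positivity
    refine (n2_mul_le' τ _ _).trans ((mul_le_mul (D.n2_p_mul he he1 hk hxy) ?_ (norm_nonneg _)
      (Real.sqrt_nonneg _)).trans (le_of_eq (mul_comm _ _)))
    refine (norm_sub_le _ _).trans ?_
    have h2 : ∀ z, ‖c x * d z‖ ≤ α * β := fun z =>
      (norm_mul_le _ _).trans (mul_le_mul (hα x) (hβ z) (norm_nonneg _) hα0)
    linarith [h2 x, h2 y]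
  · simp only [Finset.sum_const, Finset.card_univ, Fintype.card_prod, Fintype.card_fin, nsmul_eq_mul]
    push_cast
    ring

/-- Each window carries the weight `1 / (R * S * M)`. -/
theorem MixData.trace_mix {c : Fin R × Fin S × Fin M → C} {a : C}
    (hc : ∀ x y, Commute (c x) (D.p y)) (hW : ∀ x, ∀ w ∈ D.W, Commute (a * c x) w) {α : ℝ}
    (hα : ∀ x, ‖a * c x‖ ≤ α) :
    ‖τ.f (a * D.mix c) - (∑ x, τ.f (a * c x)) / ((R * S * M : ℕ) : ℂ)‖ ≤
      α * ((R * S * M : ℕ) : ℝ) * Real.sqrt e := by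
  rw [MixData.mix, Finset.mul_sum, map_sum, Finset.sum_div, ← Finset.sum_sub_distrib]
  refine (norm_sum_le _ _).trans
    ((Finset.sum_le_sum (g := fun _ => α * Real.sqrt e) fun x _ => ?_).trans (le_of_eq ?_))
  · rw [← mul_assoc, mul_assoc a, ← (hc x x).eq, ← mul_assoc]
    refine (D.p_indep _ (hW x) x).trans ?_
    rw [mul_comm α]
    exact mul_le_mul (Real.le_sqrt_of_sq_le (by nlinarith)) (hα x) (norm_nonneg _)
      (Real.sqrt_nonneg _)
  · simp only [Finset.sum_const, Finset.card_univ, Fintype.card_prod, Fintype.card_fin, nsmul_eq_mul]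
    push_cast
    ring

omit [StarOrderedRing C] [PartialOrder C] he he1 in
theorem le_err {a : ℝ} (ha : a ≤ 32) :
    a * ((R * S * M : ℕ) : ℝ) ^ 2 * Real.sqrt e ≤ err R S M e := by
  have hk' : (1 : ℝ) ≤ ((R * S * M : ℕ) : ℝ) := by exact_mod_cast hk
  unfold err
  exact mul_le_mul_of_nonneg_right
    (mul_le_mul ha (pow_le_pow_right₀ hk' (by norm_num)) (sq_nonneg _) (by norm_num))
    (Real.sqrt_nonneg _)

omit [StarOrderedRing C] [PartialOrder C] he he1 in
theorem lin_le_err {a : ℝ} (ha0 : 0 ≤ a) :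
    a * ((R * S * M : ℕ) : ℝ) * Real.sqrt e ≤
      a * ((R * S * M : ℕ) : ℝ) ^ 2 * Real.sqrt e := by
  have hk' : (1 : ℝ) ≤ ((R * S * M : ℕ) : ℝ) := by exact_mod_cast hk
  exact mul_le_mul_of_nonneg_right
    (mul_le_mul_of_nonneg_left (le_self_pow₀ hk' two_ne_zero) ha0) (Real.sqrt_nonneg _)

theorem MixData.n2_qo_mul {o o' : Fin R} (h : o ≠ o') :
    τ.n2 (qo D.p o * qo D.p o') ≤ err R S M e := by
  have h := D.n2_mix_mul he he1 hk (c := fun x => ind (x.1 = o)) (d := fun x => ind (x.1 = o'))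
    (fun x y => ((ind_props _).1 _).symm) (fun x => (ind_props _).2) (fun x => (ind_props _).2)
  have e1 : ∀ x : Fin R × Fin S × Fin M,
      (ind (x.1 = o) * ind (x.1 = o') : C) = 0 := fun x => by
    simp only [ind]; split_ifs <;> simp_all
  simp only [e1, ← D.qo_eq] at h
  rw [show (D.mix fun _ => (0 : C)) = 0 by simp [MixData.mix], sub_zero] at h
  exact h.trans (le_err hk (by norm_num))

theorem MixData.n2_qo_sq (o : Fin R) : τ.n2 (qo D.p o * qo D.p o - qo D.p o) ≤ err R S M e := by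
  have h := D.n2_mix_mul he he1 hk (c := fun x => ind (x.1 = o)) (d := fun x => ind (x.1 = o))
    (fun x y => ((ind_props _).1 _).symm) (fun x => (ind_props _).2) (fun x => (ind_props _).2)
  have e1 : ∀ x : Fin R × Fin S × Fin M,
      (ind (x.1 = o) * ind (x.1 = o) : C) = ind (x.1 = o) := fun x => by
    simp only [ind]; split_ifs <;> simp_all
  simp only [e1, ← D.qo_eq] at h
  exact h.trans (le_err hk (by norm_num))

theorem MixData.n2_ps_mul {s s' : Fin S} (h : s ≠ s') :
    τ.n2 (ps D.p s * ps D.p s') ≤ err R S M e := by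
  have h := D.n2_mix_mul he he1 hk (c := fun x => ind (x.2.1 = s)) (d := fun x => ind (x.2.1 = s'))
    (fun x y => ((ind_props _).1 _).symm) (fun x => (ind_props _).2) (fun x => (ind_props _).2)
  have e1 : ∀ x : Fin R × Fin S × Fin M,
      (ind (x.2.1 = s) * ind (x.2.1 = s') : C) = 0 := fun x => by
    simp only [ind]; split_ifs <;> simp_all
  simp only [e1, ← D.ps_eq] at h
  rw [show (D.mix fun _ => (0 : C)) = 0 by simp [MixData.mix], sub_zero] at h
  exact h.trans (le_err hk (by norm_num))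

theorem MixData.n2_ps_sq (s : Fin S) : τ.n2 (ps D.p s * ps D.p s - ps D.p s) ≤ err R S M e := by
  have h := D.n2_mix_mul he he1 hk (c := fun x => ind (x.2.1 = s)) (d := fun x => ind (x.2.1 = s))
    (fun x y => ((ind_props _).1 _).symm) (fun x => (ind_props _).2) (fun x => (ind_props _).2)
  have e1 : ∀ x : Fin R × Fin S × Fin M,
      (ind (x.2.1 = s) * ind (x.2.1 = s) : C) = ind (x.2.1 = s) := fun x => by
    simp only [ind]; split_ifs <;> simp_all
  simp only [e1, ← D.ps_eq] at h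
  exact h.trans (le_err hk (by norm_num))

theorem MixData.n2_unit_sq (g : Γ) :
    τ.n2 (unit D.p (D.u g) * unit D.p (D.u g)) ≤ err R S M e := by
  have h := D.n2_mix_mul he he1 hk (c := fun x => D.u g x.2.2) (d := fun x => D.u g x.2.2)
    (fun x y => (D.p_u y g _).symm) (fun x => D.norm_u_le g _) (fun x => D.norm_u_le g _)
  simp only [D.u_sq, ← D.unit_eq] at h
  rw [show (D.mix fun _ => (0 : C)) = 0 by simp [MixData.mix], sub_zero] at h
  exact h.trans (le_err hk (by norm_num))

theorem MixData.n2_unit_defect (g : Γ) :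
    τ.n2 (star (unit D.p (D.u g)) * unit D.p (D.u g) +
      unit D.p (D.u g) * star (unit D.p (D.u g)) - 1) ≤ err R S M e := by
  have hn : ∀ x : Fin R × Fin S × Fin M, ‖star (D.u g x.2.2)‖ ≤ 1 := fun x => by
    rw [norm_star]; exact D.norm_u_le g _
  have h1 := D.n2_mix_mul he he1 hk (c := fun x => star (D.u g x.2.2))
    (d := fun x => D.u g x.2.2)
    (fun x y => (D.p_ustar y g _).symm) hn (fun x => D.norm_u_le g _)
  have h2 := D.n2_mix_mul he he1 hk (c := fun x => D.u g x.2.2)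
    (d := fun x => star (D.u g x.2.2))
    (fun x y => (D.p_u y g _).symm) (fun x => D.norm_u_le g _) hn
  have h3 : (1 : C) = (D.mix fun x => star (D.u g x.2.2) * D.u g x.2.2) +
      D.mix fun x => D.u g x.2.2 * star (D.u g x.2.2) := by
    simp only [MixData.mix, ← Finset.sum_add_distrib, ← mul_add, D.u_one, mul_one, D.p_sum]
  rw [← D.star_mix (fun x y => D.p_ustar x g y.2.2), ← D.unit_eq] at h1 h2
  rw [h3, add_sub_add_comm]
  refine (τ.n2_add_le _ _).trans ((add_le_add h1 h2).trans ?_)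
  rw [← add_mul, ← add_mul]
  exact le_err hk (by norm_num)

theorem MixData.trace_qo {a : C} (hW : ∀ w ∈ D.W, Commute a w) (ha : ‖a‖ ≤ 1) (o : Fin R) :
    ‖τ.f (a * qo D.p o) - τ.f a / (R : ℂ)‖ ≤ err R S M e := by
  have h := D.trace_mix he he1 hk (a := a) (c := fun x => ind (x.1 = o))
    (fun x y => ((ind_props _).1 _).symm)
    (fun x w hw => (hW w hw).mul_left ((ind_props _).1 w).symm)
    (α := 1) (fun x => (norm_mul_le _ _).trans
      (mul_le_one₀ ha (norm_nonneg _) (ind_props _).2))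
  rw [← D.qo_eq, Fintype.sum_prod_type,
    Finset.sum_eq_single o (fun o' _ hne => by simp [ind, hne]) (by simp)] at h
  simp only [ind, if_pos, mul_one, Finset.sum_const, Finset.card_univ, Fintype.card_prod,
    Fintype.card_fin, nsmul_eq_mul] at h
  have hk' : (R : ℂ) ≠ 0 ∧ (S : ℂ) ≠ 0 ∧ (M : ℂ) ≠ 0 := by
    simp only [Nat.cast_ne_zero]
    refine ⟨?_, ?_, ?_⟩ <;> rintro rfl <;> simp at hk
  have e1 : ((S * M : ℕ) : ℂ) * τ.f a / ((R * S * M : ℕ) : ℂ) = τ.f a / (R : ℂ) := by
    push_cast; field_simp [hk'.1, hk'.2.1, hk'.2.2]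
  rw [e1] at h
  exact h.trans ((lin_le_err hk zero_le_one).trans
    (le_err hk (by norm_num)))

theorem MixData.trace_qo_ps {a : C} (hW : ∀ w ∈ D.W, Commute a w) (ha : ‖a‖ ≤ 1) (o : Fin R)
    (s : Fin S) :
    ‖τ.f (a * (qo D.p o * ps D.p s)) - τ.f a / ((R : ℂ) * (S : ℂ))‖ ≤ err R S M e := by
  have hk' : (R : ℂ) ≠ 0 ∧ (S : ℂ) ≠ 0 ∧ (M : ℂ) ≠ 0 := by
    simp only [Nat.cast_ne_zero]
    refine ⟨?_, ?_, ?_⟩ <;> rintro rfl <;> simp at hk
  set c : Fin R × Fin S × Fin M → C := fun x => ind (x.1 = o) * ind (x.2.1 = s) with hc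
  have hcc : ∀ (z : C) x, Commute z (c x) := fun z x =>
    ((ind_props _).1 z).mul_right ((ind_props _).1 z)
  have hcn : ∀ x, ‖c x‖ ≤ 1 := fun x =>
    (norm_mul_le _ _).trans (mul_le_one₀ (ind_props _).2 (norm_nonneg _) (ind_props _).2)
  have h1 := D.n2_mix_mul he he1 hk (c := fun x => ind (x.1 = o)) (d := fun x => ind (x.2.1 = s))
    (fun x y => ((ind_props _).1 _).symm) (fun x => (ind_props _).2) (fun x => (ind_props _).2)
  rw [← D.qo_eq, ← D.ps_eq] at h1
  have h2 := D.trace_mix he he1 hk (a := a) (c := c) (fun x y => (hcc _ x).symm)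
    (fun x w hw => (hW w hw).mul_left (hcc w x).symm)
    (α := 1) (fun x => (norm_mul_le _ _).trans (mul_le_one₀ ha (norm_nonneg _) (hcn x)))
  have e1 : (∑ x, τ.f (a * c x)) / ((R * S * M : ℕ) : ℂ) = τ.f a / ((R : ℂ) * (S : ℂ)) := by
    rw [Fintype.sum_prod_type, Finset.sum_eq_single o (fun o' _ hne => by simp [hc, ind, hne])
      (by simp), Fintype.sum_prod_type,
      Finset.sum_eq_single s (fun s' _ hne => by simp [hc, ind, hne]) (by simp)]
    simp [hc, ind]
    field_simp [hk'.1, hk'.2.1, hk'.2.2]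
  rw [e1] at h2
  have h3 : ‖τ.f (a * (qo D.p o * ps D.p s - D.mix c))‖ ≤
      τ.n2 (qo D.p o * ps D.p s - D.mix c) :=
    (norm_trace_le_n2 τ _).trans ((n2_mul_le τ _ _).trans
      (mul_le_of_le_one_left (n2_nonneg τ _) ha))
  have e2 : τ.f (a * (qo D.p o * ps D.p s)) - τ.f a / ((R : ℂ) * (S : ℂ)) =
      τ.f (a * (qo D.p o * ps D.p s - D.mix c)) +
        (τ.f (a * D.mix c) - τ.f a / ((R : ℂ) * (S : ℂ))) := by
    rw [mul_sub, map_sub]; ring
  rw [e2]
  refine (norm_add_le _ _).trans ((add_le_add (h3.trans h1)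
    (h2.trans (lin_le_err hk zero_le_one))).trans ?_)
  rw [← add_mul, ← add_mul]
  exact le_err hk (by norm_num)

theorem MixData.trace_qo_diff {a : C} (hW : ∀ w ∈ D.W, Commute a w) (ha : ‖a‖ ≤ 1) (o : Fin R)
    (g h : Γ) (s : Bool) :
    ‖τ.f (a * (qo D.p o * ((sym s (unit D.p (D.u g)) - sym s (unit D.p (D.u h))) *
        (sym s (unit D.p (D.u g)) - sym s (unit D.p (D.u h)))))) -
      τ.f (a * sqAvg (D.slots.B (g, s)) (D.slots.B (h, s))) / (R : ℂ)‖ ≤ err R S M e := by
  have hk' : (R : ℂ) ≠ 0 ∧ (S : ℂ) ≠ 0 ∧ (M : ℂ) ≠ 0 := by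
    simp only [Nat.cast_ne_zero]
    refine ⟨?_, ?_, ?_⟩ <;> rintro rfl <;> simp at hk
  set b : Fin R × Fin S × Fin M → C :=
    fun x => D.slots.B (g, s) x.2.2 - D.slots.B (h, s) x.2.2 with hb
  have hp : ∀ k (x y : Fin R × Fin S × Fin M), Commute (D.slots.B (k, s) x.2.2) (D.p y) := by
    intro k x y
    cases s
    · exact (D.p_u y k _).symm.add_left (D.p_ustar y k _).symm
    · exact ((D.p_ustar y k _).symm.sub_left (D.p_u y k _).symm).smul_left _
  have hbp : ∀ x y, Commute (b x) (D.p y) := fun x y => (hp g x y).sub_left (hp h x y)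
  have hbn : ∀ x, ‖b x‖ ≤ 2 := fun x => (norm_sub_le _ _).trans (by
    linarith [D.norm_B_le (g, s) x.2.2, D.norm_B_le (h, s) x.2.2])
  have hbb : ∀ x, ‖b x * b x‖ ≤ 4 := fun x => (norm_mul_le _ _).trans (by
    nlinarith [hbn x, norm_nonneg (b x)])
  set c : Fin R × Fin S × Fin M → C := fun x => ind (x.1 = o) * (b x * b x) with hc
  have hcp : ∀ x y, Commute (c x) (D.p y) := fun x y =>
    ((ind_props _).1 _).symm.mul_left ((hbp x y).mul_left (hbp x y))
  have hcn : ∀ x, ‖c x‖ ≤ 4 := fun x => (norm_mul_le _ _).trans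
    ((mul_le_mul (ind_props _).2 (hbb x) (norm_nonneg _) zero_le_one).trans (one_mul _).le)
  have h1 := D.n2_mix_mul he he1 hk (c := b) (d := b) hbp hbn hbn
  have h2 := D.n2_mix_mul he he1 hk (c := fun x => ind (x.1 = o)) (d := fun x => b x * b x)
    (fun x y => ((ind_props _).1 _).symm) (fun x => (ind_props _).2) hbb
  rw [← D.qo_eq] at h2
  have hq : ‖qo D.p o‖ ≤ 1 :=
    norm_le_one_of_mem_Icc (D.qo_props.1 o).1 (D.qo_props.1 o).2
  have hW' : ∀ x, ∀ w ∈ D.W, Commute (a * c x) w := fun x w hw => by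
    refine (hW w hw).mul_left (((ind_props _).1 w).symm.mul_left ?_)
    have h0 : Commute (b x) w := by
      have hg := D.W_u w hw g x.2.2
      have hh := D.W_u w hw h x.2.2
      rcases s with _ | _
      · exact (hg.1.add_left hg.2).sub_left (hh.1.add_left hh.2)
      · exact ((hg.2.sub_left hg.1).smul_left _).sub_left ((hh.2.sub_left hh.1).smul_left _)
    exact h0.mul_left h0
  have h3 := D.trace_mix he he1 hk (a := a) (c := c) hcp hW'
    (α := 4) (fun x => (norm_mul_le _ _).trans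
      ((mul_le_mul ha (hcn x) (norm_nonneg _) zero_le_one).trans (one_mul _).le))
  have e1 : (∑ x, τ.f (a * c x)) / ((R * S * M : ℕ) : ℂ) =
      τ.f (a * sqAvg (D.slots.B (g, s)) (D.slots.B (h, s))) / (R : ℂ) := by
    rw [Fintype.sum_prod_type, Finset.sum_eq_single o (fun o' _ hne => by simp [hc, ind, hne])
      (by simp), Fintype.sum_prod_type]
    simp only [hc, hb, ind, if_pos, one_mul, Finset.sum_const, Finset.card_univ, Fintype.card_fin,
      nsmul_eq_mul, sqAvg, mul_smul_comm, map_smul, smul_eq_mul, Finset.mul_sum, map_sum]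
    push_cast
    rw [← Finset.mul_sum, ← Finset.mul_sum]
    field_simp [hk'.1, hk'.2.1, hk'.2.2]
  rw [e1] at h3
  rw [D.sym_unit, D.sym_unit, D.mix_sub]
  set Z := qo D.p o * (D.mix b * D.mix b)
  have h4 : τ.n2 (Z - D.mix c) ≤ 16 * ((R * S * M : ℕ) : ℝ) ^ 2 * Real.sqrt e := by
    have e2 : Z - D.mix c = qo D.p o * (D.mix b * D.mix b - D.mix fun x => b x * b x) +
        (qo D.p o * (D.mix fun x => b x * b x) - D.mix c) := by
      show qo D.p o * (D.mix b * D.mix b) - D.mix c = _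
      noncomm_ring
    rw [e2]
    refine (τ.n2_add_le _ _).trans ((add_le_add ((n2_mul_le τ _ _).trans
      (mul_le_of_le_one_left (n2_nonneg τ _) hq)) le_rfl).trans ?_)
    linarith
  have h5 : ‖τ.f (a * (Z - D.mix c))‖ ≤ τ.n2 (Z - D.mix c) :=
    (norm_trace_le_n2 τ _).trans ((n2_mul_le τ _ _).trans
      (mul_le_of_le_one_left (n2_nonneg τ _) ha))
  have e3 : τ.f (a * Z) - τ.f (a * sqAvg (D.slots.B (g, s)) (D.slots.B (h, s))) / (R : ℂ) =
      τ.f (a * (Z - D.mix c)) + (τ.f (a * D.mix c) -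
        τ.f (a * sqAvg (D.slots.B (g, s)) (D.slots.B (h, s))) / (R : ℂ)) := by
    rw [mul_sub, map_sub]; ring
  rw [e3]
  refine (norm_add_le _ _).trans ((add_le_add (h5.trans h4)
    (h3.trans (lin_le_err hk (by norm_num)))).trans ?_)
  rw [← add_mul, ← add_mul]
  exact le_err hk (by norm_num)

theorem MixData.n2_change (D' : MixData τ Γ R S M e) (hu : D'.u = D.u)
    (hp : ∀ x, τ.hsq (D.p x - D'.p x) ≤ e) (g : Γ) :
    τ.n2 (unit D.p (D.u g) - unit D'.p (D'.u g)) ≤ err R S M e ∧
      (∀ o, τ.n2 (qo D.p o - qo D'.p o) ≤ err R S M e) ∧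
      ∀ s, τ.n2 (ps D.p s - ps D'.p s) ≤ err R S M e := by
  have hd : ∀ x, τ.n2 (D.p x - D'.p x) ≤ Real.sqrt e := fun x => Real.sqrt_le_sqrt (hp x)
  have key : ∀ {ι : Type} [Fintype ι] (f : ι → Fin R × Fin S × Fin M) (z : ι → C),
      (∀ i, ‖z i‖ ≤ 1) → Fintype.card ι ≤ R * S * M →
      τ.n2 (∑ i, D.p (f i) * z i - ∑ i, D'.p (f i) * z i) ≤ err R S M e := by
    intro ι _ f z hz hcard
    rw [← Finset.sum_sub_distrib]
    refine (τ.n2_sum_le _ _).trans ((Finset.sum_le_sum (g := fun _ => Real.sqrt e) fun i _ => ?_).trans ?_)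
    · rw [← sub_mul]
      exact (n2_mul_le' τ _ _).trans ((mul_le_mul (hd _) (hz i) (norm_nonneg _)
        (Real.sqrt_nonneg _)).trans (mul_one _).le)
    · rw [Finset.sum_const, Finset.card_univ, nsmul_eq_mul]
      refine le_trans ?_ ((lin_le_err hk zero_le_one).trans
        (le_err hk (by norm_num)))
      rw [one_mul]
      exact mul_le_mul_of_nonneg_right (by exact_mod_cast hcard) (Real.sqrt_nonneg _)
  have hone : ‖(1 : C)‖ ≤ 1 := by
    rcases subsingleton_or_nontrivial C with h0 | h0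
    · simp [Subsingleton.elim (1 : C) 0]
    · rw [norm_one]
  obtain ⟨⟨hR, hS⟩, hM⟩ : (0 < R ∧ 0 < S) ∧ 0 < M := by
    simpa only [CanonicallyOrderedAdd.mul_pos] using hk
  refine ⟨?_, fun o => ?_, fun s => ?_⟩
  · rw [hu]
    exact key id (fun x => D.u g x.2.2) (fun x => D.norm_u_le g _)
      (by simp [mul_assoc])
  · simpa [qo] using key (fun x : Fin S × Fin M => (o, x)) (fun _ => 1) (fun _ => hone)
      (by simp [mul_assoc]; exact Nat.le_mul_of_pos_left _ hR)
  · simpa [ps] using key (fun x : Fin R × Fin M => (x.1, s, x.2)) (fun _ => 1) (fun _ => hone)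
      (by simp [mul_assoc]; exact Nat.mul_le_mul le_rfl (Nat.le_mul_of_pos_left _ hS))

end quantitative

end Vale.Agent.P095.Mix
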