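import Vale.Agent.P095.Mix.Stage

/-!
P095: traces on an invariant ideal (for a nonunital algebra: its unitisation and its Pedersen
ideal) give a family, through `z ↦ τ (c z c*)` with `c` a product of two elements of the ideal.
-/

open Filter Topology BoundedContinuousFunction
open scoped ComplexOrder

namespace Vale.Agent.P095.Mix

variable {B : Type*} [CStarAlgebra B]

/-- A positive trace on a two-sided star ideal, normalised at the pair `d`. -/
def IsIdealTrace (P : Submodule ℂ B) (d : B × B) (τ : P →ₗ[ℂ] ℂ) : Prop :=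
  (∀ (p : P) (b : B) (h : (p : B) * b ∈ P) (h' : b * (p : B) ∈ P),
      τ ⟨(p : B) * b, h⟩ = τ ⟨b * (p : B), h'⟩) ∧
  (∀ (p : P) (h : star (p : B) * p ∈ P), 0 ≤ τ ⟨star (p : B) * p, h⟩) ∧
  ∀ e ∈ ({d.1, d.2, d.1 * d.2} : Set B), ∀ h : e * star e ∈ P, (τ ⟨e * star e, h⟩).re ≤ 1

/-- Small in the 2-seminorms `x ↦ τ (c x* x c*)`, `c = d.1 * d.2`, uniformly over the normalised
traces, for every pair in `D`. -/
def SmallTr (P : Submodule ℂ B) (D : Set (B × B)) (x : ℕ → B) : Prop :=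
  ∀ d ∈ D, ∀ ε > 0, ∀ᶠ n in atTop, ∀ τ : P →ₗ[ℂ] ℂ, IsIdealTrace P d τ →
    ∀ h : d.1 * d.2 * (star (x n) * x n) * star (d.1 * d.2) ∈ P,
      (τ ⟨d.1 * d.2 * (star (x n) * x n) * star (d.1 * d.2), h⟩).re < ε

variable [PartialOrder B] [StarOrderedRing B]

section Compress

variable {P : Submodule ℂ B} (hl : ∀ b, ∀ p ∈ P, b * p ∈ P) (hr : ∀ b, ∀ p ∈ P, p * b ∈ P)

/-- The functional `z ↦ τ (e z e*)`. -/
noncomputable def compress (τ : P →ₗ[ℂ] ℂ) (e : B) (he : e ∈ P) : B →ₗ[ℂ] ℂ :=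
  τ ∘ₗ ((LinearMap.mulLeft ℂ e).comp (LinearMap.mulRight ℂ (star e))).codRestrict P
    fun _ => hr _ e he

omit [PartialOrder B] [StarOrderedRing B] in
theorem compress_apply (τ : P →ₗ[ℂ] ℂ) {e : B} (he : e ∈ P) (z : B)
    (h : e * z * star e ∈ P) : compress hr τ e he z = τ ⟨e * z * star e, h⟩ := by
  simp [compress, mul_assoc]
  rfl

variable {d : B × B} {τ : P →ₗ[ℂ] ℂ} (hs : ∀ p ∈ P, star p ∈ P) (hτ : IsIdealTrace P d τ)

include hl hs hτ in
theorem compress_nonneg {e : B} (he : e ∈ P) (z : B) :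
    0 ≤ compress hr τ e he (star z * z) := by
  have h1 : z * star e ∈ P := hl z _ (hs e he)
  rw [compress_apply hr τ he _ (hr _ _ (hr _ e he))]
  convert hτ.2.1 ⟨z * star e, h1⟩ (hl _ _ h1) using 2
  simp [mul_assoc]

include hl hs hτ in
theorem norm_compress_one_le {e : B} (he : e ∈ P)
    (hn : ∀ h : e * star e ∈ P, (τ ⟨e * star e, h⟩).re ≤ 1) :
    ‖compress hr τ e he 1‖ ≤ 1 := by
  have h0 := compress_nonneg hl hr hs hτ he 1
  rw [star_one, one_mul] at h0
  obtain ⟨hre, him⟩ := Complex.nonneg_iff.1 h0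
  rw [show compress hr τ e he 1 = (((compress hr τ e he 1).re : ℝ) : ℂ) from
    Complex.ext rfl (by simpa using him.symm), Complex.norm_real, Real.norm_eq_abs,
    abs_of_nonneg hre]
  convert hn (hr _ _ he)
  rw [compress_apply hr τ he _ (hr _ _ (hr _ e he))]
  simp

include hl hs hτ in
theorem norm_compress_le {e : B} (he : e ∈ P)
    (hn : ∀ h : e * star e ∈ P, (τ ⟨e * star e, h⟩).re ≤ 1) (z : B) :
    ‖compress hr τ e he z‖ ≤ ‖z‖ :=
  (norm_apply_le_of_nonneg (compress_nonneg hl hr hs hτ he) z).trans <|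
    mul_le_of_le_one_left (norm_nonneg z)
      ((Complex.re_le_norm _).trans (norm_compress_one_le hl hr hs hτ he hn))

include hl hs hτ in
/-- Elements almost commuting with the pair can be interchanged under the compressed trace, up to
passing to the adjoint of the pair. -/
theorem norm_compress_swap_le (h1 : d.1 ∈ P) (h2 : d.2 ∈ P) {x y : B} {R δ : ℝ}
    (hx : ‖x‖ ≤ R) (hy : ‖y‖ ≤ R) (hxd1 : ‖x * d.1 - d.1 * x‖ ≤ δ)
    (hxd2 : ‖x * d.2 - d.2 * x‖ ≤ δ) (hyd1 : ‖y * star d.1 - star d.1 * y‖ ≤ δ)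
    (hyd2 : ‖y * star d.2 - star d.2 * y‖ ≤ δ) :
    ‖compress hr τ (d.1 * d.2) (hl _ _ h2) (x * y) -
      compress hr τ (star (d.1 * d.2)) (hs _ (hl _ _ h2)) (y * x)‖ ≤
      2 * R * δ * (‖d.1‖ + ‖d.2‖) := by
  have hR : 0 ≤ R := (norm_nonneg x).trans hx
  have hδ : 0 ≤ δ := (norm_nonneg _).trans hxd1
  have k : ∀ {a b q p : B}, ‖a‖ ≤ R → ‖b‖ ≤ R → ‖a * q - q * a‖ ≤ δ → ‖b * p - p * b‖ ≤ δ →
      ‖q‖ = ‖p‖ → ‖q * a * b * p - a * q * p * b‖ ≤ 2 * R * δ * ‖q‖ := by
    intro a b q p ha hb hq hp hpq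
    have e : q * a * b * p - a * q * p * b =
        -(a * q - q * a) * (b * p) + a * q * (b * p - p * b) := by noncomm_ring
    rw [e]
    refine (norm_add_le _ _).trans (le_trans (add_le_add ((norm_mul_le _ _).trans
      (mul_le_mul (by rwa [norm_neg]) ((norm_mul_le _ _).trans
        (mul_le_mul_of_nonneg_right hb (norm_nonneg p))) (norm_nonneg _) hδ))
      ((norm_mul_le _ _).trans (mul_le_mul ((norm_mul_le _ _).trans
        (mul_le_mul_of_nonneg_right ha (norm_nonneg q))) hp (norm_nonneg _) (by positivity)))) ?_)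
    rw [hpq]
    linarith
  have hn1 : ∀ h : d.1 * star d.1 ∈ P, (τ ⟨d.1 * star d.1, h⟩).re ≤ 1 := hτ.2.2 _ (by simp)
  have hn2 : ∀ h : star d.2 * star (star d.2) ∈ P,
      (τ ⟨star d.2 * star (star d.2), h⟩).re ≤ 1 := fun h => by
    convert hτ.2.2 d.2 (by simp) (hr _ _ h2) using 2
    rw [hτ.1 ⟨d.2, h2⟩ (star d.2) (hr _ _ h2) (hl _ _ h2)]
    simp
  -- Trace property in the middle.
  have hmid : compress hr τ d.1 h1 (x * d.2 * star d.2 * y) =
      compress hr τ (star d.2) (hs _ h2) (y * star d.1 * d.1 * x) := by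
    rw [compress_apply hr τ h1 _ (hr _ _ (hr _ _ h1)),
      compress_apply hr τ (hs _ h2) _ (hr _ _ (hr _ _ (hs _ h2)))]
    have hp : d.1 * x * d.2 ∈ P := hl _ _ h2
    have := hτ.1 ⟨d.1 * x * d.2, hp⟩ (star d.2 * y * star d.1) (hr _ _ hp) (hl _ _ hp)
    convert this using 2 <;> simp [mul_assoc]
  have e1 : compress hr τ (d.1 * d.2) (hl _ _ h2) (x * y) =
      compress hr τ d.1 h1 (d.2 * x * y * star d.2) := by
    rw [compress_apply hr τ (hl _ _ h2) _ (hr _ _ (hr _ _ (hl _ _ h2))),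
      compress_apply hr τ h1 _ (hr _ _ (hr _ _ h1))]
    simp [mul_assoc]
  have e2 : compress hr τ (star (d.1 * d.2)) (hs _ (hl _ _ h2)) (y * x) =
      compress hr τ (star d.2) (hs _ h2) (star d.1 * y * x * d.1) := by
    rw [compress_apply hr τ (hs _ (hl _ _ h2)) _ (hr _ _ (hr _ _ (hs _ (hl _ _ h2)))),
      compress_apply hr τ (hs _ h2) _ (hr _ _ (hr _ _ (hs _ h2)))]
    simp [mul_assoc]
  rw [e1, e2, show ∀ a b c e : ℂ, a - e = (a - b) + (c - e) + (b - c) from fun _ _ _ _ => by ring]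
  swap; exact compress hr τ d.1 h1 (x * d.2 * star d.2 * y)
  swap; exact compress hr τ (star d.2) (hs _ h2) (y * star d.1 * d.1 * x)
  rw [sub_eq_zero.2 hmid, add_zero, ← map_sub, ← map_sub]
  refine (norm_add_le _ _).trans ((add_le_add
    ((norm_compress_le hl hr hs hτ h1 hn1 _).trans (k hx hy hxd2 hyd2 (norm_star _).symm))
    ((norm_compress_le hl hr hs hτ (hs _ h2) hn2 _).trans ((norm_sub_rev _ _).trans_le
      (k hy hx hyd1 hxd1 (norm_star _))))).trans ?_)
  rw [norm_star]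
  linarith

end Compress

variable [TopologicalSpace.SeparableSpace B]

theorem exists_invariant_unit_ideal {G : Type*} [Group G] [DecidableEq G] [Countable G]
    (α : G → B ≃⋆ₐ[ℂ] B) (h1 : ∀ a, α 1 a = a) (hmul : ∀ g h a, α (g * h) a = α g (α h a))
    (hG : ∀ (K : Finset G) (ε : ℝ), 0 < ε → ∃ F : Finset G, F.Nonempty ∧ ∀ g ∈ K,
      (((F.image (g * ·)) \ F).card : ℝ) ≤ ε * F.card)
    (P : Submodule ℂ B) (hl : ∀ b, ∀ p ∈ P, b * p ∈ P) (hr : ∀ b, ∀ p ∈ P, p * b ∈ P)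
    (hs : ∀ p ∈ P, star p ∈ P) (hαP : ∀ g, ∀ p ∈ P, α g p ∈ P)
    (D : Set (B × B)) (hD : D.Countable) (hDP : ∀ d ∈ D, d.1 ∈ P ∧ d.2 ∈ P)
    (hαD : ∀ g, ∀ d ∈ D, (α g d.1, α g d.2) ∈ D)
    {x : ℕ →ᵇ B} (hx : ∀ b, Tendsto (fun n => ‖x n * b - b * x n‖) atTop (𝓝 0))
    (hx0 : SmallTr P D fun n => x n * x n)
    (hx1 : SmallTr P D fun n => star (x n) * x n + x n * star (x n) - 1) :
    ∃ v : ℕ → B, (∀ n, ‖v n‖ ≤ 1) ∧
      (∀ b, Tendsto (fun n => ‖v n * b - b * v n‖) atTop (𝓝 0)) ∧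
      SmallTr P D (fun n => v n * v n) ∧
      SmallTr P D (fun n => star (v n) * v n + v n * star (v n) - 1) ∧
      ∀ g, SmallTr P D fun n => α g (v n) - v n := by
  classical
  have := hD.to_subtype
  let Φ : D → Set (B →ₗ[ℂ] ℂ) := fun d => {φ | ∃ τ, IsIdealTrace P (d : B × B) τ ∧
    φ = compress hr τ ((d : B × B).1 * (d : B × B).2) (hl _ _ (hDP _ d.2).2)}
  have hF : IsFamily α Φ := by
    refine ⟨?_, ?_, ?_, ?_⟩
    · rintro d φ ⟨τ, hτ, rfl⟩ z
      exact compress_nonneg hl hr hs hτ _ z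
    · rintro d φ ⟨τ, hτ, rfl⟩
      exact norm_compress_one_le hl hr hs hτ _ (hτ.2.2 _ (by simp))
    · rintro ⟨d, hd⟩ c ε hε
      set R := max c 1
      have hR : 1 ≤ R := le_max_right _ _
      refine ⟨{d.1, d.2, star d.1, star d.2}, ε / (6 * R ^ 3 * (‖d.1‖ + ‖d.2‖ + 1)),
        by positivity, ?_⟩
      rintro x y hx hy hxS hyS φ ⟨τ, hτ, rfl⟩
      set δ := ε / (6 * R ^ 3 * (‖d.1‖ + ‖d.2‖ + 1))
      obtain ⟨h1d, h2d⟩ := hDP d hd
      have hx' : ‖x‖ ≤ R := hx.trans (le_max_left _ _)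
      have hy' : ‖y‖ ≤ R := hy.trans (le_max_left _ _)
      have hRR : R ≤ R * R := le_mul_of_one_le_left (by positivity) hR
      have hprod : ∀ b ∈ ({d.1, d.2, star d.1, star d.2} : Finset B),
          ‖y * x * b - b * (y * x)‖ ≤ 2 * R * δ := fun b hb => by
        have e : y * x * b - b * (y * x) = y * (x * b - b * x) + (y * b - b * y) * x := by
          noncomm_ring
        rw [e]
        refine (norm_add_le _ _).trans ((add_le_add
          ((norm_mul_le _ _).trans (mul_le_mul hy' (hxS b hb) (norm_nonneg _) (by positivity)))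
          ((norm_mul_le _ _).trans (mul_le_mul (hyS b hb) hx' (norm_nonneg _) (by positivity)))).trans
            ?_)
        linarith
      have h1le : ‖(1 : B)‖ ≤ 1 := by
        rcases subsingleton_or_nontrivial B with hB | hB
        · simp [Subsingleton.elim (1 : B) 0]
        · exact CStarRing.norm_one.le
      have A := norm_compress_swap_le hl hr hs hτ h1d h2d hx' hy' (hxS _ (by simp))
        (hxS _ (by simp)) (hyS _ (by simp)) (hyS _ (by simp))
      have A' := norm_compress_swap_le hl hr hs hτ h1d h2d (x := y * x) (y := 1) (R := R * R)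
        (δ := 2 * R * δ)
        ((norm_mul_le _ _).trans (mul_le_mul hy' hx' (norm_nonneg _) (by positivity)))
        (h1le.trans (hR.trans hRR)) (hprod _ (by simp)) (hprod _ (by simp))
        (by simp; positivity) (by simp; positivity)
      rw [mul_one, one_mul] at A'
      rw [map_sub]
      refine (norm_sub_le_norm_sub_add_norm_sub _ (compress hr τ (star (d.1 * d.2))
        (hs _ (hl _ _ h2d)) (y * x)) _).trans ((add_le_add A ((norm_sub_rev _ _).trans_le A')).trans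
          ?_)
      have hR3 : R ≤ R ^ 3 := le_self_pow₀ hR (by norm_num)
      have hδε : δ * (6 * R ^ 3 * (‖d.1‖ + ‖d.2‖ + 1)) = ε := div_mul_cancel₀ _ (by positivity)
      have hδ0 : 0 ≤ δ := by positivity
      nlinarith [mul_nonneg hδ0 (add_nonneg (norm_nonneg d.1) (norm_nonneg d.2)),
        mul_nonneg hδ0 (by positivity : (0 : ℝ) ≤ R ^ 3)]
    · rintro ⟨d, hd⟩ g
      refine ⟨⟨_, hαD g⁻¹ d hd⟩, ?_⟩
      rintro φ ⟨τ, hτ, rfl⟩
      have hinv : ∀ b, α g (α g⁻¹ b) = b := fun b => by rw [← hmul, mul_inv_cancel, h1]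
      let a : P →ₗ[ℂ] P :=
        ((α g : B →⋆ₐ[ℂ] B).toAlgHom.toLinearMap.comp P.subtype).codRestrict P fun p =>
          hαP g p p.2
      have ha : ∀ p : P, (a p : B) = α g p := fun p => rfl
      refine ⟨τ ∘ₗ a, ⟨fun p b hpb hbp => ?_, fun p hp => ?_, fun e he h => ?_⟩, ?_⟩
      · simp only [LinearMap.comp_apply]
        convert hτ.1 (a p) (α g b) (hr _ _ (a p).2) (hl _ _ (a p).2) using 2 <;>
          simp [Subtype.ext_iff, ha, map_mul]
      · simp only [LinearMap.comp_apply]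
        convert hτ.2.1 (a p) (hl _ _ (a p).2) using 2
        simp [Subtype.ext_iff, ha, map_mul, map_star]
      · simp only [LinearMap.comp_apply]
        have hmem : α g e ∈ ({d.1, d.2, d.1 * d.2} : Set B) := by
          rcases he with rfl | rfl | rfl <;> simp [map_mul, hinv]
        have hee : α g e * star (α g e) ∈ P := by
          simpa [map_mul, map_star] using hαP g _ h
        convert hτ.2.2 (α g e) hmem hee using 3
        simp [Subtype.ext_iff, ha, map_mul, map_star]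
      · ext z
        simp only [compress, LinearMap.comp_apply]
        congr 1
        simp [Subtype.ext_iff, ha, map_mul, map_star, hinv]
  have conv : ∀ y : ℕ → B, SmallTr P D y ↔ SmallF Φ y := fun y => by
    constructor
    · rintro hy ⟨d, hd⟩ ε hε
      filter_upwards [hy d hd ε hε] with n hn φ hφ
      obtain ⟨τ, hτ, rfl⟩ := hφ
      rw [compress_apply hr τ _ _ (hr _ _ (hr _ _ (hl _ _ (hDP d hd).2)))]
      exact hn τ hτ _
    · intro hy d hd ε hε
      filter_upwards [hy ⟨d, hd⟩ ε hε] with n hn τ hτ h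
      have := hn _ ⟨τ, hτ, rfl⟩
      rwa [compress_apply hr τ _ _ h] at this
  obtain ⟨v, hv, hv0, hv1, hv2, hv3⟩ :=
    exists_invariant_unit (Φ := Φ) h1 hmul hG hF hx ((conv _).1 hx0) ((conv _).1 hx1)
  exact ⟨v, hv, hv0, (conv _).2 hv1, (conv _).2 hv2, fun g => (conv _).2 (hv3 g)⟩

end Vale.Agent.P095.Mix
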