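import Mathlib

/-!
P095: consistent sampling.  A single rule chooses labels from a distribution along `Fin S`, with
frequencies at most the prescribed weights and stable under small changes of the distribution.

Take `S = Fin K → L × Fin N` and let `sel w s` be the label of the first `i` with
`(s i).2 < N * w (s i).1` (a label of positive weight if there is none).
-/

namespace Vale.Agent.P095.Mix

/-- The first entry of a list of samples that lies in `A`. -/
def firstHit {X : Type*} [DecidableEq X] (A : Finset X) : ∀ K, (Fin K → X) → Option X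
  | 0, _ => none
  | K + 1, s => if s 0 ∈ A then some (s 0) else firstHit A K (Fin.tail s)

theorem firstHit_mem {X : Type*} [DecidableEq X] (A : Finset X) :
    ∀ {K} (s : Fin K → X) {x}, firstHit A K s = some x → x ∈ A
  | 0, _, _, h => by simp [firstHit] at h
  | K + 1, s, x, h => by
    rw [firstHit] at h
    split_ifs at h with h0
    · exact (Option.some.inj h) ▸ h0
    · exact firstHit_mem A _ h

theorem firstHit_mono {X : Type*} [DecidableEq X] {A U : Finset X} (hAU : A ⊆ U) :
    ∀ {K} (s : Fin K → X) {x}, firstHit U K s = some x → x ∈ A → firstHit A K s = some x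
  | 0, _, _, h, _ => by simp [firstHit] at h
  | K + 1, s, x, h, hx => by
    rw [firstHit] at h ⊢
    split_ifs at h with h0
    · rw [if_pos (Option.some.inj h ▸ hx), h]
    · rw [if_neg fun h' => h0 (hAU h')]
      exact firstHit_mono hAU _ h hx

/-- Among the samples with a hit, the first hit is equidistributed; a sequence without a hit is
rare. -/
theorem card_firstHit {X : Type*} [Fintype X] [DecidableEq X] (A B : Finset X) (hB : B ⊆ A) :
    ∀ K, (A.card : ℝ) *
        ((Finset.univ.filter fun s : Fin K → X => ∃ x ∈ B, firstHit A K s = some x).card : ℝ) ≤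
          B.card * (Fintype.card X : ℝ) ^ K ∧
      ((Finset.univ.filter fun s : Fin K → X => firstHit A K s = none).card : ℝ) =
          ((Fintype.card X : ℝ) - A.card) ^ K := by
  intro K
  induction K with
  | zero => simp [firstHit]
  | succ K ih =>
    have split : ∀ P : Option X → Prop, [DecidablePred P] →
        ((Finset.univ.filter fun s : Fin (K + 1) → X => P (firstHit A (K + 1) s)).card : ℝ) =
          ((A.filter fun x => P (some x)).card : ℝ) * (Fintype.card X : ℝ) ^ K +
            ((Fintype.card X : ℝ) - A.card) *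
              (Finset.univ.filter fun s : Fin K → X => P (firstHit A K s)).card := by
      intro P _
      simp only [Finset.card_filter, Nat.cast_sum]
      rw [← Equiv.sum_comp (Fin.consEquiv fun _ : Fin (K + 1) => X), Fintype.sum_prod_type,
        ← Finset.sum_add_sum_compl A]
      congr 1
      · rw [Finset.sum_mul]
        refine Finset.sum_congr rfl fun x hx => ?_
        have e : ∀ y, firstHit A (K + 1) ((Fin.consEquiv fun _ : Fin (K + 1) => X) (x, y)) = some x :=
          fun y => by simp [firstHit, Fin.consEquiv, hx]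
        simp only [e, Finset.sum_const, Finset.card_univ, Fintype.card_fun, Fintype.card_fin,
          nsmul_eq_mul, Nat.cast_pow]
        ring
      · rw [Finset.sum_congr rfl fun x hx => ?_, Finset.sum_const, Finset.card_compl,
          nsmul_eq_mul, Nat.cast_sub (Finset.card_le_univ A)]
        refine Finset.sum_congr rfl fun y _ => ?_
        simp [firstHit, Fin.consEquiv, Finset.mem_compl.1 hx, Fin.tail_cons]
    obtain ⟨h1, h2⟩ := ih
    have hn : (A.card : ℝ) ≤ Fintype.card X := Nat.cast_le.2 (Finset.card_le_univ A)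
    constructor
    · have e : (A.filter fun y => ∃ x ∈ B, some y = some x) = B := by
        ext y
        simp only [Finset.mem_filter, Option.some.injEq, exists_eq_right']
        exact ⟨fun h => h.2, fun h => ⟨hB h, h⟩⟩
      rw [split (fun o => ∃ x ∈ B, o = some x), e, mul_add, mul_left_comm (A.card : ℝ) (_ - _)]
      refine (add_le_add_right (mul_le_mul_of_nonneg_left h1 (sub_nonneg.2 hn)) _).trans ?_
      rw [pow_succ]
      exact le_of_eq (by ring)
    · have e : (A.filter fun y => some y = (none : Option X)) = ∅ := by simp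
      rw [split (fun o => o = none), e, h2, pow_succ]
      simp [mul_comm]

/-- The samples accepted by the weights `w`. -/
noncomputable def accept {L : Type*} [Fintype L] (N : ℕ) (w : L → ℝ) : Finset (L × Fin N) := by
  classical exact Finset.univ.filter fun x => (x.2 : ℝ) < N * w x.1

theorem card_below {N : ℕ} {x : ℝ} (hx : x ≤ N) :
    (Finset.univ.filter fun j : Fin N => (j : ℝ) < x).card = ⌈x⌉₊ := by
  have h : ⌈x⌉₊ ≤ N := Nat.ceil_le.2 hx
  simp only [← Nat.lt_ceil]
  rw [Fin.card_filter_val_lt, min_eq_right h]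

theorem exists_selection (L : Type*) [Fintype L] [DecidableEq L] [Nonempty L] {θ : ℝ}
    (hθ : 0 < θ) :
    ∃ (S : ℕ) (sel : (L → ℝ) → Fin S → L), 0 < S ∧
      (∀ w : L → ℝ, (∀ l, 0 ≤ w l) → ∑ l, w l = 1 →
        (∀ s, 0 < w (sel w s)) ∧
        ∀ l, ((Finset.univ.filter fun s => sel w s = l).card : ℝ) ≤ (w l + θ) * S) ∧
      ∀ w w' : L → ℝ, (∀ l, 0 ≤ w l) → ∑ l, w l = 1 → (∀ l, 0 ≤ w' l) → ∑ l, w' l = 1 →
        ((Finset.univ.filter fun s => sel w s ≠ sel w' s).card : ℝ)
          ≤ (∑ l, |w l - w' l| + θ) * S := by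
  classical
  set c : ℝ := (Fintype.card L : ℝ) with hc
  have hc1 : 1 ≤ c := Nat.one_le_cast.2 Fintype.card_pos
  obtain ⟨N, hN⟩ := exists_nat_gt ((c + 1) / (θ / 2))
  have hN0 : (0 : ℝ) < N := lt_of_le_of_lt (by positivity) hN
  have hNθ : (c + 1) / N ≤ θ / 2 := by
    rw [div_le_iff₀ hN0]
    have := (div_lt_iff₀ (by positivity : (0 : ℝ) < θ / 2)).1 hN
    linarith
  have hq1 : 1 - c⁻¹ < 1 := sub_lt_self _ (inv_pos.2 (by linarith))
  obtain ⟨K, hK⟩ := exists_pow_lt_of_lt_one (by positivity : (0 : ℝ) < θ / 2) hq1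
  let X := L × Fin N
  let e : Fin (Fintype.card (Fin K → X)) ≃ (Fin K → X) := (Fintype.equivFin _).symm
  let sel : (L → ℝ) → Fin (Fintype.card (Fin K → X)) → L := fun w s =>
    match firstHit (accept N w) K (e s) with
    | some x => x.1
    | none => if h : ∃ l, 0 < w l then h.choose else Classical.arbitrary L
  have : Nonempty (Fin N) := ⟨⟨0, Nat.cast_pos.1 hN0⟩⟩
  have hS : 0 < Fintype.card (Fin K → X) := Fintype.card_pos
  have hSr : ((Fintype.card (Fin K → X) : ℕ) : ℝ) = (Fintype.card X : ℝ) ^ K := by
    simp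
  have hXr : (Fintype.card X : ℝ) = c * N := by simp [X, hc]
  have count : ∀ (P : (Fin K → X) → Prop) [DecidablePred P], (Finset.univ.filter fun s => P (e s)).card =
      (Finset.univ.filter P).card := fun P _ =>
    Finset.card_bij (fun s _ => e s) (fun s hs => by simpa using hs)
      (fun a _ b _ h => e.injective h) fun f hf => ⟨e.symm f, by simpa using hf, e.apply_symm_apply f⟩
  have hwN : ∀ w : L → ℝ, (∀ l, 0 ≤ w l) → ∑ l, w l = 1 → ∀ l, (N : ℝ) * w l ≤ N := fun w h0 h1 l =>
    mul_le_of_le_one_right hN0.le (h1 ▸ Finset.single_le_sum (fun i _ => h0 i) (Finset.mem_univ l))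
  have hA : ∀ w : L → ℝ, (∀ l, 0 ≤ w l) → ∑ l, w l = 1 → (N : ℝ) ≤ (accept N w).card := by
    intro w h0 h1
    have e1 : (accept N w).card = ∑ l, ⌈(N : ℝ) * w l⌉₊ := by
      simp only [accept, Finset.card_filter, Fintype.sum_prod_type]
      refine Finset.sum_congr rfl fun l _ => ?_
      rw [← Finset.card_filter, card_below (hwN w h0 h1 l)]
    rw [e1, Nat.cast_sum]
    calc (N : ℝ) = ∑ l, (N : ℝ) * w l := by rw [← Finset.mul_sum, h1, mul_one]
      _ ≤ _ := Finset.sum_le_sum fun l _ => Nat.le_ceil _
  have hfail : ∀ A : Finset X, (N : ℝ) ≤ A.card →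
      ((Finset.univ.filter fun f : Fin K → X => firstHit A K f = none).card : ℝ) ≤
        θ / 2 * (Fintype.card X : ℝ) ^ K := by
    intro A hNA
    rw [(card_firstHit A A subset_rfl K).2]
    have hAle : (A.card : ℝ) ≤ Fintype.card X := Nat.cast_le.2 (Finset.card_le_univ A)
    calc ((Fintype.card X : ℝ) - A.card) ^ K ≤ ((1 - c⁻¹) * Fintype.card X) ^ K := by
          refine pow_le_pow_left₀ (sub_nonneg.2 hAle) ?_ K
          rw [sub_mul, one_mul, hXr, inv_mul_cancel_left₀ (by linarith : c ≠ 0)]
          linarith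
      _ ≤ _ := by rw [mul_pow]; exact mul_le_mul_of_nonneg_right hK.le (by positivity)
  have hit : ∀ A B : Finset X, B ⊆ A → (N : ℝ) ≤ A.card → ∀ b : ℝ, (B.card : ℝ) ≤ N * b →
      ((Finset.univ.filter fun f : Fin K → X => ∃ x ∈ B, firstHit A K f = some x).card : ℝ) ≤
        b * (Fintype.card X : ℝ) ^ K := by
    intro A B hB hNA b hb
    refine le_of_mul_le_mul_left ?_ hN0
    calc (N : ℝ) * _ ≤ (A.card : ℝ) * _ := mul_le_mul_of_nonneg_right hNA (Nat.cast_nonneg _)
      _ ≤ B.card * (Fintype.card X : ℝ) ^ K := (card_firstHit A B hB K).1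
      _ ≤ N * b * (Fintype.card X : ℝ) ^ K := mul_le_mul_of_nonneg_right hb (by positivity)
      _ = _ := mul_assoc _ _ _
  refine ⟨_, sel, hS, fun w h0 h1 => ⟨fun s => ?_, fun l => ?_⟩, fun w w' h0 h1 h0' h1' => ?_⟩
  · have hex : ∃ l, 0 < w l := by
      by_contra h
      push Not at h
      linarith [Finset.sum_nonpos fun l (_ : l ∈ Finset.univ) => h l]
    simp only [sel]
    cases hx : firstHit (accept N w) K (e s) with
    | none => simp only [dif_pos hex]; exact hex.choose_spec
    | some x =>
      have hm := firstHit_mem _ _ hx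
      simp only [accept, Finset.mem_filter] at hm
      exact pos_of_mul_pos_right (lt_of_le_of_lt (Nat.cast_nonneg _) hm.2) hN0.le
  · set A := accept N w with hAdef
    set B := A.filter fun x => x.1 = l with hBdef
    have hB : (B.card : ℝ) ≤ N * (w l + 1 / N) := by
      have e1 : B.card = ⌈(N : ℝ) * w l⌉₊ := by
        rw [← card_below (hwN w h0 h1 l)]
        refine Finset.card_bij (fun x _ => x.2) (fun x hx => ?_) (fun a ha b hb h => ?_) fun j hj => ?_
        · simp only [hBdef, hAdef, accept, Finset.mem_filter, Finset.mem_univ, true_and] at hx ⊢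
          rw [← hx.2]; exact hx.1
        · simp only [hBdef, Finset.mem_filter] at ha hb
          exact Prod.ext (ha.2.trans hb.2.symm) h
        · exact ⟨(l, j), by simpa [hBdef, hAdef, accept] using hj, rfl⟩
      rw [e1, mul_add, mul_one_div_cancel hN0.ne']
      exact (Nat.ceil_lt_add_one (mul_nonneg hN0.le (h0 l))).le
    have h2 : (Finset.univ.filter fun s => sel w s = l).card ≤
        (Finset.univ.filter fun f : Fin K → X => ∃ x ∈ B, firstHit A K f = some x).card +
        (Finset.univ.filter fun f : Fin K → X => firstHit A K f = none).card := by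
      rw [← count (fun f => ∃ x ∈ B, firstHit A K f = some x),
        ← count (fun f => firstHit A K f = none)]
      refine (Finset.card_le_card fun s hs => ?_).trans (Finset.card_union_le _ _)
      simp only [Finset.mem_filter, Finset.mem_univ, true_and, sel, ← hAdef] at hs
      simp only [Finset.mem_union, Finset.mem_filter, Finset.mem_univ, true_and]
      cases hx : firstHit A K (e s) with
      | none => exact Or.inr rfl
      | some x =>
        rw [hx] at hs
        exact Or.inl ⟨x, Finset.mem_filter.2 ⟨firstHit_mem _ _ hx, hs⟩, rfl⟩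
    have h3 := hit A B (Finset.filter_subset _ _) (hA w h0 h1) _ hB
    have h4 := hfail A (hA w h0 h1)
    refine (Nat.cast_le.2 h2).trans ?_
    rw [Nat.cast_add, hSr]
    refine (add_le_add h3 h4).trans ?_
    rw [← add_mul]
    refine mul_le_mul_of_nonneg_right ?_ (by positivity)
    have : 1 / (N : ℝ) ≤ (c + 1) / N := div_le_div_of_nonneg_right (by linarith) hN0.le
    linarith
  · set A := accept N w with hAdef
    set A' := accept N w' with hAdef'
    set D := (A ∪ A').filter fun x => ¬ (x ∈ A ∧ x ∈ A') with hDdef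
    have hD : (D.card : ℝ) ≤ N * (∑ l, |w l - w' l| + c / N) := by
      have e1 : D.card ≤ ∑ l, ((⌈(N : ℝ) * w l⌉₊ - ⌈(N : ℝ) * w' l⌉₊) +
          (⌈(N : ℝ) * w' l⌉₊ - ⌈(N : ℝ) * w l⌉₊)) := by
        rw [Finset.card_eq_sum_card_fiberwise (f := Prod.fst) (t := Finset.univ)
          fun x _ => Finset.mem_univ x.1]
        refine Finset.sum_le_sum fun l _ => ?_
        calc (D.filter fun x => x.1 = l).card
            ≤ (Finset.univ.filter fun j : Fin N =>
              ⌈(N : ℝ) * w' l⌉₊ ≤ (j : ℕ) ∧ (j : ℕ) < ⌈(N : ℝ) * w l⌉₊ ∨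
              ⌈(N : ℝ) * w l⌉₊ ≤ (j : ℕ) ∧ (j : ℕ) < ⌈(N : ℝ) * w' l⌉₊).card := by
              refine Finset.card_le_card_of_injOn Prod.snd (fun x hx => ?_) fun a ha b hb h => ?_
              · simp only [hDdef, hAdef, hAdef', accept, Finset.mem_coe, Finset.mem_filter,
                  Finset.mem_union, Finset.mem_univ, true_and, ← Nat.lt_ceil] at hx ⊢
                obtain ⟨⟨h1, h2⟩, rfl⟩ := hx
                push Not at h2
                rcases h1 with h1 | h1
                · exact Or.inl ⟨h2 h1, h1⟩
                · exact Or.inr ⟨not_lt.1 fun h => absurd (h2 h) (not_le.2 h1), h1⟩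
              · simp only [Finset.mem_coe, Finset.mem_filter] at ha hb
                exact Prod.ext (ha.2.trans hb.2.symm) h
          _ ≤ ((Finset.Ico ⌈(N : ℝ) * w' l⌉₊ ⌈(N : ℝ) * w l⌉₊) ∪
              (Finset.Ico ⌈(N : ℝ) * w l⌉₊ ⌈(N : ℝ) * w' l⌉₊)).card :=
            Finset.card_le_card_of_injOn (fun j : Fin N => (j : ℕ)) (fun j hj => by
              simpa [Finset.mem_Ico] using hj) fun a _ b _ h => Fin.ext h
          _ ≤ _ := (Finset.card_union_le _ _).trans (by simp)
      refine (Nat.cast_le.2 e1).trans ?_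
      rw [mul_add, Finset.mul_sum, mul_div_cancel₀ _ hN0.ne', hc,
        show (Fintype.card L : ℝ) = ∑ _l : L, (1 : ℝ) by simp, ← Finset.sum_add_distrib, Nat.cast_sum]
      refine Finset.sum_le_sum fun l _ => ?_
      have a1 := Nat.le_ceil ((N : ℝ) * w l)
      have a2 := (Nat.ceil_lt_add_one (mul_nonneg hN0.le (h0 l))).le
      have b1 := Nat.le_ceil ((N : ℝ) * w' l)
      have b2 := (Nat.ceil_lt_add_one (mul_nonneg hN0.le (h0' l))).le
      have c1 := le_abs_self ((N : ℝ) * (w l - w' l))
      have c2 := neg_abs_le ((N : ℝ) * (w l - w' l))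
      rw [abs_mul, Nat.abs_cast] at c1 c2
      rcases le_total ⌈(N : ℝ) * w l⌉₊ ⌈(N : ℝ) * w' l⌉₊ with h | h <;>
        rw [Nat.sub_eq_zero_of_le h] <;> simp only [zero_add, add_zero] <;>
        rw [Nat.cast_sub h] <;> linarith
    have h2 : (Finset.univ.filter fun s => sel w s ≠ sel w' s).card ≤
        (Finset.univ.filter fun f : Fin K → X => ∃ x ∈ D, firstHit (A ∪ A') K f = some x).card +
        (Finset.univ.filter fun f : Fin K → X => firstHit (A ∪ A') K f = none).card := by
      rw [← count (fun f => ∃ x ∈ D, firstHit (A ∪ A') K f = some x),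
        ← count (fun f => firstHit (A ∪ A') K f = none)]
      refine (Finset.card_le_card fun s hs => ?_).trans (Finset.card_union_le _ _)
      simp only [Finset.mem_filter, Finset.mem_univ, true_and, sel, ← hAdef, ← hAdef'] at hs
      simp only [Finset.mem_union, Finset.mem_filter, Finset.mem_univ, true_and]
      cases hx : firstHit (A ∪ A') K (e s) with
      | none => exact Or.inr rfl
      | some x =>
        refine Or.inl ⟨x, Finset.mem_filter.2 ⟨firstHit_mem _ _ hx, fun hh => hs ?_⟩, rfl⟩
        rw [firstHit_mono Finset.subset_union_left _ hx hh.1,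
          firstHit_mono Finset.subset_union_right _ hx hh.2]
    have hAU : (N : ℝ) ≤ (A ∪ A').card :=
      (hA w h0 h1).trans (Nat.cast_le.2 (Finset.card_le_card Finset.subset_union_left))
    have h3 := hit (A ∪ A') D (Finset.filter_subset _ _) hAU _ hD
    have h4 := hfail (A ∪ A') hAU
    refine (Nat.cast_le.2 h2).trans ?_
    rw [Nat.cast_add, hSr]
    refine (add_le_add h3 h4).trans ?_
    rw [← add_mul]
    refine mul_le_mul_of_nonneg_right ?_ (by positivity)
    have : c / (N : ℝ) ≤ (c + 1) / N := div_le_div_of_nonneg_right (by linarith) hN0.le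
    linarith

end Vale.Agent.P095.Mix
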