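import Vale.Agent.P095.Mix.LimitCore
import Vale.Agent.P095.Mix.Sel

/-!
P095: for many slots the mixture is nearly a matrix unit, and it barely moves when the finite set
and the windows do.
-/

open Filter Topology
open scoped Real ENNReal

namespace Vale.Agent.P095.Mix

open Gamma

universe u

/-- Bookkeeping for the hash bound. -/
theorem hash_budget {H : ℕ} {κ η W T : ℝ} (hη : 0 < η) (hH : 48 / η ≤ H) (hκ : 0 ≤ κ)
    (hκ1 : κ ≤ 1) (hκH : κ * (84 * H + 1) ≤ η) (hW : 0 ≤ W) (hT : 1 + 15 * W / η ≤ T) :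
    16 * H * κ + 4 * H * (1 / H + κ) ^ 2 + 5 * W / T ^ 2 ≤ η := by
  have hH0 : (0 : ℝ) < H := lt_of_lt_of_le (by positivity) hH
  have hH1 : (1 : ℝ) ≤ H := by exact_mod_cast hH0
  have h1 : 4 / (H : ℝ) ≤ η / 12 := by
    rw [div_le_div_iff₀ hH0 (by norm_num)]
    rw [div_le_iff₀ hη] at hH
    linarith
  have h2 : 4 * H * (1 / H + κ) ^ 2 = 4 / (H : ℝ) + 8 * κ + 4 * H * κ ^ 2 := by
    field_simp; ring
  have h3 : κ ^ 2 * H ≤ κ * H := mul_le_mul_of_nonneg_right (by nlinarith) hH0.le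
  have h4 : κ ≤ κ * H := le_mul_of_one_le_right hκ hH1
  have hT1 : 1 ≤ T := le_trans (le_add_of_nonneg_right (by positivity)) hT
  have h5 : 5 * W / T ^ 2 ≤ η / 3 := by
    rw [div_le_iff₀ (by positivity)]
    have h6 : 15 * W ≤ T * η := by
      rw [← div_le_iff₀ hη]; linarith
    nlinarith [mul_le_mul_of_nonneg_right (by nlinarith : T ≤ T ^ 2) hη.le]
  nlinarith

/-- The defect budget. -/
theorem defect_budget {ε n cnt S η₁ η₂ : ℝ} (hε : 0 < ε) (hn : 0 < n) (hcnt : 0 ≤ cnt)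
    (hS : 1 ≤ S) (h₁ : η₁ = ε / (64 * n ^ 2)) (h₂ : η₂ = ε / (1024 * (cnt * S + 1) ^ 2)) :
    Real.sqrt (4 * n ^ 2 * η₁) + 8 * cnt * S * Real.sqrt η₂ ≤ Real.sqrt ε / 2 ∧
      4 * cnt * η₂ ≤ ε / 4 := by
  have a : Real.sqrt (4 * n ^ 2 * η₁) = Real.sqrt ε / 4 := by
    rw [h₁, show 4 * n ^ 2 * (ε / (64 * n ^ 2)) = ε / 4 ^ 2 by field_simp; ring,
      Real.sqrt_div hε.le, Real.sqrt_sq (by norm_num)]
  have hcS : 0 ≤ cnt * S := mul_nonneg hcnt (zero_le_one.trans hS)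
  have b : Real.sqrt η₂ = Real.sqrt ε / (32 * (cnt * S + 1)) := by
    rw [h₂, Real.sqrt_div hε.le,
      show 1024 * (cnt * S + 1) ^ 2 = (32 * (cnt * S + 1)) ^ 2 by ring,
      Real.sqrt_sq (by positivity)]
  refine ⟨?_, ?_⟩
  · have c : 8 * cnt * S * Real.sqrt η₂ ≤ Real.sqrt ε / 4 := by
      rw [b, ← mul_div_assoc, div_le_iff₀ (by positivity)]
      nlinarith [Real.sqrt_nonneg ε]
    linarith
  · rw [h₂, ← mul_div_assoc, div_le_iff₀ (by positivity)]
    have h1 : cnt ≤ (cnt * S + 1) ^ 2 := by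
      nlinarith [mul_le_mul_of_nonneg_left hS hcnt]
    nlinarith

/-- With all parameters fixed, the estimates hold for many slots. -/
theorem eventually_of_budget {n H R S : ℕ} (hn : 0 < n) (hR : 0 < R) (hS : 0 < S)
    (F : WinFamily H) (sel : (Fin H × Fin H → ℝ) → Fin S → Fin H × Fin H) {θ η₁ η₂ ε : ℝ}
    (hθ : 0 ≤ θ) (hη₁ : 0 ≤ η₁) (hη₂ : 0 ≤ η₂) (hε : 0 < ε)
    (hsel : ∀ w : Fin H × Fin H → ℝ, (∀ l, 0 ≤ w l) → ∑ l, w l = 1 →
      (∀ s, 0 < w (sel w s)) ∧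
      ∀ l, ((Finset.univ.filter fun s => sel w s = l).card : ℝ) ≤ (w l + θ) * S)
    (hstable : ∀ w w' : Fin H × Fin H → ℝ, (∀ l, 0 ≤ w l) → ∑ l, w l = 1 → (∀ l, 0 ≤ w' l) →
      ∑ l, w' l = 1 → ((Finset.univ.filter fun s => sel w s ≠ sel w' s).card : ℝ)
        ≤ (∑ l, |w l - w' l| + θ) * S)
    (hhash : ∀ᶠ M in atTop, ∀ (C : Type u) [CStarAlgebra C] [PartialOrder C] [StarOrderedRing C]
      (τ : TraceState C) (Γ : Type) (Sy : SlotSystem τ Γ (Fin M)) (g k : Γ),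
      ‖((R : ℂ))⁻¹ * ∑ o, ∑ l, τ.f (shiftWin (F.f l) (ang R o) F.T (avgFld (Sy.B g)) *
          shiftWin (F.f l) (ang R o) F.T (avgFld (Sy.B k)) * sqAvg (Sy.B g) (Sy.B k))‖ ≤ η₁)
    (hover : ∀ l l', l ≠ l' → ∀ (C : Type u) [CStarAlgebra C] (Z : C), IsSelfAdjoint Z →
      ‖((R : ℂ))⁻¹ • ∑ o, shiftWin (F.f l) (ang R o) F.T Z * shiftWin (F.f l') (ang R o) F.T Z‖
        ≤ η₂)
    (hdef : Real.sqrt (4 * (n : ℝ) ^ 2 * η₁) +
      8 * ((Fintype.card (Fin H × Fin H) : ℝ) ^ n) ^ 2 * S * Real.sqrt η₂ ≤ Real.sqrt ε / 2)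
    (hsub : 4 * (1 + (Fintype.card (Fin H × Fin H) : ℝ)) * θ +
      4 * ((Fintype.card (Fin H × Fin H) : ℝ) ^ n) ^ 2 * η₂ ≤ ε / 2)
    (N : ℕ) (g g' : Fin n → Fin N) (hg : Function.Injective g) (hg' : Function.Injective g')
    (hδ : (((Finset.univ.filter fun i => ∀ j, g i ≠ g' j).card : ℝ) +
      (Finset.univ.filter fun j => ∀ i, g i ≠ g' j).card) / n ≤ ε / 64) :
    ∀ᶠ M in atTop, ∀ (C : Type u) [CStarAlgebra C] [PartialOrder C] [StarOrderedRing C]
      (τ : TraceState C) (D D' : MixData τ (Fin N) R S M (tol R S M)),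
      D'.u = D.u → (∀ x, τ.hsq (D.p x - D'.p x) ≤ tol R S M) →
      let P : Param := ⟨H, R, S, F.f, F.T, sel⟩
      let v := P.elt (fun i => D.u (g i)) D.p
      τ.hsq (v * v) < ε ∧ τ.hsq (star v * v + v * star v - 1) < ε ∧
        τ.hsq (P.elt (fun i => D.u (g' i)) D'.p - v) < ε := by
  have hN : 0 < N := Fin.pos (g ⟨0, hn⟩)
  by_contra hcon
  rw [Filter.not_eventually, Filter.frequently_atTop] at hcon
  choose m hm hcon using fun j => hcon (j + 1)
  simp only [not_forall] at hcon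
  choose C ic po so τ D D' hu hp hbad using hcon
  have hnt : ∀ j, Nontrivial (C j) := fun j =>
    ⟨⟨1, 0, fun h => by simpa [h] using (τ j).one⟩⟩
  have hm0 : ∀ j, 0 < m j := fun j => lt_of_lt_of_le (Nat.succ_pos j) (hm j)
  have hmt : Tendsto m atTop atTop :=
    tendsto_atTop_mono (fun j => (Nat.le_succ j).trans (hm j)) tendsto_id
  set ω : Ultrafilter ℕ := hyperfilter ℕ
  have hω : (ω : Filter ℕ) ≤ atTop := Nat.hyperfilter_le_atTop
  obtain ⟨Mo⟩ := exists_productModel τ ω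
  let := CStarAlgebra.spectralOrder Mo.X
  have := CStarAlgebra.spectralOrderedRing Mo.X
  obtain ⟨K, hKV, hKE, hKP⟩ := exists_core D F Mo hω hmt hm0 hR hS (η₁ := η₁) (η₂ := η₂)
    (fun s a b => by
      filter_upwards [hω (hmt.eventually hhash)] with j hj
      exact hj (C j) (τ j) _ (D j).slots (a, s) (b, s))
    (fun s a l l' hne => Eventually.of_forall fun j =>
      hover l l' hne (C j) _ (isSelfAdjoint_fld _ _))
  obtain ⟨hV', hE', hP'⟩ := map_eq_of_close D F Mo hω hmt hm0 hR hS hN D' hu hp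
  have hpos : ∀ w : Fin H × Fin H → ℝ, (∀ l, 0 ≤ w l) → ∑ l, w l = 1 → ∀ s, 0 < w (sel w s) :=
    fun w h0 h1 => (hsel w h0 h1).1
  -- the elements of the product
  set U : DataSeq τ N R S m → (Fin n → Fin N) → lp C ∞ := fun E h =>
    clip (mixU sel (fun i => lEl E F (h i)) (fun i => vEl E (h i)) (pEl E)) with hU
  have hUj : ∀ E h j, U E h j =
      Param.elt ⟨H, R, S, F.f, F.T, sel⟩ (fun i => (E j).u (h i)) (E j).p := fun E h j => by
    rw [← lpEval_apply j (U E h), hU]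
    simp only [map_clip, map_mixU, lpEval_lEl]
    rfl
  have hUπ : ∀ E h, (∀ a, Mo.π (vEl E a) = K.V a) → (∀ a l, Mo.π (lEl E F a l) = K.E a l) →
      (∀ t, Mo.π (pEl E t) = K.P t) → Mo.π (U E h) = K.U sel h := fun E h h1 h2 h3 => by
    rw [hU]
    simp only [map_clip, map_mixU, h1, h2, h3]
    exact clip_of_norm_le (K.norm_U_le hn hpos h)
  have e1 : Mo.π (U D g) = K.U sel g :=
    hUπ D g (fun a => (hKV a).symm) (fun a l => (hKE a l).symm) fun t => (hKP t).symm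
  have e2 : Mo.π (U D' g') = K.U sel g' :=
    hUπ D' g' (fun a => (hV' a).trans (hKV a).symm) (fun a l => (hE' a l).trans (hKE a l).symm)
      fun t => (hP' t).trans (hKP t).symm
  -- the three quantities in the model
  obtain ⟨hd1, hd2⟩ := K.n2_U_defect hη₁ hη₂ hn hpos g
  have small : ∀ x : Mo.X, Mo.T.n2 x ≤ Real.sqrt ε / 2 → Mo.T.hsq x < ε := fun x hx => by
    rw [← Mo.T.n2_sq x]
    calc Mo.T.n2 x ^ 2 ≤ (Real.sqrt ε / 2) ^ 2 := pow_le_pow_left₀ (Real.sqrt_nonneg _) hx 2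
      _ < ε := by rw [div_pow, Real.sq_sqrt hε.le]; linarith
  have t1 : Mo.T.hsq (Mo.π (U D g * U D g)) < ε := by
    rw [map_mul, e1]; exact small _ (hd1.trans hdef)
  have t2 : Mo.T.hsq (Mo.π (star (U D g) * U D g + U D g * star (U D g) - 1)) < ε := by
    rw [map_sub, map_add, map_mul, map_mul, map_star, map_one, e1]
    exact small _ (hd2.trans hdef)
  have t3 : Mo.T.hsq (Mo.π (U D' g' - U D g)) < ε := by
    rw [map_sub, e1, e2, ← Mo.T.hsq_neg, neg_sub]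
    refine lt_of_le_of_lt (K.hsq_U_sub hη₂ hn hS hθ hsel hstable g g' hg hg' hδ) ?_
    linarith
  obtain ⟨j, h1, h2, h3⟩ := (((Mo.tendsto_hsq _).eventually_lt_const t1).and
    (((Mo.tendsto_hsq _).eventually_lt_const t2).and
      ((Mo.tendsto_hsq _).eventually_lt_const t3))).exists
  apply hbad j
  simp only [← hu j]
  have a := hUj D g j
  have b := hUj D' g' j
  simp only [← lpEval_apply, map_mul, map_sub, map_add, map_star, map_one] at h1 h2 h3 a b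
  rw [a] at h1 h2 h3
  rw [b] at h3
  exact ⟨by simpa only [hu j] using h1, by simpa only [hu j] using h2,
    by simpa only [hu j] using h3⟩

theorem exists_param {n : ℕ} (hn : 0 < n) {ε : ℝ} (hε : 0 < ε) :
    ∃ P : Param, 0 < P.R ∧ 0 < P.S ∧ (∀ l, Continuous (P.f l)) ∧
      ∀ (N : ℕ) (g g' : Fin n → Fin N), Function.Injective g → Function.Injective g' →
        (((Finset.univ.filter fun i => ∀ j, g i ≠ g' j).card : ℝ) +
          (Finset.univ.filter fun j => ∀ i, g i ≠ g' j).card) / n ≤ ε / 64 →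
        ∀ᶠ M in atTop, ∀ (C : Type u) [CStarAlgebra C] [PartialOrder C] [StarOrderedRing C]
          (τ : TraceState C) (D D' : MixData τ (Fin N) P.R P.S M (tol P.R P.S M)),
          D'.u = D.u → (∀ x, τ.hsq (D.p x - D'.p x) ≤ tol P.R P.S M) →
          let v := P.elt (fun i => D.u (g i)) D.p
          τ.hsq (v * v) < ε ∧ τ.hsq (star v * v + v * star v - 1) < ε ∧
            τ.hsq (P.elt (fun i => D.u (g' i)) D'.p - v) < ε := by
  have hn' : (0 : ℝ) < n := by exact_mod_cast hn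
  set η₁ : ℝ := ε / (64 * (n : ℝ) ^ 2) with hη₁def
  have hη₁ : 0 < η₁ := by positivity
  obtain ⟨H, hH⟩ := exists_nat_ge (48 / η₁)
  have hH0 : 0 < H := by
    have : (0 : ℝ) < H := lt_of_lt_of_le (by positivity) hH
    exact_mod_cast this
  have : Nonempty (Fin H × Fin H) := ⟨(⟨0, hH0⟩, ⟨0, hH0⟩)⟩
  set cL : ℝ := (Fintype.card (Fin H × Fin H) : ℝ) with hcL
  obtain ⟨S, sel, hS, hsel, hstable⟩ := exists_selection (Fin H × Fin H)
    (θ := ε / (16 * (1 + cL))) (by positivity)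
  set η₂ : ℝ := ε / (1024 * ((cL ^ n) ^ 2 * S + 1) ^ 2) with hη₂def
  have hη₂ : 0 < η₂ := by positivity
  obtain ⟨κ, hκ, hκ1, hκH, hκ2⟩ : ∃ κ : ℝ, 0 < κ ∧ κ ≤ 1 ∧ κ * (84 * H + 1) ≤ η₁ ∧ 2 * κ ≤ η₂ :=
    ⟨min 1 (min (η₁ / (84 * H + 1)) (η₂ / 2)),
      lt_min one_pos (lt_min (by positivity) (by positivity)), min_le_left _ _,
      (le_div_iff₀ (by positivity)).1 ((min_le_right _ _).trans (min_le_left _ _)),
      by
        have h : min 1 (min (η₁ / (84 * H + 1)) (η₂ / 2)) ≤ η₂ / 2 :=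
          (min_le_right _ _).trans (min_le_right _ _)
        linarith⟩
  obtain ⟨f, hf, hf0, hfs, hfa, hfb, hfp⟩ := exists_windows_periodic hH0 hκ
  have hf1 : ∀ l θ, f l θ ≤ 1 := fun l θ => by
    rw [← hfs θ]
    exact Finset.single_le_sum (f := fun k => f k θ) (fun k _ => hf0 k θ) (Finset.mem_univ l)
  obtain ⟨Dh, W, hW, hhash⟩ := exists_hash_bound.{u, 0} hf hf0 hf1 hκ1 hfa
  choose Do hDo using fun q : {q : Fin H × Fin H // q.1 ≠ q.2} =>
    exists_avg_shiftWin_bound.{u} ((hf q.1.1).mul (hf q.1.2)) (hfb q.1.1 q.1.2 q.2)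
  obtain ⟨R, hR, hDh, hDR⟩ : ∃ R : ℕ, 0 < R ∧ 2 * Dh < R ∧ ∀ q, Do q < R :=
    ⟨2 * Dh + ∑ q, Do q + 1, Nat.succ_pos _, by omega, fun q => by
      have := Finset.single_le_sum (f := Do) (fun q _ => Nat.zero_le _) (Finset.mem_univ q)
      omega⟩
  obtain ⟨T, hT⟩ : ∃ T : ℝ, 1 + 15 * W / η₁ ≤ T := ⟨_, le_rfl⟩
  have hT1 : 1 ≤ T := le_trans (le_add_of_nonneg_right (by positivity)) hT
  refine ⟨⟨H, R, S, f, T, sel⟩, hR, hS, hf, fun N g g' hg hg' hδ => ?_⟩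
  have hb := defect_budget hε hn' (sq_nonneg (cL ^ n)) (by exact_mod_cast hS) hη₁def hη₂def
  refine eventually_of_budget hn hR hS ⟨f, T, hf, hf0, hfs, hfp⟩ sel
    (θ := ε / (16 * (1 + cL))) (η₁ := η₁) (η₂ := η₂) (by positivity) hη₁.le hη₂.le hε hsel hstable
    ?_ (fun l l' hne C _ Z hZ => ?_) hb.1 ?_ N g g' hg hg' hδ
  · filter_upwards [hhash R hDh T hT1] with M hM
    intro C _ _ _ τ Γ Sy a b
    exact (hM C τ Γ Sy a b).trans (hash_budget hη₁ hH hκ.le hκ1 hκH hW hT)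
  · have h := hDo ⟨(l, l'), hne⟩ C R (hDR _) T Z hZ
    rw [Complex.ofReal_zero, zero_smul, sub_zero] at h
    refine le_trans (le_of_eq ?_) (h.trans hκ2)
    congr 2
    refine Finset.sum_congr rfl fun o _ => ?_
    exact window_mul ((hf l).comp (continuous_add_const _))
      ((hf l').comp (continuous_add_const _)) _ hZ
  · have h1 : 0 < 1 + cL := by positivity
    have a : 4 * (1 + cL) * (ε / (16 * (1 + cL))) = ε / 4 := by field_simp; ring
    linarith [hb.2]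

end Vale.Agent.P095.Mix
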