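import Vale.Agent.P095.Mix.LimitModel

/-!
P095: the limit of slots and windows is exact core data, and it does not see changes of the windows
within the tolerance.
-/

open Filter Topology
open scoped ENNReal

namespace Vale.Agent.P095.Mix

open Gamma

universe u

section algebra

variable {X : Type*} [CStarAlgebra X] {ι : Type*} [Fintype ι] {q : ι → X}

theorem orth_idem (hq : ∀ i j, i ≠ j → q i * q j = 0) (hs : ∑ i, q i = 1) (i : ι) :
    q i * q i = q i := by
  have h := congrArg (q i * ·) hs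
  simp only [Finset.mul_sum, mul_one] at h
  rwa [Finset.sum_eq_single i (fun j _ hj => hq i j hj.symm)
    fun hn => absurd (Finset.mem_univ i) hn] at h

/-- Products of combinations of orthogonal projections are combinations of the products. -/
theorem sum_mul_sum_orth (hq : ∀ i j, i ≠ j → q i * q j = 0) (hs : ∑ i, q i = 1) {a b : ι → X}
    (ha : ∀ i j, Commute (q j) (a i)) :
    (∑ i, q i * a i) * (∑ i, q i * b i) = ∑ i, q i * (a i * b i) := by
  rw [Finset.sum_mul_sum]
  refine Finset.sum_congr rfl fun i _ => ?_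
  have e : ∀ j, q i * a i * (q j * b j) = q i * q j * (a i * b j) := fun j => by
    rw [mul_assoc (q i), ← mul_assoc (a i), ← (ha i j).eq, mul_assoc (q j), ← mul_assoc (q i)]
  rw [Finset.sum_eq_single i (fun j _ hj => by rw [e, hq i j hj.symm, zero_mul])
    fun hn => absurd (Finset.mem_univ i) hn, e, orth_idem hq hs]

theorem sym_sub (s : Bool) (x y : X) : sym s (x - y) = sym s x - sym s y := by
  cases s <;> simp [sym, star_sub, smul_sub] <;> abel

/-- The two halves of a squared difference. -/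
theorem star_mul_add_mul_star (x : X) :
    star x * x + x * star x =
      (1 / 2 : ℂ) • (sym false x * sym false x + sym true x * sym true x) := by
  have h : sym false x * sym false x + sym true x * sym true x =
      (2 : ℂ) • (star x * x + x * star x) := by
    simp only [sym, Bool.false_eq_true, if_false, if_true, smul_mul_smul_comm, Complex.I_mul_I,
      neg_smul, one_smul, two_smul]
    noncomm_ring
  rw [h, smul_smul]
  norm_num

theorem prodE_succ {L : Type*} {m : ℕ} (E : Fin (m + 1) → L → X) (φ : Fin (m + 1) → L) :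
    prodE E φ = E 0 (φ 0) * prodE (fun i => E i.succ) (fun i => φ i.succ) := by
  rw [prodE, prodE, List.ofFn_succ, List.prod_cons]

theorem norm_prodE_le {L : Type*} : ∀ {m : ℕ} (E : Fin m → L → X) (φ : Fin m → L),
    (∀ i l, ‖E i l‖ ≤ 1) → ‖(1 : X)‖ ≤ 1 → ‖prodE E φ‖ ≤ 1 := by
  intro m
  induction m with
  | zero => intro E φ _ h1; simpa [prodE] using h1
  | succ m ih =>
    intro E φ hE h1
    rw [prodE, List.ofFn_succ, List.prod_cons]
    exact (norm_mul_le _ _).trans (mul_le_one₀ (hE 0 (φ 0)) (norm_nonneg _)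
      (ih (fun i => E i.succ) (fun i => φ i.succ) (fun i => hE i.succ) h1))

theorem commute_prodE {L : Type*} {m : ℕ} (E : Fin m → L → X) (φ : Fin m → L) {w : X}
    (h : ∀ i l, Commute (E i l) w) : Commute (prodE E φ) w :=
  Commute.list_prod_left _ _ fun y hy => by
    obtain ⟨i, rfl⟩ := List.mem_ofFn.1 hy
    exact h i _

end algebra

variable {C : ℕ → Type u} [∀ j, CStarAlgebra (C j)] [∀ j, PartialOrder (C j)]
  [∀ j, StarOrderedRing (C j)] [∀ j, Nontrivial (C j)] {τ : ∀ j, TraceState (C j)}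
  {N R S H : ℕ} {m : ℕ → ℕ} (D : DataSeq τ N R S m) (F : WinFamily H)
  {ω : Ultrafilter ℕ} (Mo : ProductModel τ ω) [PartialOrder Mo.X] [StarOrderedRing Mo.X]
  (hω : (ω : Filter ℕ) ≤ atTop) (hm : Tendsto m atTop atTop) (hm0 : ∀ j, 0 < m j)
  (hR : 0 < R) (hS : 0 < S)

omit [PartialOrder Mo.X] [StarOrderedRing Mo.X]

include hω hm hm0 hR hS in
/-- A trace identity that holds up to the error holds exactly in the model. -/
theorem trace_limit {x y : lp C ∞} (c : ℂ)
    (h : ∀ j, ‖(τ j).f (x j) - (τ j).f (y j) / c‖ ≤ err R S (m j) (tol R S (m j))) :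
    Mo.T.f (Mo.π x) = Mo.T.f (Mo.π y) / c :=
  Mo.trace_eq (squeeze_zero_norm h (tendsto_err hω hm)) ((Mo.tendsto y).div_const c)

include hω hm hm0 hR hS in
/-- Offsets and selections are independent of what commutes with the windows' slots. -/
theorem trace_qp {x : lp C ∞} (hW : ∀ j, ∀ w ∈ (D j).W, Commute (x j) w) (h1 : ∀ j, ‖x j‖ ≤ 1)
    (o : Fin R) :
    Mo.T.f (Mo.π x * Mo.π (qEl D o)) = Mo.T.f (Mo.π x) / (R : ℂ) ∧ ∀ s,
      Mo.T.f (Mo.π x * (Mo.π (qEl D o) * Mo.π (pEl D s))) = Mo.T.f (Mo.π x) / ((R : ℂ) * (S : ℂ)) := by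
  have hk : ∀ j, 0 < R * S * m j := fun j => by have := hm0 j; positivity
  constructor
  · rw [← map_mul]
    refine trace_limit Mo hω hm hm0 hR hS _ fun j => ?_
    rw [lp.infty_coeFn_mul]
    exact (D j).trace_qo (tol_nonneg _ _ _) (tol_le_one _ _ _) (hk j) (hW j) (h1 j) o
  · intro s
    rw [← map_mul, ← map_mul]
    refine trace_limit Mo hω hm hm0 hR hS _ fun j => ?_
    rw [lp.infty_coeFn_mul, lp.infty_coeFn_mul]
    exact (D j).trace_qo_ps (tol_nonneg _ _ _) (tol_le_one _ _ _) (hk j) (hW j) (h1 j) o s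

/-- Both windows of a label at one offset. -/
noncomputable def aEl (o : Fin R) (g : Fin N) (l : Fin H × Fin H) : lp C ∞ :=
  wEl D F false l.1 o g * wEl D F true l.2 o g

omit [∀ j, StarOrderedRing (C j)] [∀ j, PartialOrder (C j)] in
theorem lpMk_apply (x : ∀ j, C j) (c : ℝ) (h : ∀ j, ‖x j‖ ≤ c) (j : ℕ) : lpMk x c h j = x j := rfl

theorem aEl_props (o : Fin R) (g : Fin N) (l : Fin H × Fin H) (j : ℕ) :
    ‖aEl D F o g l j‖ ≤ 1 ∧ ∀ w ∈ (D j).W, Commute (aEl D F o g l j) w := by
  rw [aEl, lp.infty_coeFn_mul]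
  have h : ∀ s k, ‖wEl D F s k o g j‖ ≤ 1 := fun s k =>
    norm_le_one_of_mem_Icc
      (shiftWin_mem_Icc F.cont F.nonneg F.sum _ _ (isSelfAdjoint_fld _ _) k).1
      (shiftWin_mem_Icc F.cont F.nonneg F.sum _ _ (isSelfAdjoint_fld _ _) k).2
  exact ⟨(norm_mul_le _ _).trans (mul_le_one₀ (h _ _) (norm_nonneg _) (h _ _)), fun w hw =>
    (((D j).commute_shiftWin _ _ _ g false).2.2.2 w hw).mul_left
      (((D j).commute_shiftWin _ _ _ g true).2.2.2 w hw)⟩

theorem commute_qa (o o' : Fin R) (g : Fin N) (l : Fin H × Fin H) :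
    Commute (Mo.π (qEl D o')) (Mo.π (aEl D F o g l)) := by
  rw [aEl, map_mul]
  exact (commute_qw D F Mo false l.1 o o' g).mul_right (commute_qw D F Mo true l.2 o o' g)

include hω hm hm0 hR hS in
theorem map_lEl (g : Fin N) (l : Fin H × Fin H) :
    Mo.π (lEl D F g l) = ∑ o, Mo.π (qEl D o) * Mo.π (aEl D F o g l) := by
  simp only [lEl, cEl, aEl, map_mul, map_sum]
  exact sum_mul_sum_orth (fun o o' h => qEl_mul D Mo hω hm hm0 hR hS h) (proj_sums D Mo).1
    fun o o' => commute_qw D F Mo _ _ o o' g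

include hω hm hm0 hR hS in
theorem prodE_lEl {k : ℕ} (g : Fin k → Fin N) (φ : Fin k → Fin H × Fin H) :
    prodE (fun i l => Mo.π (lEl D F (g i) l)) φ =
      ∑ o, Mo.π (qEl D o) * Mo.π (prodE (fun i => aEl D F o (g i)) φ) := by
  induction k with
  | zero => simpa [prodE] using (proj_sums D Mo).1.symm
  | succ k ih =>
    rw [prodE_succ, ih (fun i => g i.succ) (fun i => φ i.succ), map_lEl D F Mo hω hm hm0 hR hS]
    simp only [prodE_succ, map_mul]
    exact sum_mul_sum_orth (fun o o' h => qEl_mul D Mo hω hm hm0 hR hS h) (proj_sums D Mo).1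
      fun o o' => commute_qa D F Mo o o' _ _

include hω hm hm0 hR hS in
theorem indep_limit (k : ℕ) (g : Fin k → Fin N) (φ : Fin k → Fin H × Fin H) (t : Fin S) :
    Mo.T.f (prodE (fun i l => Mo.π (lEl D F (g i) l)) φ * Mo.π (pEl D t)) =
      Mo.T.f (prodE (fun i l => Mo.π (lEl D F (g i) l)) φ) / (S : ℂ) := by
  rw [prodE_lEl D F Mo hω hm hm0 hR hS, Finset.sum_mul, map_sum, map_sum, Finset.sum_div]
  refine Finset.sum_congr rfl fun o _ => ?_
  set a := prodE (fun i => aEl D F o (g i)) φ with ha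
  have hj : ∀ j, a j = prodE (fun i l => aEl D F o (g i) l j) φ := fun j => by
    rw [ha, ← lpEval_apply, prodE, map_list_prod, List.map_ofFn]
    rfl
  have h := trace_qp D Mo hω hm hm0 hR hS (x := a)
    (fun j w hw => by
      rw [hj]; exact commute_prodE _ _ fun i l => (aEl_props D F o (g i) l j).2 w hw)
    (fun j => by
      rw [hj]
      exact norm_prodE_le _ _ (fun i l => (aEl_props D F o (g i) l j).1)
        (le_of_eq CStarRing.norm_one)) o
  have hc : Commute (Mo.π (qEl D o)) (Mo.π a) := by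
    rw [ha, prodE, map_list_prod, List.map_ofFn]
    refine (commute_prodE (fun i l => Mo.π (aEl D F o (g i) l)) φ fun i l => ?_).symm
    exact (commute_qa D F Mo o o (g i) l).symm
  rw [hc.eq, mul_assoc, h.2 t, h.1, div_div]

/-- A difference of symmetries of two random matrix units. -/
noncomputable def xEl (s : Bool) (g k : Fin N) : lp C ∞ := sym s (vEl D g) - sym s (vEl D k)

theorem map_xEl (s : Bool) (g k : Fin N) :
    Mo.π (xEl D s g k) = sym s (Mo.π (vEl D g)) - sym s (Mo.π (vEl D k)) := by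
  rw [xEl, map_sub, map_sym, map_sym]

theorem xEl_apply (s : Bool) (g k : Fin N) (j : ℕ) :
    xEl D s g k j = sym s (unit (D j).p ((D j).u g)) - sym s (unit (D j).p ((D j).u k)) := by
  rw [← lpEval_apply j (xEl D s g k), xEl, map_sub, map_sym, map_sym]
  rfl

theorem wEl_props (s : Bool) (l : Fin H) (o : Fin R) (g : Fin N) (j : ℕ) :
    ‖wEl D F s l o g j‖ ≤ 1 ∧ ∀ w ∈ (D j).W, Commute (wEl D F s l o g j) w :=
  ⟨norm_le_one_of_mem_Icc
      (shiftWin_mem_Icc F.cont F.nonneg F.sum _ _ (isSelfAdjoint_fld _ _) l).1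
      (shiftWin_mem_Icc F.cont F.nonneg F.sum _ _ (isSelfAdjoint_fld _ _) l).2,
    ((D j).commute_shiftWin _ _ _ g s).2.2.2⟩

theorem ww_props (s : Bool) (l l' : Fin H) (o : Fin R) (g k : Fin N) (j : ℕ) :
    ‖(wEl D F s l o g * wEl D F s l' o k) j‖ ≤ 1 ∧
      ∀ w ∈ (D j).W, Commute ((wEl D F s l o g * wEl D F s l' o k) j) w := by
  rw [lp.infty_coeFn_mul]
  exact ⟨(norm_mul_le _ _).trans (mul_le_one₀ (wEl_props D F s l o g j).1 (norm_nonneg _)
      (wEl_props D F s l' o k j).1),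
    fun w hw => ((wEl_props D F s l o g j).2 w hw).mul_left ((wEl_props D F s l' o k j).2 w hw)⟩

include hω hm hm0 hR hS in
/-- Meeting cells of one field see small squared differences. -/
theorem hash_one {η₁ : ℝ} (s : Bool) (g k : Fin N)
    (hh : ∀ᶠ j in (ω : Filter ℕ), ‖((R : ℂ))⁻¹ * ∑ o, ∑ l, (τ j).f
        (shiftWin (F.f l) (ang R o) F.T (fld s ((D j).u g)) *
          shiftWin (F.f l) (ang R o) F.T (fld s ((D j).u k)) *
          sqAvg ((D j).slots.B (g, s)) ((D j).slots.B (k, s)))‖ ≤ η₁) :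
    (Mo.T.f ((∑ l, Mo.π (cEl D F s l g) * Mo.π (cEl D F s l k)) *
      (Mo.π (xEl D s g k) * Mo.π (xEl D s g k)))).re ≤ η₁ := by
  have e : ∀ l, Mo.π (cEl D F s l g) * Mo.π (cEl D F s l k) =
      ∑ o, Mo.π (wEl D F s l o g * wEl D F s l o k) * Mo.π (qEl D o) := fun l => by
    simp only [cEl, map_sum, map_mul]
    rw [sum_mul_sum_orth (fun o o' h => qEl_mul D Mo hω hm hm0 hR hS h) (proj_sums D Mo).1
      fun o o' => commute_qw D F Mo s l o o' g]
    exact Finset.sum_congr rfl fun o _ =>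
      ((commute_qw D F Mo s l o o g).mul_right (commute_qw D F Mo s l o o k)).eq
  have hz : (∑ l, Mo.π (cEl D F s l g) * Mo.π (cEl D F s l k)) * (Mo.π (xEl D s g k) * Mo.π (xEl D s g k)) =
      Mo.π (∑ o, ∑ l, wEl D F s l o g * wEl D F s l o k *
        (qEl D o * (xEl D s g k * xEl D s g k))) := by
    simp only [e, Finset.sum_mul, map_sum, map_mul, mul_assoc]
    exact Finset.sum_comm
  rw [hz]
  refine le_of_forall_pos_le_add fun δ hδ => Mo.re_le ?_
  have hcard : Tendsto (fun j => (R : ℝ) * H * err R S (m j) (tol R S (m j))) ω (𝓝 ((R * H : ℝ) * 0)) :=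
    (tendsto_err hω hm).const_mul _
  rw [mul_zero] at hcard
  filter_upwards [hh, hcard.eventually_lt_const hδ] with j hj herr
  have hk : 0 < R * S * m j := by have := hm0 j; positivity
  rw [← lpEval_apply j (∑ o, _), map_sum, map_sum, Complex.re_sum]
  simp only [map_sum, map_mul, Complex.re_sum]
  set a : Fin R → Fin H → C j := fun o l =>
    shiftWin (F.f l) (ang R o) F.T (fld s ((D j).u g)) *
      shiftWin (F.f l) (ang R o) F.T (fld s ((D j).u k)) with ha
  set A := sqAvg ((D j).slots.B (g, s)) ((D j).slots.B (k, s))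
  have hb : ∀ o l, ((τ j).f (lpEval j (wEl D F s l o g) * lpEval j (wEl D F s l o k) *
      (lpEval j (qEl D o) * (lpEval j (xEl D s g k) * lpEval j (xEl D s g k))))).re ≤
      ((τ j).f (a o l * A) / (R : ℂ)).re + err R S (m j) (tol R S (m j)) := by
    intro o l
    have hp := ww_props D F s l l o g k j
    rw [lp.infty_coeFn_mul] at hp
    have h := (D j).trace_qo_diff (tol_nonneg _ _ _) (tol_le_one _ _ _) hk hp.2 hp.1 o g k s
    rw [← xEl_apply] at h
    have h' := (Complex.abs_re_le_norm _).trans h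
    rw [Complex.sub_re] at h'
    have := (abs_le.1 h').2
    show ((τ j).f (wEl D F s l o g j * wEl D F s l o k j *
      (qo (D j).p o * (xEl D s g k j * xEl D s g k j)))).re ≤ _
    simp only [Pi.mul_apply] at this
    exact sub_le_iff_le_add'.1 this
  refine (Finset.sum_le_sum fun o _ => Finset.sum_le_sum fun l _ => hb o l).trans ?_
  simp only [Finset.sum_add_distrib, Finset.sum_const, Finset.card_univ, Fintype.card_fin,
    nsmul_eq_mul, ← Complex.re_sum, ← Finset.sum_div]
  refine add_le_add ?_ (by linarith)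
  rw [div_eq_inv_mul]
  exact (Complex.re_le_norm _).trans hj

include hω hm hm0 hR hS in
/-- Different cells of one field are disjoint. -/
theorem overlap_one {η₂ : ℝ} (s : Bool) (g : Fin N) {l l' : Fin H}
    (hh : ∀ᶠ j in (ω : Filter ℕ),
      ‖((R : ℂ))⁻¹ • ∑ o, shiftWin (F.f l) (ang R o) F.T (fld s ((D j).u g)) *
        shiftWin (F.f l') (ang R o) F.T (fld s ((D j).u g))‖ ≤ η₂) :
    (Mo.T.f (Mo.π (cEl D F s l g) * Mo.π (cEl D F s l' g))).re ≤ η₂ := by
  have e : Mo.π (cEl D F s l g) * Mo.π (cEl D F s l' g) =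
      ∑ o, Mo.π (wEl D F s l o g * wEl D F s l' o g) * Mo.π (qEl D o) := by
    simp only [cEl, map_sum, map_mul]
    rw [sum_mul_sum_orth (fun o o' h => qEl_mul D Mo hω hm hm0 hR hS h) (proj_sums D Mo).1
      fun o o' => commute_qw D F Mo s l o o' g]
    exact Finset.sum_congr rfl fun o _ =>
      ((commute_qw D F Mo s l o o g).mul_right (commute_qw D F Mo s l' o o g)).eq
  rw [e, map_sum, Finset.sum_congr rfl fun o _ => (trace_qp D Mo hω hm hm0 hR hS
    (fun j => (ww_props D F s l l' o g g j).2) (fun j => (ww_props D F s l l' o g g j).1) o).1,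
    ← Finset.sum_div, ← map_sum Mo.T.f,
    ← map_sum Mo.π, div_eq_inv_mul, ← smul_eq_mul, ← map_smul Mo.T.f, ← map_smul Mo.π]
  refine Mo.re_le (hh.mono fun j hj => ?_)
  refine ((Complex.re_le_norm _).trans ((τ j).bound _)).trans (le_of_eq_of_le ?_ hj)
  rw [← lpEval_apply j (_ • _), map_smul, map_sum]
  simp only [map_mul]
  rfl

section order

variable [PartialOrder Mo.X] [StarOrderedRing Mo.X]

include hω hm in
theorem cell_facts (s s' : Bool) (l l' : Fin H) (g g' : Fin N) :
    0 ≤ Mo.π (cEl D F s l g) ∧ Mo.π (cEl D F s l g) ≤ 1 ∧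
      Commute (Mo.π (cEl D F s l g)) (Mo.π (cEl D F s' l' g')) := by
  have h := cell_props D F Mo hω hm s s' l l' g g'
  refine ⟨h.1, ?_, h.2.2.1⟩
  rw [← h.2.1]
  exact Finset.single_le_sum (f := fun k => Mo.π (cEl D F s k g))
    (fun k _ => (cell_props D F Mo hω hm s s k k g g).1) (Finset.mem_univ l)

include hω hm hm0 hR hS in
theorem hash_limit {η₁ : ℝ} (g k : Fin N)
    (hh : ∀ s, ∀ᶠ j in (ω : Filter ℕ), ‖((R : ℂ))⁻¹ * ∑ o, ∑ l, (τ j).f
        (shiftWin (F.f l) (ang R o) F.T (fld s ((D j).u g)) *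
          shiftWin (F.f l) (ang R o) F.T (fld s ((D j).u k)) *
          sqAvg ((D j).slots.B (g, s)) ((D j).slots.B (k, s)))‖ ≤ η₁) :
    (Mo.T.f (∑ l, Mo.π (lEl D F g l) * Mo.π (lEl D F k l) *
      (star (Mo.π (vEl D g) - Mo.π (vEl D k)) * (Mo.π (vEl D g) - Mo.π (vEl D k)) +
        (Mo.π (vEl D g) - Mo.π (vEl D k)) * star (Mo.π (vEl D g) - Mo.π (vEl D k))))).re ≤ η₁ := by
  set c : Bool → Fin H → Fin N → Mo.X := fun s l g => Mo.π (cEl D F s l g) with hc
  have hf := cell_facts D F Mo hω hm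
  set A : Bool → Mo.X := fun s => ∑ l, c s l g * c s l k with hA
  have hA01 : ∀ s, 0 ≤ A s ∧ A s ≤ 1 := fun s => by
    have h : ∀ l, 0 ≤ c s l g * c s l k ∧ c s l g * c s l k ≤ c s l g := fun l =>
      have := mul_mem_Icc (hf s s l l g k).1 (hf s s l l g k).2.1 (hf s s l l k g).1
        (hf s s l l k g).2.1 (hf s s l l g k).2.2
      ⟨this.1, this.2.1⟩
    exact ⟨Finset.sum_nonneg fun l _ => (h l).1,
      (Finset.sum_le_sum fun l _ => (h l).2).trans (cell_props D F Mo hω hm s s ⟨0, by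
        rcases Nat.eq_zero_or_pos H with rfl | hH
        · exfalso; simpa using F.sum 0
        · exact hH⟩ ⟨0, by
        rcases Nat.eq_zero_or_pos H with rfl | hH
        · exfalso; simpa using F.sum 0
        · exact hH⟩ g g).2.1.le⟩
  have hAB : Commute (A false) (A true) := Commute.sum_left _ _ _ fun l _ =>
    Commute.sum_right _ _ _ fun l' _ =>
      (((hf _ _ l l' g g).2.2).mul_right (hf _ _ l l' g k).2.2).mul_left
        (((hf _ _ l l' k g).2.2).mul_right (hf _ _ l l' k k).2.2)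
  have e : ∑ l, Mo.π (lEl D F g l) * Mo.π (lEl D F k l) = A false * A true := by
    simp only [hA, Finset.sum_mul_sum, Fintype.sum_prod_type, lEl, map_mul]
    refine Finset.sum_congr rfl fun l _ => Finset.sum_congr rfl fun l' _ => ?_
    change c false l g * c true l' g * (c false l k * c true l' k) = _
    rw [mul_assoc, ← mul_assoc (c true l' g), ((hf true false l' l g k).2.2).eq, mul_assoc,
      ← mul_assoc (c false l g)]
  rw [← Finset.sum_mul, e, star_mul_add_mul_star, mul_smul_comm, map_smul, smul_eq_mul,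
    sym_sub, sym_sub, ← map_xEl, ← map_xEl, mul_add, map_add,
    show (1 / 2 : ℂ) = ((1 / 2 : ℝ) : ℂ) by norm_num, Complex.re_ofReal_mul, Complex.add_re]
  have hsq : ∀ s, 0 ≤ Mo.π (xEl D s g k) * Mo.π (xEl D s g k) := fun s => by
    have hs : star (Mo.π (xEl D s g k)) = Mo.π (xEl D s g k) := by
      rw [map_xEl, star_sub, (isSelfAdjoint_sym s _).star_eq, (isSelfAdjoint_sym s _).star_eq]
    exact le_of_le_of_eq (star_mul_self_nonneg _) (by rw [hs])
  have b : ∀ s, (Mo.T.f (A false * A true * (Mo.π (xEl D s g k) * Mo.π (xEl D s g k)))).re ≤ η₁ := by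
    intro s
    refine (re_mul_mono Mo.T ?_ (hsq s)).trans (hash_one D F Mo hω hm hm0 hR hS s g k (hh s))
    have h := mul_mem_Icc (hA01 false).1 (hA01 false).2 (hA01 true).1 (hA01 true).2 hAB
    cases s
    · exact h.2.1
    · rw [hAB.eq]
      exact (mul_mem_Icc (hA01 true).1 (hA01 true).2 (hA01 false).1 (hA01 false).2 hAB.symm).2.1
  linarith [b false, b true]

include hω hm hm0 hR hS in
theorem overlap_limit {η₂ : ℝ} (g : Fin N) {l l' : Fin H × Fin H} (hne : l ≠ l')
    (hh : ∀ (s : Bool) (l l' : Fin H), l ≠ l' → ∀ᶠ j in (ω : Filter ℕ),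
      ‖((R : ℂ))⁻¹ • ∑ o, shiftWin (F.f l) (ang R o) F.T (fld s ((D j).u g)) *
        shiftWin (F.f l') (ang R o) F.T (fld s ((D j).u g))‖ ≤ η₂) :
    (Mo.T.f (Mo.π (lEl D F g l) * Mo.π (lEl D F g l'))).re ≤ η₂ := by
  have hf := cell_facts D F Mo hω hm
  simp only [lEl, map_mul]
  set a := Mo.π (cEl D F false l.1 g)
  set a' := Mo.π (cEl D F false l'.1 g)
  set b := Mo.π (cEl D F true l.2 g)
  set b' := Mo.π (cEl D F true l'.2 g)
  have e : a * b * (a' * b') = a * a' * (b * b') := by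
    rw [mul_assoc, ← mul_assoc b, (hf true false l.2 l'.1 g g).2.2.eq, mul_assoc, ← mul_assoc a]
  have hA := mul_mem_Icc (hf false false l.1 l'.1 g g).1 (hf false false l.1 l'.1 g g).2.1
    (hf false false l'.1 l.1 g g).1 (hf false false l'.1 l.1 g g).2.1
    (hf false false l.1 l'.1 g g).2.2
  have hB := mul_mem_Icc (hf true true l.2 l'.2 g g).1 (hf true true l.2 l'.2 g g).2.1
    (hf true true l'.2 l.2 g g).1 (hf true true l'.2 l.2 g g).2.1
    (hf true true l.2 l'.2 g g).2.2
  have hAB : Commute (a * a') (b * b') :=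
    ((hf _ _ l.1 l.2 g g).2.2.mul_right (hf _ _ l.1 l'.2 g g).2.2).mul_left
      ((hf _ _ l'.1 l.2 g g).2.2.mul_right (hf _ _ l'.1 l'.2 g g).2.2)
  rw [e]
  by_cases h1 : l.1 = l'.1
  · have h2 : l.2 ≠ l'.2 := fun h2 => hne (Prod.ext h1 h2)
    refine (re_mono Mo.T ?_).trans
      (overlap_one D F Mo hω hm hm0 hR hS true g (hh true _ _ h2))
    rw [hAB.eq]
    exact (mul_mem_Icc hB.1 hB.2.2 hA.1 hA.2.2 hAB.symm).2.1
  · exact (re_mono Mo.T (mul_mem_Icc hA.1 hA.2.2 hB.1 hB.2.2 hAB).2.1).trans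
      (overlap_one D F Mo hω hm hm0 hR hS false g (hh false _ _ h1))

include hω hm hm0 hR hS in
theorem exists_core {η₁ η₂ : ℝ}
    (hhash : ∀ (s : Bool) (g k : Fin N), ∀ᶠ j in (ω : Filter ℕ),
      ‖((R : ℂ))⁻¹ * ∑ o, ∑ l, (τ j).f
        (shiftWin (F.f l) (ang R o) F.T (fld s ((D j).u g)) *
          shiftWin (F.f l) (ang R o) F.T (fld s ((D j).u k)) *
          sqAvg ((D j).slots.B (g, s)) ((D j).slots.B (k, s)))‖ ≤ η₁)
    (hover : ∀ (s : Bool) (g : Fin N) (l l' : Fin H), l ≠ l' → ∀ᶠ j in (ω : Filter ℕ),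
      ‖((R : ℂ))⁻¹ • ∑ o, shiftWin (F.f l) (ang R o) F.T (fld s ((D j).u g)) *
        shiftWin (F.f l') (ang R o) F.T (fld s ((D j).u g))‖ ≤ η₂) :
    ∃ K : CoreData Mo.T (Fin N) (Fin H × Fin H) S η₁ η₂,
      (∀ g, K.V g = Mo.π (vEl D g)) ∧ (∀ g l, K.E g l = Mo.π (lEl D F g l)) ∧
        ∀ t, K.P t = Mo.π (pEl D t) := by
  have hk : ∀ j, 0 < R * S * m j := fun j => by have := hm0 j; positivity
  have hc := cell_props D F Mo hω hm
  have hp : ∀ t, 0 ≤ Mo.π (pEl D t) := fun t => Mo.nonneg fun j => ((D j).qo_props.2.2.1 t).1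
  refine ⟨{
    V := fun g => Mo.π (vEl D g)
    E := fun g l => Mo.π (lEl D F g l)
    P := fun t => Mo.π (pEl D t)
    V_sq := fun g => ?_
    V_one := fun g => ?_
    E_nonneg := fun g l => ?_
    E_sum := fun g => ?_
    E_comm := fun g h l l' => ?_
    E_V := fun g h l => ?_
    P_nonneg := hp
    P_sum := (proj_sums D Mo).2
    P_mul := fun t t' ht => pEl_mul D Mo hω hm hm0 hR hS ht
    P_V := fun t g => (lp_commute fun j => ((D j).commute_unit g).2 t).map Mo.π
    P_E := fun t g l => ?_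
    indep := fun k g φ t => indep_limit D F Mo hω hm hm0 hR hS k g φ t
    hash := fun g k => hash_limit D F Mo hω hm hm0 hR hS g k fun s => hhash s g k
    overlap := fun g l l' hne => overlap_limit D F Mo hω hm hm0 hR hS g hne fun s => hover s g },
    fun _ => rfl, fun _ _ => rfl, fun _ => rfl⟩
  · rw [← map_mul]
    exact eq_zero_of_le_err Mo hω hm fun j => by
      rw [lp.infty_coeFn_mul]
      exact (D j).n2_unit_sq (tol_nonneg _ _ _) (tol_le_one _ _ _) (hk j) g
  · rw [← sub_eq_zero, ← map_star, ← map_mul, ← map_mul, ← map_add, ← map_one Mo.π, ← map_sub]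
    exact eq_zero_of_le_err Mo hω hm fun j => by
      rw [← lpEval_apply, map_sub, map_add, map_mul, map_mul, map_star, map_one]
      exact (D j).n2_unit_defect (tol_nonneg _ _ _) (tol_le_one _ _ _) (hk j) g
  · rw [lEl, map_mul]
    exact Commute.mul_nonneg (hc false true l.1 l.2 g g).1 (hc true true l.2 l.2 g g).1
      (hc false true l.1 l.2 g g).2.2.1
  · simp only [lEl, map_mul, Fintype.sum_prod_type, ← Finset.mul_sum]
    have h : ∀ l : Fin H, ∑ k, Mo.π (cEl D F true k g) = 1 := fun l => (hc true true l l g g).2.1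
    calc ∑ l, Mo.π (cEl D F false l g) * ∑ k, Mo.π (cEl D F true k g)
        = ∑ l, Mo.π (cEl D F false l g) := Finset.sum_congr rfl fun l _ => by rw [h l, mul_one]
      _ = 1 := by
        rcases Nat.eq_zero_or_pos H with rfl | hH
        · exfalso; simpa using F.sum 0
        · exact (hc false false ⟨0, hH⟩ ⟨0, hH⟩ g g).2.1
  · simp only [lEl, map_mul]
    exact (((hc false false l.1 l'.1 g h).2.2.1).mul_right (hc false true l.1 l'.2 g h).2.2.1)
      |>.mul_left (((hc true false l.2 l'.1 g h).2.2.1).mul_right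
        (hc true true l.2 l'.2 g h).2.2.1)
  · simp only [lEl, map_mul]
    exact (hc false false l.1 l.1 g h).2.2.2.1.mul_left (hc true true l.2 l.2 g h).2.2.2.1
  · simp only [lEl, map_mul]
    exact ((hc false false l.1 l.1 g g).2.2.2.2 t).mul_right
      ((hc true true l.2 l.2 g g).2.2.2.2 t)

end order

include hω hm hm0 hR hS in
theorem map_eq_of_close (hN : 0 < N) (D' : DataSeq τ N R S m) (hu : ∀ j, (D' j).u = (D j).u)
    (hp : ∀ j x, (τ j).hsq ((D j).p x - (D' j).p x) ≤ tol R S (m j)) :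
    (∀ g, Mo.π (vEl D' g) = Mo.π (vEl D g)) ∧
      (∀ g l, Mo.π (lEl D' F g l) = Mo.π (lEl D F g l)) ∧
      ∀ t, Mo.π (pEl D' t) = Mo.π (pEl D t) := by
  have h := fun j g => (D j).n2_change (tol_nonneg _ _ _) (tol_le_one _ _ _)
    (by have := hm0 j; positivity) (D' j) (hu j) (hp j) g
  have key : ∀ (x y : lp C ∞),
      (∀ j, (τ j).n2 (x j - y j) ≤ err R S (m j) (tol R S (m j))) → Mo.π y = Mo.π x := fun x y hb =>
    (Mo.eq_of_tendsto (squeeze_zero (fun _ => Real.sqrt_nonneg _) hb (tendsto_err hω hm))).symm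
  refine ⟨fun g => key _ _ fun j => (h j g).1, fun g l => ?_, fun t => ?_⟩
  · have hw : ∀ s k o, wEl D' F s k o g = wEl D F s k o g := fun s k o =>
      Subtype.ext (funext fun j => by
        show shiftWin _ _ _ (fld s ((D' j).u g)) = shiftWin _ _ _ (fld s ((D j).u g))
        rw [hu j])
    simp only [lEl, cEl, map_mul, map_sum, hw]
    simp only [fun o => key (qEl D o) (qEl D' o) fun j => (h j g).2.1 o]
  · exact key _ _ fun j => (h j ⟨0, hN⟩).2.2 t

end Vale.Agent.P095.Mix
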