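import Vale.Agent.P095.Mix.Defs

/-! P095: the construction commutes with star homomorphisms; the clipped element is a contraction. -/

open scoped ComplexOrder

namespace Vale.Agent.P095.Mix

open Gamma

variable {C D : Type*} [CStarAlgebra C] [CStarAlgebra D]

theorem continuous_clipFun :
    Continuous fun z : ℂ => (((max 1 (Real.sqrt z.re))⁻¹ : ℝ) : ℂ) :=
  Complex.continuous_ofReal.comp ((continuous_const.max (Real.continuous_sqrt.comp
    Complex.continuous_re)).inv₀ fun _ => (lt_of_lt_of_le one_pos (le_max_left _ _)).ne')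

theorem norm_clip_le (x : C) : ‖clip x‖ ≤ 1 := by
  set a := star x * x with ha
  have hn : IsStarNormal a := (IsSelfAdjoint.star_mul_self x).isStarNormal
  set k : ℂ → ℂ := fun z => (((max 1 (Real.sqrt z.re))⁻¹ : ℝ) : ℂ) with hk
  have hkc : Continuous k := continuous_clipFun
  have e : star (clip x) * clip x = cfc (fun z => k z * z * k z) a := by
    rw [cfc_mul (fun z => k z * z) k a (by fun_prop) (by fun_prop),
      cfc_mul k (fun z => z) a (by fun_prop) (by fun_prop), cfc_id' ℂ a]
    have hks : star (cfc k a) = cfc k a := by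
      rw [← cfc_star]
      exact cfc_congr fun z _ => by simp [hk]
    rw [clip, star_mul, hks]
    simp only [mul_assoc, ha, hk]
  have h : ‖star (clip x) * clip x‖ ≤ 1 := by
    let := CStarAlgebra.spectralOrder C
    have := CStarAlgebra.spectralOrderedRing C
    rw [e]
    refine norm_cfc_le zero_le_one fun z hz => ?_
    have hz0 : 0 ≤ z.re ∧ z = (z.re : ℂ) :=
      ⟨(Complex.le_def.1 (spectrum_nonneg_of_nonneg (star_mul_self_nonneg x) hz)).1,
        (IsSelfAdjoint.star_mul_self x).mem_spectrum_eq_re hz⟩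
    have hm : 0 < max 1 (Real.sqrt z.re) := lt_of_lt_of_le one_pos (le_max_left _ _)
    show ‖k z * z * k z‖ ≤ 1
    rw [norm_mul, norm_mul, hk, Complex.norm_real, Real.norm_of_nonneg (inv_nonneg.2 hm.le),
      show ‖z‖ = z.re by rw [hz0.2, Complex.norm_real, Real.norm_of_nonneg hz0.1, Complex.ofReal_re]]
    calc (max 1 (Real.sqrt z.re))⁻¹ * z.re * (max 1 (Real.sqrt z.re))⁻¹
        = Real.sqrt z.re ^ 2 / max 1 (Real.sqrt z.re) ^ 2 := by
          rw [Real.sq_sqrt hz0.1]; field_simp
      _ ≤ 1 := by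
          rw [div_le_one (by positivity)]
          exact pow_le_pow_left₀ (Real.sqrt_nonneg _) (le_max_right _ _) 2
  rw [CStarRing.norm_star_mul_self] at h
  nlinarith [norm_nonneg (clip x)]

theorem clip_of_norm_le {x : C} (hx : ‖x‖ ≤ 1) : clip x = x := by
  have hn : IsStarNormal (star x * x) := (IsSelfAdjoint.star_mul_self x).isStarNormal
  rw [clip, cfc_congr (g := fun _ => (1 : ℂ)) fun z hz => ?_, cfc_const_one ℂ (star x * x),
    mul_one]
  have h1 : ‖z‖ ≤ 1 := by
    rcases subsingleton_or_nontrivial C with h | h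
    · simp [spectrum.of_subsingleton] at hz
    · refine (spectrum.norm_le_norm_of_mem hz).trans ?_
      rw [CStarRing.norm_star_mul_self]
      nlinarith [norm_nonneg x]
  have : z.re ≤ 1 := (Complex.re_le_norm z).trans h1
  rw [max_eq_left (Real.sqrt_le_one.2 this), inv_one, Complex.ofReal_one]

theorem map_clip (φ : C →⋆ₐ[ℂ] D) (x : C) : φ (clip x) = clip (φ x) := by
  have : Continuous φ := AddMonoidHomClass.continuous_of_bound φ 1 fun y => by
    simpa using NonUnitalStarAlgHom.norm_apply_le φ y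
  rw [clip, clip, map_mul, StarAlgHom.map_cfc φ _ _ continuous_clipFun.continuousOn this
    (IsSelfAdjoint.star_mul_self x).isStarNormal
    ((IsSelfAdjoint.star_mul_self x).map φ).isStarNormal, map_mul, map_star]

theorem isSelfAdjoint_sym (s : Bool) (u : C) : IsSelfAdjoint (sym s u) := by
  cases s <;>
    simp [sym, IsSelfAdjoint, star_smul, add_comm, ← smul_neg]

theorem map_sym (φ : C →⋆ₐ[ℂ] D) (s : Bool) (u : C) : φ (sym s u) = sym s (φ u) := by
  cases s <;> simp [sym, map_star]

theorem isSelfAdjoint_fld {M : ℕ} (s : Bool) (u : Fin M → C) : IsSelfAdjoint (fld s u) :=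
  IsSelfAdjoint.smul (by simp [IsSelfAdjoint]) (isSelfAdjoint_sum _ fun a _ => isSelfAdjoint_sym s (u a))

theorem map_fld (φ : C →⋆ₐ[ℂ] D) {M : ℕ} (s : Bool) (u : Fin M → C) :
    φ (fld s u) = fld s fun a => φ (u a) := by
  simp only [fld, avgFld, map_smul, map_sum, map_sym]

theorem map_shiftWin (φ : C →⋆ₐ[ℂ] D) {f : ℝ → ℝ} (hf : Continuous f) (θ t : ℝ) {Z : C}
    (hZ : IsSelfAdjoint Z) : φ (shiftWin f θ t Z) = shiftWin f θ t (φ Z) :=
  map_window φ (by fun_prop) t hZ

theorem map_cell (φ : C →⋆ₐ[ℂ] D) {f : ℝ → ℝ} (hf : Continuous f) (T : ℝ) {R S M : ℕ}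
    (p : Fin R × Fin S × Fin M → C) {Z : C} (hZ : IsSelfAdjoint Z) :
    φ (cell f T p Z) = cell f T (fun x => φ (p x)) (φ Z) := by
  simp only [cell, qo, map_sum, map_mul, map_shiftWin φ hf _ _ hZ]

theorem map_mixU (φ : C →⋆ₐ[ℂ] D) {L : Type*} [Fintype L] [DecidableEq L] {n S : ℕ}
    (sel : (L → ℝ) → Fin S → L) (E : Fin n → L → C) (V : Fin n → C) (P : Fin S → C) :
    φ (mixU sel E V P) =
      mixU sel (fun i l => φ (E i l)) (fun i => φ (V i)) (fun s => φ (P s)) := by
  simp only [mixU, prodE, amp, map_sum, map_mul, map_smul, map_list_prod, List.map_ofFn,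
    Function.comp_def]

theorem Param.map_raw (φ : C →⋆ₐ[ℂ] D) (P : Param) (hf : ∀ l, Continuous (P.f l)) {n M : ℕ}
    (u : Fin n → Fin M → C) (p : Fin P.R × Fin P.S × Fin M → C) :
    φ (P.raw u p) = P.raw (fun i a => φ (u i a)) (fun x => φ (p x)) := by
  rw [Param.raw, Param.raw, map_mixU]
  simp only [lab, unit, ps, map_mul, map_sum, map_cell φ (hf _) _ _ (isSelfAdjoint_fld _ _),
    map_fld]
  rfl

theorem Param.map_elt (φ : C →⋆ₐ[ℂ] D) (P : Param) (hf : ∀ l, Continuous (P.f l)) {n M : ℕ}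
    (u : Fin n → Fin M → C) (p : Fin P.R × Fin P.S × Fin M → C) :
    φ (P.elt u p) = P.elt (fun i a => φ (u i a)) (fun x => φ (p x)) := by
  rw [Param.elt, map_clip, Param.map_raw φ P hf]
  rfl

end Vale.Agent.P095.Mix
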