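import Vale.Agent.P095.Gamma.Ultra
import Vale.Agent.P095.Mix.Tools

/-! P095: the tracial ultraproduct of a sequence of algebras, through `lp C ∞`. -/

open Filter Topology BoundedContinuousFunction
open scoped ENNReal

namespace Vale.Agent.P095.Mix

open Gamma

universe u

variable {C : ℕ → Type u} [∀ j, CStarAlgebra (C j)] [∀ j, Nontrivial (C j)]

noncomputable instance : CStarAlgebra (lp C ∞) where

/-- Evaluation at one index. -/
noncomputable def lpEval (j : ℕ) : lp C ∞ →⋆ₐ[ℂ] C j where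
  toFun x := x j
  map_one' := by rw [lp.infty_coeFn_one]; rfl
  map_mul' x y := by rw [lp.infty_coeFn_mul]; rfl
  map_zero' := rfl
  map_add' _ _ := rfl
  commutes' r := by
    rw [Algebra.algebraMap_eq_smul_one, lp.coeFn_smul, lp.infty_coeFn_one,
      Algebra.algebraMap_eq_smul_one]
    rfl
  map_star' x := by rw [lp.coeFn_star]; rfl

@[simp] theorem lpEval_apply (j : ℕ) (x : lp C ∞) : lpEval j x = x j := rfl

omit [∀ j, Nontrivial (C j)] in
/-- A family bounded by `c` as an element of the product. -/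
noncomputable def lpMk (x : ∀ j, C j) (c : ℝ) (h : ∀ j, ‖x j‖ ≤ c) : lp C ∞ :=
  ⟨x, memℓp_infty ⟨c, by rintro _ ⟨j, rfl⟩; exact h j⟩⟩

/-- Constant sequences. -/
noncomputable def constHom (A : Type*) [CStarAlgebra A] : A →⋆ₐ[ℂ] (ℕ →ᵇ A) where
  toFun a := BoundedContinuousFunction.const ℕ a
  map_one' := rfl
  map_mul' _ _ := rfl
  map_zero' := rfl
  map_add' _ _ := rfl
  commutes' _ := rfl
  map_star' _ := rfl

/-- A limit model of a sequence of tracial algebras. -/
structure ProductModel (τ : ∀ j, TraceState (C j)) (ω : Ultrafilter ℕ) where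
  X : Type u
  [inst : CStarAlgebra X]
  T : TraceState X
  π : lp C ∞ →⋆ₐ[ℂ] X
  tendsto : ∀ x : lp C ∞, Tendsto (fun j => (τ j).f (x j)) ω (𝓝 (T.f (π x)))
  faithful : ∀ x : lp C ∞, T.hsq (π x) = 0 → π x = 0

attribute [instance] ProductModel.inst

theorem exists_productModel (τ : ∀ j, TraceState (C j)) (ω : Ultrafilter ℕ) :
    Nonempty (ProductModel τ ω) := by
  let τs : ℕ → TraceState (lp C ∞) := fun j =>
    { f := (τ j).f.comp (lpEval j).toAlgHom.toLinearMap
      trace := fun x y => by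
        show (τ j).f (lpEval j (x * y)) = (τ j).f (lpEval j (y * x))
        rw [map_mul (lpEval j), map_mul (lpEval j), (τ j).trace]
      nonneg := fun x => by
        show 0 ≤ ((τ j).f (lpEval j (star x * x))).re
        rw [map_mul (lpEval j), map_star]
        exact (τ j).nonneg _
      star_map := fun x => by
        show (τ j).f (lpEval j (star x)) = _
        rw [map_star, (τ j).star_map]
        rfl
      one := by
        show (τ j).f (lpEval j 1) = 1
        rw [map_one, (τ j).one]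
      bound := fun x => ((τ j).bound _).trans (lp.norm_apply_le_norm (by simp) x j) }
  obtain ⟨M⟩ := exists_limitModel τs ω
  exact ⟨{
    X := M.C
    T := M.τ
    π := M.π.comp (constHom (lp C ∞))
    tendsto := fun x => M.tendsto (constHom (lp C ∞) x)
    faithful := fun x => M.faithful _ }⟩

variable {τ : ∀ j, TraceState (C j)} {ω : Ultrafilter ℕ} (Mo : ProductModel τ ω)

theorem ProductModel.tendsto_hsq (x : lp C ∞) :
    Tendsto (fun j => (τ j).hsq (x j)) ω (𝓝 (Mo.T.hsq (Mo.π x))) := by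
  have h := (Complex.continuous_re.tendsto _).comp (Mo.tendsto (star x * x))
  rw [map_mul, map_star] at h
  refine h.congr fun j => ?_
  show ((τ j).f (lpEval j (star x * x))).re = _
  rw [map_mul (lpEval j), map_star]
  rfl

/-- What is 2-small in the limit is zero in the model. -/
theorem ProductModel.eq_of_tendsto {x y : lp C ∞}
    (h : Tendsto (fun j => (τ j).n2 (x j - y j)) ω (𝓝 0)) : Mo.π x = Mo.π y := by
  rw [← sub_eq_zero, ← map_sub]
  refine Mo.faithful _ (tendsto_nhds_unique (Mo.tendsto_hsq (x - y)) ?_)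
  have h2 := h.mul h
  rw [mul_zero] at h2
  refine h2.congr fun j => ?_
  rw [← sq, TraceState.n2_sq]
  rfl

theorem ProductModel.eq_zero_of_tendsto {x : lp C ∞}
    (h : Tendsto (fun j => (τ j).n2 (x j)) ω (𝓝 0)) : Mo.π x = 0 := by
  rw [← map_zero Mo.π]
  exact Mo.eq_of_tendsto (h.congr fun j => by simp)

theorem ProductModel.trace_eq {x : lp C ∞} {z : ℕ → ℂ} {c : ℂ}
    (h : Tendsto (fun j => (τ j).f (x j) - z j) ω (𝓝 0)) (hz : Tendsto z ω (𝓝 c)) :
    Mo.T.f (Mo.π x) = c :=
  tendsto_nhds_unique (Mo.tendsto x) (by simpa using h.add hz)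

theorem ProductModel.nonneg [∀ j, PartialOrder (C j)] [∀ j, StarOrderedRing (C j)]
    [PartialOrder Mo.X] [StarOrderedRing Mo.X] {x : lp C ∞} (hx : ∀ j, 0 ≤ x j) :
    0 ≤ Mo.π x := by
  have hb : ∀ j, ‖CFC.sqrt (x j)‖ ≤ Real.sqrt ‖x‖ := fun j => by
    refine Real.le_sqrt_of_sq_le ?_
    calc ‖CFC.sqrt (x j)‖ ^ 2 = ‖star (CFC.sqrt (x j)) * CFC.sqrt (x j)‖ := by
          rw [CStarRing.norm_star_mul_self, sq]
      _ = ‖x j‖ := by
          rw [Vale.Agent.P101.star_sqrt, CFC.sqrt_mul_sqrt_self _ (hx j)]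
      _ ≤ ‖x‖ := lp.norm_apply_le_norm (by simp) x j
  have e : x = star (lpMk _ _ hb) * lpMk _ _ hb := by
    refine Subtype.ext (funext fun j => ?_)
    change x j = (star (lpMk _ _ hb) * lpMk _ _ hb : lp C ∞) j
    rw [← lpEval_apply j (star _ * _), map_mul, map_star]
    change x j = star (CFC.sqrt (x j)) * CFC.sqrt (x j)
    rw [Vale.Agent.P101.star_sqrt, CFC.sqrt_mul_sqrt_self _ (hx j)]
  rw [e, map_mul, map_star]
  exact star_mul_self_nonneg _

theorem ProductModel.re_le {x : lp C ∞} {b : ℝ}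
    (h : ∀ᶠ j in (ω : Filter ℕ), ((τ j).f (x j)).re ≤ b) : (Mo.T.f (Mo.π x)).re ≤ b :=
  le_of_tendsto ((Complex.continuous_re.tendsto _).comp (Mo.tendsto x)) h

end Vale.Agent.P095.Mix
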