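import Vale.Agent.P095.Mix.Decay
import Vale.Agent.P095.Gamma.Windows

/-!
P095: randomly shifted windows of slot fields.

Averaging over `R > 2 D` shifts kills every Fourier term of total degree `≠ 0`; what remains decays
by `norm_trace_decay`.
-/

open scoped Real
open Filter Topology

namespace Vale.Agent.P095.Mix

open Gamma

universe u v

variable {C : Type*} [CStarAlgebra C]

/-- A shifted trigonometric polynomial of a field. -/
noncomputable def trigPoly (D : ℕ) (c : ℤ → ℂ) (φ T : ℝ) (Z : C) : C :=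
  ∑ d ∈ Finset.Icc (-(D : ℤ)) D,
    (c d * Complex.exp ((d * φ : ℝ) * Complex.I)) • uExp (d * T) Z

/-- Trigonometric data. -/
def IsTrig (g : ℝ → ℝ) (D : ℕ) (c : ℤ → ℂ) (κ : ℝ) : Prop :=
  ∀ θ : ℝ, ‖(g θ : ℂ) - ∑ d ∈ Finset.Icc (-(D : ℤ)) D,
      c d * Complex.exp ((d * θ : ℝ) * Complex.I)‖ ≤ κ

theorem IsTrig.kappa_nonneg {g : ℝ → ℝ} {D : ℕ} {c : ℤ → ℂ} {κ : ℝ} (h : IsTrig g D c κ) :
    0 ≤ κ :=
  (norm_nonneg _).trans (h 0)

theorem IsTrig.extend {g : ℝ → ℝ} {D D' : ℕ} {c : ℤ → ℂ} {κ : ℝ} (h : IsTrig g D c κ)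
    (hD : D ≤ D') :
    IsTrig g D' (fun d => if d ∈ Finset.Icc (-(D : ℤ)) D then c d else 0) κ := by
  intro θ
  have hsub : Finset.Icc (-(D : ℤ)) D ⊆ Finset.Icc (-(D' : ℤ)) D' :=
    Finset.Icc_subset_Icc (by omega) (by omega)
  refine le_of_eq_of_le ?_ (h θ)
  congr 2
  rw [← Finset.sum_subset hsub fun d _ hd => by simp [hd]]
  exact Finset.sum_congr rfl fun d hd => by simp [hd]

theorem norm_shiftWin_sub_le {g : ℝ → ℝ} (hg : Continuous g) {D : ℕ} {c : ℤ → ℂ} {κ : ℝ}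
    (h : IsTrig g D c κ) (φ T : ℝ) {Z : C} (hZ : IsSelfAdjoint Z) :
    ‖shiftWin g φ T Z - trigPoly D c φ T Z‖ ≤ κ := by
  refine norm_window_sub_le (g := fun θ => g (θ + φ))
    (c := fun d => c d * Complex.exp ((d * φ : ℝ) * Complex.I)) (by fun_prop) h.kappa_nonneg
    (fun θ => ?_) T hZ
  refine le_of_eq_of_le ?_ (h (θ + φ))
  congr 2
  refine Finset.sum_congr rfl fun d _ => ?_
  rw [mul_assoc, ← Complex.exp_add]
  push_cast
  ring_nf

theorem norm_shiftWin_le {g : ℝ → ℝ} {B : ℝ} (hB0 : 0 ≤ B) (hB : ∀ θ, ‖g θ‖ ≤ B) (φ T : ℝ)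
    (Z : C) : ‖shiftWin g φ T Z‖ ≤ B :=
  norm_cfc_le hB0 fun z _ => by rw [Complex.norm_real]; exact hB _

theorem norm_mul_sub_mul_le {x y p q : C} {a b κ : ℝ} (hxp : ‖x - p‖ ≤ κ) (hyq : ‖y - q‖ ≤ κ)
    (hx : ‖x‖ ≤ a) (hy : ‖y‖ ≤ b) : ‖x * y - p * q‖ ≤ κ * b + (a + κ) * κ := by
  have hp : ‖p‖ ≤ a + κ := by
    have := norm_le_norm_add_norm_sub' p x
    rw [norm_sub_rev] at this
    linarith
  have e : x * y - p * q = (x - p) * y + p * (y - q) := by
    rw [sub_mul, mul_sub]; abel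
  rw [e]
  refine (norm_add_le _ _).trans (add_le_add ?_ ?_)
  · exact (norm_mul_le _ _).trans (mul_le_mul hxp hy (norm_nonneg _)
      ((norm_nonneg _).trans hxp))
  · exact (norm_mul_le _ _).trans (mul_le_mul hp hyq (norm_nonneg _)
      ((norm_nonneg _).trans hp))

theorem sum_exp_ang {R : ℕ} {d : ℤ} (hd : d.natAbs < R) :
    ∑ o : Fin R, Complex.exp ((d * ang R o : ℝ) * Complex.I) = if d = 0 then (R : ℂ) else 0 := by
  split_ifs with h
  · simp [h]
  have hR : (R : ℂ) ≠ 0 := Nat.cast_ne_zero.2 (by omega)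
  set ζ := Complex.exp (2 * π * Complex.I * (d / R : ℂ)) with hζ
  have e : ∀ o : Fin R, Complex.exp ((d * ang R o : ℝ) * Complex.I) = ζ ^ (o : ℕ) := by
    intro o
    rw [hζ, ← Complex.exp_nat_mul, ang]
    push_cast
    field_simp
  rw [Finset.sum_congr rfl fun o _ => e o, Fin.sum_univ_eq_sum_range fun i => ζ ^ i]
  have h1 : ζ ^ R = 1 := by
    rw [hζ, ← Complex.exp_nat_mul, ← Complex.exp_int_mul_two_pi_mul_I d]
    congr 1
    field_simp
  have hne : ζ ≠ 1 := by
    rw [hζ, Ne, Complex.exp_eq_one_iff]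
    rintro ⟨n, hn⟩
    have h2 : (d : ℂ) = ((n * R : ℤ) : ℂ) := by
      push_cast
      have := Complex.two_pi_I_ne_zero
      field_simp at hn
      linear_combination hn
    have h3 : (d : ℤ) = n * R := by exact_mod_cast h2
    rcases eq_or_ne n 0 with rfl | hn0
    · exact h (by simpa using h3)
    · have h4 : d.natAbs = n.natAbs * R := by rw [h3, Int.natAbs_mul]; rfl
      have : R ≤ n.natAbs * R := Nat.le_mul_of_pos_left _ (Int.natAbs_pos.2 hn0)
      omega
  rw [geom_sum_eq hne, h1, sub_self, zero_div]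

theorem avg_exp_ang {R : ℕ} {d : ℤ} (hd : d.natAbs < R) :
    (R : ℂ)⁻¹ * ∑ o : Fin R, Complex.exp ((d * ang R o : ℝ) * Complex.I) =
      if d = 0 then 1 else 0 := by
  rw [sum_exp_ang hd]
  split_ifs with h
  · exact inv_mul_cancel₀ (Nat.cast_ne_zero.2 (by omega))
  · simp

theorem natAbs_le_of_mem_Icc {D : ℕ} {d : ℤ} (hd : d ∈ Finset.Icc (-(D : ℤ)) D) :
    d.natAbs ≤ D := by
  rw [Finset.mem_Icc] at hd
  omega

theorem isSelfAdjoint_avgFld {M : ℕ} {B : Fin M → C} (hB : ∀ a, star (B a) = B a) :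
    IsSelfAdjoint (avgFld B) := by
  simp [IsSelfAdjoint, avgFld, star_smul, star_sum, hB]

theorem uExp_avgFld {τ : TraceState C} {Γ : Type*} {M : ℕ} (S : SlotSystem τ Γ (Fin M)) (g : Γ)
    (r : ℝ) : uExp r (avgFld (S.B g)) = expSum S g (r / Real.sqrt M) Finset.univ := by
  simp only [uExp, expSum, avgFld, smul_smul]
  push_cast
  ring_nf

theorem norm_B_le {τ : TraceState C} {Γ ι : Type*} (S : SlotSystem τ Γ ι) (g : Γ) (a : ι) :
    ‖S.B g a‖ ≤ 1 := by
  have h := CStarRing.norm_star_mul_self (x := S.B g a)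
  rw [S.B_sa, S.B_sq] at h
  rcases subsingleton_or_nontrivial C with hC | hC
  · simp [Subsingleton.elim (S.B g a) 0]
  · rw [CStarRing.norm_one] at h
    nlinarith [norm_nonneg (S.B g a)]

theorem norm_sqAvg_le {τ : TraceState C} {Γ : Type*} {M : ℕ} (S : SlotSystem τ Γ (Fin M))
    (g k : Γ) : ‖sqAvg (S.B g) (S.B k)‖ ≤ 4 := by
  rw [sqAvg, norm_smul, norm_inv, Complex.norm_natCast]
  have h : ‖∑ a, (S.B g a - S.B k a) * (S.B g a - S.B k a)‖ ≤ M * 4 := by
    refine (norm_sum_le _ _).trans ((Finset.sum_le_card_nsmul _ _ 4 fun a _ => ?_).trans_eq ?_)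
    · have := (norm_sub_le (S.B g a) (S.B k a)).trans (add_le_add (norm_B_le S g a)
        (norm_B_le S k a))
      refine (norm_mul_le _ _).trans ?_
      nlinarith [norm_nonneg (S.B g a - S.B k a)]
    · simp
  rcases Nat.eq_zero_or_pos M with rfl | hM
  · simp
  · rw [inv_mul_le_iff₀ (by exact_mod_cast hM)]
    exact h

/-- A periodic continuous function is bounded. -/
theorem exists_bound_of_periodic {f : ℝ → ℝ} (hf : Continuous f)
    (hp : Function.Periodic f (2 * π)) : ∃ B, 0 ≤ B ∧ ∀ θ, ‖f θ‖ ≤ B := by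
  obtain ⟨B, hB⟩ := (hp.isBounded_of_continuous Real.two_pi_pos.ne' hf).exists_norm_le
  exact ⟨max B 0, le_max_right _ _, fun θ => (hB _ ⟨θ, rfl⟩).trans (le_max_left _ _)⟩


/-- A continuous `2π`-periodic function has trigonometric approximations of every accuracy. -/
theorem exists_trigApprox {f : ℝ → ℝ} (hf : Continuous f) (hp : Function.Periodic f (2 * π)) :
    ∃ mean : ℝ, ∀ κ > 0, TrigApprox f mean κ := by
  refine ⟨∫ x in (0 : ℝ)..1, f (2 * π * x), fun κ hκ => ?_⟩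
  have h := trigApprox_of_periodic (h := fun x => f (2 * π * x)) (by fun_prop)
    (fun x => by simp only [mul_add, mul_one]; exact hp _) (mean := ∫ x in (0 : ℝ)..1, f (2 * π * x))
    hκ (by rw [sub_self, norm_zero]; linarith)
  simpa [mul_div_cancel₀ _ Real.two_pi_pos.ne'] using h




/-- The shifts average a window to its mean, in norm. -/
theorem exists_avg_shiftWin_bound {g : ℝ → ℝ} (hg : Continuous g) {mean κ : ℝ}
    (h : TrigApprox g mean κ) :
    ∃ D : ℕ, ∀ (C : Type u) [CStarAlgebra C] (R : ℕ), D < R → ∀ (T : ℝ) (Z : C),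
      IsSelfAdjoint Z →
      ‖((R : ℂ))⁻¹ • ∑ o, shiftWin g (ang R o) T Z - (mean : ℂ) • (1 : C)‖ ≤ 2 * κ := by
  obtain ⟨D, c, hm, happ⟩ := h
  refine ⟨D, fun C _ R hR T Z hZ => ?_⟩
  have hR' : (R : ℂ) ≠ 0 := Nat.cast_ne_zero.2 (by omega)
  have hκ : 0 ≤ κ := (norm_nonneg _).trans hm
  have e : (R : ℂ)⁻¹ • ∑ o, trigPoly D c (ang R o) T Z = c 0 • (1 : C) := by
    simp only [trigPoly, Finset.smul_sum, smul_smul]
    rw [Finset.sum_comm, Finset.sum_eq_single (0 : ℤ)]
    · simp only [Int.cast_zero, zero_mul, uExp_zero, Complex.ofReal_zero, Complex.exp_zero, mul_one,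
        Finset.sum_const, Finset.card_univ, Fintype.card_fin, ← Nat.cast_smul_eq_nsmul ℂ, smul_smul]
      rw [mul_inv_cancel_left₀ hR']
    · intro d hd hd0
      rw [← Finset.sum_smul, show ∑ o : Fin R, (R : ℂ)⁻¹ * (c d *
          Complex.exp ((d * ang R o : ℝ) * Complex.I)) = c d * ((R : ℂ)⁻¹ *
            ∑ o : Fin R, Complex.exp ((d * ang R o : ℝ) * Complex.I)) by
        rw [Finset.mul_sum, Finset.mul_sum]; exact Finset.sum_congr rfl fun o _ => by ring,
        avg_exp_ang (lt_of_le_of_lt (natAbs_le_of_mem_Icc hd) hR), if_neg hd0, mul_zero,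
        zero_smul]
    · simp
  have h1 : ‖(R : ℂ)⁻¹ • ∑ o, shiftWin g (ang R o) T Z - c 0 • (1 : C)‖ ≤ κ := by
    rw [← e, ← smul_sub, ← Finset.sum_sub_distrib, norm_smul, norm_inv, Complex.norm_natCast,
      inv_mul_le_iff₀ (by exact_mod_cast (show 0 < R by omega))]
    refine (norm_sum_le _ _).trans ((Finset.sum_le_card_nsmul _ _ κ fun o _ =>
      norm_shiftWin_sub_le hg happ (ang R o) T hZ).trans_eq ?_)
    simp
  have h2 : ‖c 0 • (1 : C) - (mean : ℂ) • (1 : C)‖ ≤ κ := by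
    rw [← sub_smul, norm_smul]
    rcases subsingleton_or_nontrivial C with hC | hC
    · simp [Subsingleton.elim (1 : C) 0, hκ]
    · rw [CStarRing.norm_one, mul_one]; exact hm
  linarith [norm_sub_le_norm_sub_add_norm_sub ((R : ℂ)⁻¹ • ∑ o, shiftWin g (ang R o) T Z)
    (c 0 • (1 : C)) ((mean : ℂ) • (1 : C))]



/-- The hash inequality: shifted cells of two fields rarely coincide where the slots differ. -/
theorem exists_hash_bound {H : ℕ} {f : Fin H → ℝ → ℝ} (hf : ∀ l, Continuous (f l))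
    (hf0 : ∀ l θ, 0 ≤ f l θ) (hf1 : ∀ l θ, f l θ ≤ 1) {κ : ℝ} (hκ : κ ≤ 1)
    (h : ∀ l, TrigApprox (f l) (1 / H) κ) :
    ∃ (D : ℕ) (W : ℝ), 0 ≤ W ∧ ∀ R : ℕ, 2 * D < R → ∀ T : ℝ, 1 ≤ T → ∀ᶠ M in atTop,
      ∀ (C : Type u) [CStarAlgebra C] [PartialOrder C] [StarOrderedRing C] (τ : TraceState C)
        (Γ : Type v) (S : SlotSystem τ Γ (Fin M)) (g k : Γ),
        ‖((R : ℂ))⁻¹ * ∑ o, ∑ l, τ.f (shiftWin (f l) (ang R o) T (avgFld (S.B g)) *
            shiftWin (f l) (ang R o) T (avgFld (S.B k)) * sqAvg (S.B g) (S.B k))‖ ≤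
          16 * H * κ + 4 * H * (1 / H + κ) ^ 2 + 5 * W / T ^ 2 := by
  choose D₀ c₀ hm₀ happ₀ using h
  set D := Finset.univ.sup D₀ with hD
  set c : Fin H → ℤ → ℂ := fun l d => if d ∈ Finset.Icc (-(D₀ l : ℤ)) (D₀ l) then c₀ l d else 0
    with hc
  have happ : ∀ l, IsTrig (f l) D (c l) κ := fun l =>
    IsTrig.extend (happ₀ l) (Finset.le_sup (Finset.mem_univ l))
  have hm : ∀ l, ‖c l 0‖ ≤ 1 / H + κ := fun l => by
    have := norm_le_norm_add_norm_sub' (c₀ l 0) ((1 / H : ℝ) : ℂ)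
    rw [Complex.norm_real, Real.norm_of_nonneg (by positivity)] at this
    simpa [hc] using this.trans (add_le_add le_rfl (hm₀ l))
  set w : ℤ → ℝ := fun d => ∑ l, ‖c l d‖ * ‖c l (-d)‖ with hw
  set W := ∑ d ∈ (Finset.Icc (-(D : ℤ)) D).erase 0, w d with hW
  have hw0 : ∀ d, 0 ≤ w d := fun d => Finset.sum_nonneg fun l _ => by positivity
  have hW0 : 0 ≤ W := Finset.sum_nonneg fun d _ => hw0 d
  refine ⟨D, W, hW0, fun R hR T hT => ?_⟩
  filter_upwards [(Real.tendsto_sqrt_atTop.comp tendsto_natCast_atTop_atTop).eventually_ge_atTop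
      (16 * ((D : ℝ) + 1) * T ^ 3)] with M hM C _ _ _ τ Γ S g k
  simp only [Function.comp] at hM
  have hT3 : T ≤ T ^ 3 := le_self_pow₀ hT (by norm_num)
  have hsM : 0 < Real.sqrt M := lt_of_lt_of_le (by positivity) hM
  have hM0 : 0 < M := Nat.pos_of_ne_zero fun h => by simp [h] at hsM
  have hR0 : (0 : ℝ) < R := by exact_mod_cast (show 0 < R by omega)
  set sq := sqAvg (S.B g) (S.B k) with hsq
  set Zg := avgFld (S.B g) with hZg
  set Zk := avgFld (S.B k) with hZk
  have sg : IsSelfAdjoint Zg := isSelfAdjoint_avgFld (S.B_sa g)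
  have sk : IsSelfAdjoint Zk := isSelfAdjoint_avgFld (S.B_sa k)
  set X : ℤ → ℤ → ℂ := fun d e => τ.f (uExp (d * T) Zg * uExp (e * T) Zk * sq) with hX
  set a : Fin R → Fin H → ℂ := fun o l => τ.f (shiftWin (f l) (ang R o) T Zg *
    shiftWin (f l) (ang R o) T Zk * sq) with ha
  set b : Fin R → Fin H → ℂ := fun o l => τ.f (trigPoly D (c l) (ang R o) T Zg *
    trigPoly D (c l) (ang R o) T Zk * sq) with hb
  have happrox : ∀ o l, ‖a o l - b o l‖ ≤ 12 * κ := fun o l => by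
    rw [ha, hb, ← map_sub, ← sub_mul]
    refine (τ.bound _).trans ((norm_mul_le _ _).trans ?_)
    have hb1 : ∀ θ, ‖f l θ‖ ≤ 1 := fun θ => by
      rw [Real.norm_of_nonneg (hf0 l θ)]; exact hf1 l θ
    have h2 := norm_mul_sub_mul_le (norm_shiftWin_sub_le (hf l) (happ l) (ang R o) T sg)
      (norm_shiftWin_sub_le (hf l) (happ l) (ang R o) T sk)
      (norm_shiftWin_le zero_le_one hb1 (ang R o) T Zg)
      (norm_shiftWin_le zero_le_one hb1 (ang R o) T Zk)
    have hκ0 := (happ l).kappa_nonneg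
    have h3 : κ * 1 + (1 + κ) * κ ≤ 3 * κ := by nlinarith
    exact (mul_le_mul (h2.trans h3) (norm_sqAvg_le S g k)
      (norm_nonneg _) (by linarith)).trans (le_of_eq (by ring))
  have hbexp : ∀ o l, b o l = ∑ d ∈ Finset.Icc (-(D : ℤ)) D, ∑ e ∈ Finset.Icc (-(D : ℤ)) D,
      c l d * c l e * X d e * Complex.exp (((d + e : ℤ) * ang R o : ℝ) * Complex.I) := by
    intro o l
    simp only [hb, hX, trigPoly]
    rw [Finset.sum_mul_sum]
    simp only [Finset.sum_mul, map_sum, smul_mul_assoc, mul_smul_comm, map_smul, smul_eq_mul]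
    refine Finset.sum_congr rfl fun d _ => Finset.sum_congr rfl fun e _ => ?_
    push_cast
    rw [add_mul, add_mul, Complex.exp_add]
    ring
  have havg : ∀ l, (R : ℂ)⁻¹ * ∑ o, b o l =
      ∑ d ∈ Finset.Icc (-(D : ℤ)) D, c l d * c l (-d) * X d (-d) := by
    intro l
    simp only [hbexp]
    rw [Finset.sum_comm, Finset.mul_sum]
    refine Finset.sum_congr rfl fun d hd => ?_
    rw [Finset.sum_comm, Finset.mul_sum, Finset.sum_eq_single (-d)]
    · rw [← Finset.mul_sum, mul_left_comm, avg_exp_ang (by simp; omega), if_pos (by simp), mul_one]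
    · intro e he hne
      have := natAbs_le_of_mem_Icc hd
      have := natAbs_le_of_mem_Icc he
      rw [← Finset.mul_sum, mul_left_comm, avg_exp_ang (by omega), if_neg (by omega), mul_zero]
    · intro h
      rw [Finset.mem_Icc] at hd h
      omega
  have hX0 : ‖X 0 0‖ ≤ 4 := by
    simp only [hX, Int.cast_zero, zero_mul, uExp_zero, one_mul]
    exact (τ.bound _).trans (norm_sqAvg_le S g k)
  have hXd : ∀ d ∈ (Finset.Icc (-(D : ℤ)) D).erase 0, ‖X d (-d)‖ ≤ 5 / T ^ 2 := by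
    intro d hd
    obtain ⟨hd0, hd⟩ := Finset.mem_erase.1 hd
    have hd1 : (1 : ℝ) ≤ |(d : ℝ)| := by exact_mod_cast Int.one_le_abs hd0
    have hdD : |(d : ℝ)| ≤ D := by
      rw [← Int.cast_abs]
      exact_mod_cast abs_le.2 (Finset.mem_Icc.1 hd)
    set r := (d : ℝ) * T / Real.sqrt M with hr
    have hr' : |r| = |(d : ℝ)| * T / Real.sqrt M := by
      rw [hr, abs_div, abs_mul, abs_of_pos hsM, abs_of_pos (by linarith : 0 < T)]
    have hr2 : |r| ≤ 1 / (16 * T ^ 2) := by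
      rw [hr', div_le_div_iff₀ hsM (by positivity)]
      nlinarith [pow_pos (show (0:ℝ) < T by linarith) 3]
    have h := norm_trace_decay S g k (r := r) (div_ne_zero (mul_ne_zero (Int.cast_ne_zero.2 hd0)
      (by linarith)) hsM.ne') (hr2.trans (by
        rw [div_le_div_iff₀ (by positivity) (by norm_num)]; nlinarith)) (by simpa using hM0)
    have e : X d (-d) = τ.f (sqAvg (S.B g) (S.B k) *
        (expSum S g r Finset.univ * expSum S k (-r) Finset.univ)) := by
      simp only [hX]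
      rw [τ.trace, hsq, hZg, hZk, uExp_avgFld, uExp_avgFld]
      push_cast
      rw [hr, neg_mul, neg_div]
    rw [e]
    refine le_trans ?_ (h.trans ?_)
    · simp [sqAvg]
    · rw [Fintype.card_fin, hr, div_pow, Real.sq_sqrt (Nat.cast_nonneg M)]
      have : (M : ℝ) ≠ 0 := by exact_mod_cast hM0.ne'
      rw [mul_div_cancel₀ _ this, mul_pow]
      have h4 : 4 / ((d : ℝ) ^ 2 * T ^ 2) ≤ 4 / T ^ 2 := by
        apply div_le_div_of_nonneg_left (by norm_num) (by positivity)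
        exact le_mul_of_one_le_left (sq_nonneg T) (by rw [← sq_abs]; nlinarith)
      have h5 : 16 * |(d : ℝ) * T / Real.sqrt M| ≤ 1 / T ^ 2 := by
        refine (mul_le_mul_of_nonneg_left hr2 (by norm_num)).trans_eq ?_
        field_simp
      calc _ ≤ 4 / T ^ 2 + 1 / T ^ 2 := add_le_add h4 h5
        _ = 5 / T ^ 2 := by ring
  have hb_bound : ‖(R : ℂ)⁻¹ * ∑ o, ∑ l, b o l‖ ≤
      4 * H * (1 / H + κ) ^ 2 + 5 * W / T ^ 2 := by
    rw [Finset.sum_comm, Finset.mul_sum]
    simp only [havg]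
    rw [Finset.sum_comm, ← Finset.add_sum_erase _ _ (show (0 : ℤ) ∈ Finset.Icc (-(D : ℤ)) D by
      simp)]
    refine (norm_add_le _ _).trans (add_le_add ?_ ?_)
    · refine (norm_sum_le _ _).trans ((Finset.sum_le_card_nsmul _ _ (4 * (1 / H + κ) ^ 2)
        fun l _ => ?_).trans_eq (by simp; ring))
      rw [neg_zero, norm_mul, norm_mul]
      have := norm_nonneg (c l 0)
      nlinarith [hm l, norm_nonneg (X 0 0), mul_le_mul (hm l) (hm l) this (by linarith [hm l])]
    · rw [mul_comm, mul_div_assoc, hW, Finset.sum_mul]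
      refine (norm_sum_le _ _).trans (Finset.sum_le_sum fun d hd => (norm_sum_le _ _).trans ?_)
      rw [hw, Finset.sum_mul]
      refine Finset.sum_le_sum fun l _ => ?_
      rw [norm_mul, norm_mul]
      exact mul_le_mul_of_nonneg_left (hXd d hd) (by positivity)
  have hdiff : ‖(R : ℂ)⁻¹ * ∑ o, ∑ l, a o l - (R : ℂ)⁻¹ * ∑ o, ∑ l, b o l‖ ≤ 16 * H * κ := by
    rw [← mul_sub, ← Finset.sum_sub_distrib, norm_mul, norm_inv, Complex.norm_natCast,
      inv_mul_le_iff₀ hR0]
    simp only [← Finset.sum_sub_distrib]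
    refine (norm_sum_le _ _).trans ((Finset.sum_le_card_nsmul _ _ (16 * H * κ) fun o _ =>
      (norm_sum_le _ _).trans ((Finset.sum_le_sum fun l _ => happrox o l).trans ?_)).trans_eq
        (by simp))
    simp only [Finset.sum_const, Finset.card_univ, Fintype.card_fin, nsmul_eq_mul]
    rcases Nat.eq_zero_or_pos H with hH | hH
    · simp [hH]
    · nlinarith [(happ ⟨0, hH⟩).kappa_nonneg, show (0 : ℝ) ≤ H by positivity]
  linarith [norm_le_norm_add_norm_sub' ((R : ℂ)⁻¹ * ∑ o, ∑ l, a o l)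
    ((R : ℂ)⁻¹ * ∑ o, ∑ l, b o l)]

/-- Windows of two fields commute in the limit. -/
theorem eventually_n2_comm_le {f f' : ℝ → ℝ} (hf : Continuous f) (hf' : Continuous f')
    (hp : Function.Periodic f (2 * π)) (hp' : Function.Periodic f' (2 * π)) (T φ φ' : ℝ) {η : ℝ}
    (hη : 0 < η) :
    ∀ᶠ M in atTop, ∀ (C : Type u) [CStarAlgebra C] [PartialOrder C] [StarOrderedRing C]
      (τ : TraceState C) (Γ : Type v) (S : SlotSystem τ Γ (Fin M)) (g k : Γ),
      τ.n2 (shiftWin f φ T (avgFld (S.B g)) * shiftWin f' φ' T (avgFld (S.B k)) -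
        shiftWin f' φ' T (avgFld (S.B k)) * shiftWin f φ T (avgFld (S.B g))) ≤ η := by
  obtain ⟨B, hB0, hB⟩ := exists_bound_of_periodic hf hp
  obtain ⟨B', hB0', hB'⟩ := exists_bound_of_periodic hf' hp'
  obtain ⟨m, hm⟩ := exists_trigApprox hf hp
  obtain ⟨m', hm'⟩ := exists_trigApprox hf' hp'
  set κ := min 1 (η / (4 * (B + B' + 1))) with hκ
  have hκ0 : 0 < κ := lt_min one_pos (by positivity)
  obtain ⟨D, c, -, happ⟩ := hm κ hκ0
  obtain ⟨D', c', -, happ'⟩ := hm' κ hκ0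
  set A := ((D : ℝ) + D') * |T| with hA
  set K := (∑ d ∈ Finset.Icc (-(D : ℤ)) D, ‖c d‖) * ∑ e ∈ Finset.Icc (-(D' : ℤ)) D', ‖c' e‖
    with hK
  have hlim : Tendsto (fun M : ℕ => K * Real.sqrt (32 * A ^ 3 / Real.sqrt M)) atTop (𝓝 0) := by
    have := ((tendsto_const_nhds (x := 32 * A ^ 3)).div_atTop
      (Real.tendsto_sqrt_atTop.comp tendsto_natCast_atTop_atTop)).sqrt.const_mul K
    simpa using this
  filter_upwards [hlim.eventually_le_const (half_pos hη)] with M hM C _ _ _ τ Γ S g k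
  set Zg := avgFld (S.B g) with hZg
  set Zk := avgFld (S.B k) with hZk
  have sg : IsSelfAdjoint Zg := isSelfAdjoint_avgFld (S.B_sa g)
  have sk : IsSelfAdjoint Zk := isSelfAdjoint_avgFld (S.B_sa k)
  set x := shiftWin f φ T Zg
  set y := shiftWin f' φ' T Zk
  set p := trigPoly D c φ T Zg with hp_def
  set q := trigPoly D' c' φ' T Zk with hq_def
  have hxp := norm_shiftWin_sub_le hf happ φ T sg
  have hyq := norm_shiftWin_sub_le hf' happ' φ' T sk
  have hx := norm_shiftWin_le (C := C) hB0 hB φ T Zg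
  have hy := norm_shiftWin_le (C := C) hB0' hB' φ' T Zk
  have e1 : ‖(x * y - y * x) - (p * q - q * p)‖ ≤ η / 2 := by
    have h1 := norm_mul_sub_mul_le hxp hyq hx hy
    have h2 := norm_mul_sub_mul_le hyq hxp hy hx
    rw [show (x * y - y * x) - (p * q - q * p) = (x * y - p * q) - (y * x - q * p) by abel]
    refine (norm_sub_le _ _).trans ((add_le_add h1 h2).trans ?_)
    have h3 := min_le_left 1 (η / (4 * (B + B' + 1)))
    have h4 := min_le_right 1 (η / (4 * (B + B' + 1)))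
    rw [le_div_iff₀ (by positivity), ← hκ] at h4
    rw [← hκ] at h3
    nlinarith
  have e2 : τ.n2 (p * q - q * p) ≤ K * Real.sqrt (32 * A ^ 3 / Real.sqrt M) := by
    have ex : p * q - q * p = ∑ d ∈ Finset.Icc (-(D : ℤ)) D, ∑ e ∈ Finset.Icc (-(D' : ℤ)) D',
        ((c d * Complex.exp ((d * φ : ℝ) * Complex.I)) *
          (c' e * Complex.exp ((e * φ' : ℝ) * Complex.I))) •
          (uExp (d * T) Zg * uExp (e * T) Zk - uExp (e * T) Zk * uExp (d * T) Zg) := by
      simp only [hp_def, hq_def, trigPoly, Finset.sum_mul_sum, smul_mul_smul_comm, smul_sub,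
        Finset.sum_sub_distrib]
      congr 1
      rw [Finset.sum_comm]
      exact Finset.sum_congr rfl fun d _ => Finset.sum_congr rfl fun e _ => by
        rw [mul_comm (c' e * _)]
    rw [ex, hK, Finset.sum_mul, Finset.sum_mul]
    refine (τ.n2_sum_le _ _).trans (Finset.sum_le_sum fun d hd => ?_)
    rw [Finset.mul_sum, Finset.sum_mul]
    refine (τ.n2_sum_le _ _).trans (Finset.sum_le_sum fun e he => ?_)
    rw [τ.n2_smul]
    simp only [norm_mul, Complex.norm_exp_ofReal_mul_I, mul_one]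
    refine mul_le_mul_of_nonneg_left (Real.sqrt_le_sqrt ?_) (by positivity)
    rw [hZg, hZk, uExp_avgFld, uExp_avgFld]
    refine (hsq_expSum_comm_le S g k _ _).trans ?_
    rw [Fintype.card_fin]
    have hb : ∀ (n : ℤ), n.natAbs ≤ D + D' → |(n : ℝ) * T / Real.sqrt M| ≤ A / Real.sqrt M := by
      intro n hn
      rw [abs_div, abs_mul, abs_of_nonneg (Real.sqrt_nonneg _), hA, ← Int.cast_abs,
        ← Nat.cast_natAbs]
      gcongr
      exact_mod_cast hn
    have h1 := hb d ((natAbs_le_of_mem_Icc hd).trans (by omega))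
    have h2 := hb e ((natAbs_le_of_mem_Icc he).trans (by omega))
    have hA0 : 0 ≤ A / Real.sqrt M := (abs_nonneg _).trans h1
    refine (mul_le_mul_of_nonneg_left (mul_le_mul (mul_le_mul h1 h2 (abs_nonneg _) hA0)
      (add_le_add h1 h2) (by positivity) (mul_nonneg hA0 hA0)) (by positivity)).trans_eq ?_
    rcases Nat.eq_zero_or_pos M with rfl | hM0
    · simp
    · have hs : Real.sqrt M ≠ 0 := (Real.sqrt_pos.2 (by exact_mod_cast hM0)).ne'
      have hsq := Real.mul_self_sqrt (Nat.cast_nonneg (α := ℝ) M)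
      field_simp
      rw [sq, hsq]
      ring
  calc τ.n2 (x * y - y * x)
      = τ.n2 ((p * q - q * p) + ((x * y - y * x) - (p * q - q * p))) := by rw [add_sub_cancel]
    _ ≤ _ := τ.n2_add_le _ _
    _ ≤ η / 2 + η / 2 := add_le_add (e2.trans hM) ((τ.n2_le_norm _).trans e1)
    _ = η := add_halves η

/-- A window of a field commutes with every single slot in the limit, in norm. -/
theorem eventually_norm_comm_le {f : ℝ → ℝ} (hf : Continuous f)
    (hp : Function.Periodic f (2 * π)) (T φ : ℝ) {η : ℝ} (hη : 0 < η) :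
    ∀ᶠ M in atTop, ∀ (C : Type u) [CStarAlgebra C] (τ : TraceState C) (Γ : Type v)
      (S : SlotSystem τ Γ (Fin M)) (g : Γ) (a : Fin M), ∀ y ∈ S.U a,
      ‖shiftWin f φ T (avgFld (S.B g)) * y - y * shiftWin f φ T (avgFld (S.B g))‖ ≤ η * ‖y‖ := by
  obtain ⟨m, hm⟩ := exists_trigApprox hf hp
  obtain ⟨D, c, -, happ⟩ := hm (η / 4) (by positivity)
  set K := (∑ d ∈ Finset.Icc (-(D : ℤ)) D, ‖c d‖) * (2 * ((D : ℝ) * |T|)) with hK
  filter_upwards [((tendsto_const_nhds (x := K)).div_atTop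
    (Real.tendsto_sqrt_atTop.comp tendsto_natCast_atTop_atTop)).eventually_le_const
      (half_pos hη)] with M hM C _ τ Γ S g a y hy
  simp only [Function.comp] at hM
  set Zg := avgFld (S.B g) with hZg
  set x := shiftWin f φ T Zg
  set p := trigPoly D c φ T Zg with hp_def
  have hxp : ‖x - p‖ ≤ η / 4 :=
    norm_shiftWin_sub_le hf happ φ T (isSelfAdjoint_avgFld (S.B_sa g))
  have e2 : ‖p * y - y * p‖ ≤ K / Real.sqrt M * ‖y‖ := by
    simp only [hp_def, trigPoly, Finset.sum_mul, Finset.mul_sum, ← Finset.sum_sub_distrib,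
      smul_mul_assoc, mul_smul_comm, ← smul_sub]
    rw [hK, Finset.sum_mul, Finset.sum_div, Finset.sum_mul]
    refine (norm_sum_le _ _).trans (Finset.sum_le_sum fun d hd => ?_)
    rw [norm_smul, norm_mul, Complex.norm_exp_ofReal_mul_I, mul_one, mul_div_assoc, mul_assoc]
    refine mul_le_mul_of_nonneg_left ?_ (norm_nonneg _)
    rw [hZg, uExp_avgFld]
    refine (norm_expSum_comm_le S g _ a hy).trans ?_
    refine mul_le_mul_of_nonneg_right ?_ (norm_nonneg _)
    rw [mul_div_assoc (2 : ℝ), abs_div, abs_mul,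
      abs_of_nonneg (Real.sqrt_nonneg _), ← Int.cast_abs,
      ← Nat.cast_natAbs]
    gcongr
    exact_mod_cast natAbs_le_of_mem_Icc hd
  have e3 : x * y - y * x = (x - p) * y - y * (x - p) + (p * y - y * p) := by
    rw [sub_mul, mul_sub]; abel
  rw [e3]
  refine (norm_add_le _ _).trans ?_
  have e4 : ‖(x - p) * y - y * (x - p)‖ ≤ η / 2 * ‖y‖ := by
    refine (norm_sub_le _ _).trans ?_
    have := norm_mul_le (x - p) y
    have := norm_mul_le y (x - p)
    nlinarith [norm_nonneg y]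
  have := mul_le_mul_of_nonneg_right hM (norm_nonneg y)
  linarith

end Vale.Agent.P095.Mix
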