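import Vale.Agent.P095.Mix.Est
import Vale.Agent.P095.Mix.Win
import Vale.Agent.P095.Mix.Core
import Vale.Agent.P095.Mix.Natural
import Vale.Agent.P095.Mix.Product

/-! P095: in the tracial ultraproduct, slots and windows become exact core data. -/

open Filter Topology
open scoped ENNReal

namespace Vale.Agent.P095.Mix

open Gamma

universe u

theorem err_tol_le (R S M : ℕ) : err R S M (tol R S M) ≤ 32 / ((M : ℝ) + 1) := by
  have hk : (0 : ℝ) ≤ ((R * S * M : ℕ) : ℝ) := Nat.cast_nonneg _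
  rw [err, tol, Real.sqrt_sq (inv_nonneg.2 (mul_nonneg (pow_nonneg (by linarith) 3) (by positivity))), mul_inv, mul_assoc, div_eq_mul_inv]
  refine mul_le_mul_of_nonneg_left ?_ (by norm_num)
  rw [← mul_assoc]
  refine mul_le_of_le_one_left (by positivity) ?_
  rw [← div_eq_mul_inv, div_le_one (by positivity)]
  exact pow_le_pow_left₀ hk (by linarith) 3

theorem tol_le_one (R S M : ℕ) : tol R S M ≤ 1 := by
  have h : (1 : ℝ) ≤ (((R * S * M : ℕ) : ℝ) + 1) ^ 3 * (M + 1) :=
    one_le_mul_of_one_le_of_one_le (one_le_pow₀ (le_add_of_nonneg_left (Nat.cast_nonneg _)))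
      (le_add_of_nonneg_left (Nat.cast_nonneg _))
  exact pow_le_one₀ (by positivity) (inv_le_one_of_one_le₀ h)

theorem tol_nonneg (R S M : ℕ) : 0 ≤ tol R S M := sq_nonneg _

section data

variable {C : Type u} [CStarAlgebra C] [PartialOrder C] [StarOrderedRing C] {τ : TraceState C}
  {Γ : Type*} {R S M : ℕ} {e : ℝ} (D : MixData τ Γ R S M e)

theorem MixData.commute_shiftWin (f : ℝ → ℝ) (φ t : ℝ) (g : Γ) (s : Bool) :
    (∀ x, Commute (shiftWin f φ t (fld s (D.u g))) (D.p x)) ∧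
    (∀ o, Commute (qo D.p o) (shiftWin f φ t (fld s (D.u g)))) ∧
    (∀ s', Commute (ps D.p s') (shiftWin f φ t (fld s (D.u g)))) ∧
    ∀ w ∈ D.W, Commute (shiftWin f φ t (fld s (D.u g))) w := by
  have h : ∀ x, Commute (shiftWin f φ t (fld s (D.u g))) (D.p x) := fun x =>
    commute_window _ (isSelfAdjoint_fld _ _) (D.commute_fld_p x g s)
  exact ⟨h, fun o => (Commute.sum_right _ _ _ fun x _ => h _).symm,
    fun s' => (Commute.sum_right _ _ _ fun x _ => h _).symm,
    fun w hw => commute_window _ (isSelfAdjoint_fld _ _) (D.commute_fld_W hw g s)⟩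

theorem shiftWin_mem_Icc {H : ℕ} {f : Fin H → ℝ → ℝ} (hf : ∀ l, Continuous (f l))
    (hf0 : ∀ l θ, 0 ≤ f l θ) (hsum : ∀ θ, ∑ l, f l θ = 1) (φ t : ℝ) {Z : C}
    (hZ : IsSelfAdjoint Z) (l : Fin H) :
    0 ≤ shiftWin (f l) φ t Z ∧ shiftWin (f l) φ t Z ≤ 1 := by
  refine ⟨window_nonneg (fun θ => hf0 l _) t Z, ?_⟩
  rw [← sum_window (fun l => (hf l).comp (continuous_add_const φ)) (fun θ => hsum (θ + φ)) t hZ]
  exact Finset.single_le_sum (f := fun l => shiftWin (f l) φ t Z)
    (fun l _ => window_nonneg (fun θ => hf0 l _) t Z) (Finset.mem_univ l)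

end data

variable {C : ℕ → Type u} [∀ j, CStarAlgebra (C j)] [∀ j, PartialOrder (C j)]
  [∀ j, StarOrderedRing (C j)] [∀ j, Nontrivial (C j)] {τ : ∀ j, TraceState (C j)}
  {N R S : ℕ} {m : ℕ → ℕ}

omit [∀ j, PartialOrder (C j)] [∀ j, StarOrderedRing (C j)] [∀ j, Nontrivial (C j)] in
theorem lp_commute {x y : lp C ∞} (h : ∀ j, Commute (x j) (y j)) : Commute x y :=
  Subtype.ext (funext fun j => by simpa [lp.infty_coeFn_mul] using (h j).eq)

/-- A sequence of slots and windows. -/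
abbrev DataSeq (τ : ∀ j, TraceState (C j)) (N R S : ℕ) (m : ℕ → ℕ) :=
  ∀ j, MixData (τ j) (Fin N) R S (m j) (tol R S (m j))

variable (D : DataSeq τ N R S m)

/-- The random matrix units. -/
noncomputable def vEl (g : Fin N) : lp C ∞ :=
  lpMk (fun j => unit (D j).p ((D j).u g)) 1 fun j => (D j).norm_unit_le g

/-- The offset projections. -/
noncomputable def qEl (o : Fin R) : lp C ∞ :=
  lpMk (fun j => qo (D j).p o) 1 fun j =>
    norm_le_one_of_mem_Icc ((D j).qo_props.1 o).1 ((D j).qo_props.1 o).2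

/-- The selection projections. -/
noncomputable def pEl (s : Fin S) : lp C ∞ :=
  lpMk (fun j => ps (D j).p s) 1 fun j =>
    norm_le_one_of_mem_Icc ((D j).qo_props.2.2.1 s).1 ((D j).qo_props.2.2.1 s).2

/-- Periodic windows forming a partition of unity. -/
structure WinFamily (H : ℕ) where
  f : Fin H → ℝ → ℝ
  T : ℝ
  cont : ∀ l, Continuous (f l)
  nonneg : ∀ l θ, 0 ≤ f l θ
  sum : ∀ θ, ∑ l, f l θ = 1
  periodic : ∀ l, Function.Periodic (f l) (2 * Real.pi)

variable {H : ℕ} (F : WinFamily H)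

/-- A shifted window of one field. -/
noncomputable def wEl (s : Bool) (l : Fin H) (o : Fin R) (g : Fin N) : lp C ∞ :=
  lpMk (fun j => shiftWin (F.f l) (ang R o) F.T (fld s ((D j).u g))) 1 fun j =>
    norm_le_one_of_mem_Icc (shiftWin_mem_Icc F.cont F.nonneg F.sum _ _ (isSelfAdjoint_fld _ _) l).1
      (shiftWin_mem_Icc F.cont F.nonneg F.sum _ _ (isSelfAdjoint_fld _ _) l).2

/-- A cell of one field. -/
noncomputable def cEl (s : Bool) (l : Fin H) (g : Fin N) : lp C ∞ :=
  ∑ o, qEl D o * wEl D F s l o g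

/-- A cell of both fields. -/
noncomputable def lEl (g : Fin N) (l : Fin H × Fin H) : lp C ∞ :=
  cEl D F false l.1 g * cEl D F true l.2 g

theorem lpEval_lEl (j : ℕ) (g : Fin N) (l : Fin H × Fin H) :
    lpEval j (lEl D F g l) = lab F.f F.T (D j).p ((D j).u g) l := by
  simp only [lEl, cEl, map_mul, map_sum]
  rfl

variable {ω : Ultrafilter ℕ} (Mo : ProductModel τ ω) [PartialOrder Mo.X] [StarOrderedRing Mo.X]
  (hω : (ω : Filter ℕ) ≤ atTop) (hm : Tendsto m atTop atTop) (hm0 : ∀ j, 0 < m j)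
  (hR : 0 < R) (hS : 0 < S)

omit [∀ j, PartialOrder (C j)] [∀ j, StarOrderedRing (C j)] [∀ j, Nontrivial (C j)] in
include hω hm in
theorem tendsto_err : Tendsto (fun j => err R S (m j) (tol R S (m j))) ω (𝓝 0) := by
  refine squeeze_zero (fun j => by unfold err; positivity) (fun j => err_tol_le R S (m j)) ?_
  have h : Tendsto (fun j => 32 * (1 / ((m j : ℝ) + 1))) ω (𝓝 (32 * 0)) :=
    ((tendsto_one_div_add_atTop_nhds_zero_nat.comp hm).mono_left hω).const_mul 32
  simpa [div_eq_mul_inv] using h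

omit [∀ j, StarOrderedRing (C j)] [PartialOrder Mo.X] [StarOrderedRing Mo.X] in
include hω hm in
theorem eq_zero_of_le_err {x : lp C ∞} (h : ∀ j, (τ j).n2 (x j) ≤ err R S (m j) (tol R S (m j))) :
    Mo.π x = 0 :=
  Mo.eq_zero_of_tendsto (squeeze_zero (fun _ => Real.sqrt_nonneg _) h (tendsto_err hω hm))

omit [PartialOrder Mo.X] [StarOrderedRing Mo.X] in
theorem proj_sums : ∑ o, Mo.π (qEl D o) = 1 ∧ ∑ s, Mo.π (pEl D s) = 1 := by
  constructor <;> rw [← map_sum, ← map_one Mo.π] <;> congr 1 <;>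
    refine Subtype.ext (funext fun j => ?_)
  · change lpEval j (∑ o, qEl D o) = lpEval j 1
    rw [map_sum, map_one]
    exact (D j).qo_props.2.1
  · change lpEval j (∑ s, pEl D s) = lpEval j 1
    rw [map_sum, map_one]
    exact (D j).qo_props.2.2.2.1

include hω hm hm0 hR hS

omit [PartialOrder Mo.X] [StarOrderedRing Mo.X] in
theorem qEl_mul {o o' : Fin R} (h : o ≠ o') : Mo.π (qEl D o) * Mo.π (qEl D o') = 0 := by
  rw [← map_mul]
  exact eq_zero_of_le_err Mo hω hm fun j => by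
    rw [lp.infty_coeFn_mul]
    exact (D j).n2_qo_mul (tol_nonneg _ _ _) (tol_le_one _ _ _) (by have := hm0 j; positivity) h

omit [PartialOrder Mo.X] [StarOrderedRing Mo.X] in
theorem pEl_mul {s s' : Fin S} (h : s ≠ s') : Mo.π (pEl D s) * Mo.π (pEl D s') = 0 := by
  rw [← map_mul]
  exact eq_zero_of_le_err Mo hω hm fun j => by
    rw [lp.infty_coeFn_mul]
    exact (D j).n2_ps_mul (tol_nonneg _ _ _) (tol_le_one _ _ _) (by have := hm0 j; positivity) h

omit [PartialOrder Mo.X] [StarOrderedRing Mo.X] hm0 hR hS in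
theorem commute_win (s s' : Bool) (l l' : Fin H) (o o' : Fin R) (g g' : Fin N) :
    Commute (Mo.π (wEl D F s l o g)) (Mo.π (wEl D F s' l' o' g')) := by
  rw [commute_iff_eq, ← map_mul, ← map_mul]
  refine Mo.eq_of_tendsto (Metric.tendsto_nhds.2 fun η hη => ?_)
  have h := eventually_n2_comm_le.{u, 0} (F.cont l) (F.cont l') (F.periodic l) (F.periodic l')
    F.T (ang R o) (ang R o') (half_pos hη)
  filter_upwards [hω (hm.eventually h)] with j hj
  rw [dist_zero_right, Real.norm_of_nonneg (n2_nonneg _ _)]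
  have := hj (C j) (τ j) _ (D j).slots (g, s) (g', s')
  rw [lp.infty_coeFn_mul, lp.infty_coeFn_mul]
  exact lt_of_le_of_lt this (half_lt_self hη)

omit [PartialOrder Mo.X] [StarOrderedRing Mo.X] hm0 hR hS in
theorem commute_win_v (s : Bool) (l : Fin H) (o : Fin R) (g g' : Fin N) :
    Commute (Mo.π (wEl D F s l o g)) (Mo.π (vEl D g')) := by
  rw [commute_iff_eq, ← map_mul, ← map_mul]
  refine Mo.eq_of_tendsto (Metric.tendsto_nhds.2 fun η hη => ?_)
  have h := eventually_norm_comm_le.{u, 0} (F.cont l) (F.periodic l) F.T (ang R o) (half_pos hη)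
  filter_upwards [hω (hm.eventually h)] with j hj
  rw [dist_zero_right, Real.norm_of_nonneg (n2_nonneg _ _), lp.infty_coeFn_mul,
    lp.infty_coeFn_mul]
  refine lt_of_le_of_lt (((τ j).n2_le_norm _).trans ?_) (half_lt_self hη)
  refine (D j).norm_unit_comm_le (half_pos hη).le (fun x => ?_) g' fun a => ?_
  · exact ((D j).commute_shiftWin _ _ _ g s).1 x
  · exact (hj (C j) (τ j) _ (D j).slots (g, s) a _ ((D j).unit_mem g' a)).trans
      (mul_le_of_le_one_right (half_pos hη).le ((D j).norm_u_le g' a))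

omit hω hm hm0 hR hS in
theorem win_props (s : Bool) (o : Fin R) (g : Fin N) :
    (∀ l, 0 ≤ Mo.π (wEl D F s l o g)) ∧ ∑ l, Mo.π (wEl D F s l o g) = 1 := by
  refine ⟨fun l => Mo.nonneg fun j =>
    (shiftWin_mem_Icc F.cont F.nonneg F.sum _ _ (isSelfAdjoint_fld _ _) l).1, ?_⟩
  rw [← map_sum, ← map_one Mo.π]
  congr 1
  refine Subtype.ext (funext fun j => ?_)
  change lpEval j (∑ l, wEl D F s l o g) = lpEval j 1
  rw [map_sum, map_one]
  exact sum_window (fun l => (F.cont l).comp (continuous_add_const _))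
    (fun θ => F.sum (θ + ang R o)) _ (isSelfAdjoint_fld _ _)

omit hω hm hm0 hR hS [PartialOrder Mo.X] [StarOrderedRing Mo.X] in
theorem commute_qw (s : Bool) (l : Fin H) (o o' : Fin R) (g : Fin N) :
    Commute (Mo.π (qEl D o')) (Mo.π (wEl D F s l o g)) :=
  (lp_commute fun j => ((D j).commute_shiftWin _ _ _ g s).2.1 o').map Mo.π

omit hm0 hR hS in
theorem cell_props (s s' : Bool) (l l' : Fin H) (g g' : Fin N) :
    0 ≤ Mo.π (cEl D F s l g) ∧ ∑ k, Mo.π (cEl D F s k g) = 1 ∧
      Commute (Mo.π (cEl D F s l g)) (Mo.π (cEl D F s' l' g')) ∧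
      Commute (Mo.π (cEl D F s l g)) (Mo.π (vEl D g')) ∧
      ∀ t, Commute (Mo.π (pEl D t)) (Mo.π (cEl D F s l g)) := by
  have hq : ∀ o, 0 ≤ Mo.π (qEl D o) := fun o => Mo.nonneg fun j => ((D j).qo_props.1 o).1
  simp only [cEl, map_sum, map_mul]
  refine ⟨Finset.sum_nonneg fun o _ => Commute.mul_nonneg (hq o)
    ((win_props D F Mo s o g).1 l) (commute_qw D F Mo s l o o g), ?_, ?_, ?_, fun t => ?_⟩
  · rw [Finset.sum_comm]
    simp only [← Finset.mul_sum, (win_props D F Mo s _ g).2, mul_one]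
    exact (proj_sums D Mo).1
  · refine Commute.sum_left _ _ _ fun o _ => Commute.sum_right _ _ _ fun o' _ => ?_
    exact (((lp_commute fun j => (D j).qo_props.2.2.2.2.1 o o').map Mo.π).mul_right
      (commute_qw D F Mo s' l' o' o g')).mul_left
      ((commute_qw D F Mo s l o o' g).symm.mul_right
        (commute_win D F Mo hω hm s s' l l' o o' g g'))
  · exact Commute.sum_left _ _ _ fun o _ =>
      ((lp_commute fun j => ((D j).commute_unit g').1 o).map Mo.π).mul_left
        (commute_win_v D F Mo hω hm s l o g g')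
  · exact Commute.sum_right _ _ _ fun o _ =>
      ((lp_commute fun j => ((D j).qo_props.2.2.2.2.2.1 o t).symm).map Mo.π).mul_right
        ((lp_commute fun j => ((D j).commute_shiftWin _ _ _ g s).2.2.1 t).map Mo.π)

end Vale.Agent.P095.Mix
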